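import Vale.Agent.P218R.Defs
import Vale.Agent.P366W.Gdiv

/-!
# P218R: tangential derivatives, cross product, traces, the normalisation of a gradient
-/

open MeasureTheory Metric Filter Topology Set
open scoped ContDiff ENNReal RealInnerProductSpace
open Vale.Agent.P366.Stmt (E)
open Vale.Agent.P366W

noncomputable section

namespace Vale.Agent.P218R

section tan

variable {X Y : Type*} [NormedAddCommGroup X] [NormedSpace ℝ X] [CompleteSpace X]
  [NormedAddCommGroup Y] [NormedSpace ℝ Y] {f : X → ℝ} {p : X}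

omit [CompleteSpace X] in
theorem range_top {l : X →L[ℝ] ℝ} (h : l ≠ 0) : l.range = ⊤ := by
  obtain ⟨e, he⟩ : ∃ e, l e ≠ 0 := by
    by_contra hc
    exact h (ContinuousLinearMap.ext fun e => not_not.1 fun he => hc ⟨e, he⟩)
  refine LinearMap.range_eq_top.2 fun c => ⟨(c / l e) • e, ?_⟩
  simp [div_mul_cancel₀ _ he]

/-- a function which vanishes on a regular level set has no tangential derivative -/
theorem tan_zero {g : X → Y} (hf : ContDiffAt ℝ 1 f p) (h0 : f p = 0) (h1 : fderiv ℝ f p ≠ 0)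
    (hg : DifferentiableAt ℝ g p) (h : ∀ᶠ q in 𝓝 p, f q = 0 → g q = 0) {v : X}
    (hv : fderiv ℝ f p v = 0) : fderiv ℝ g p v = 0 := by
  have hs := hf.hasStrictFDerivAt one_ne_zero
  have hr := range_top h1
  have h2 := (hs.to_implicitFunction hr).hasFDerivAt
  have h3 := hs.implicitFunction_apply_image hr
  have h4 := (hs.map_implicitFunction_eq hr).curry_nhds.self_of_nhds
  have h5 : Tendsto (hs.implicitFunction f _ hr (f p)) (𝓝 0) (𝓝 p) := by
    simpa only [ContinuousAt, h3] using h2.continuousAt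
  have h6 : HasFDerivAt g (fderiv ℝ g p) (hs.implicitFunction f _ hr (f p) 0) := by
    rw [h3]; exact hg.hasFDerivAt
  have h7 : (g ∘ hs.implicitFunction f _ hr (f p)) =ᶠ[𝓝 0] fun _ => 0 := by
    filter_upwards [h4, h5.eventually h] with z a b using b (a.trans h0)
  have h8 := (h6.comp _ h2).unique ((hasFDerivAt_const _ _).congr_of_eventuallyEq h7)
  exact DFunLike.congr_fun h8 ⟨v, hv⟩

/-- two defining functions have proportional differentials -/
theorem tan_prop {g : X → ℝ} (hf : ContDiffAt ℝ 1 f p) (h0 : f p = 0) (h1 : fderiv ℝ f p ≠ 0)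
    (hg : DifferentiableAt ℝ g p) (h : ∀ᶠ q in 𝓝 p, f q = 0 → g q = 0) :
    ∃ c : ℝ, fderiv ℝ g p = c • fderiv ℝ f p := by
  obtain ⟨e, he⟩ := LinearMap.range_eq_top.1 (range_top h1) 1
  have he' : fderiv ℝ f p e = 1 := he
  refine ⟨fderiv ℝ g p e, ContinuousLinearMap.ext fun v => ?_⟩
  have := tan_zero hf h0 h1 hg h (v := v - fderiv ℝ f p v • e) (by simp [he'])
  simp only [map_sub, map_smul, smul_eq_mul] at this
  simp only [smul_apply, smul_eq_mul]
  linarith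

end tan

/-! ### the cross product -/

@[simp] theorem cr0 (a b : E3) : cr a b 0 = a 1 * b 2 - a 2 * b 1 := rfl
@[simp] theorem cr1 (a b : E3) : cr a b 1 = a 2 * b 0 - a 0 * b 2 := rfl
@[simp] theorem cr2 (a b : E3) : cr a b 2 = a 0 * b 1 - a 1 * b 0 := rfl

theorem ext3 {a b : E3} (h0 : a 0 = b 0) (h1 : a 1 = b 1) (h2 : a 2 = b 2) : a = b := by
  ext i; fin_cases i; exacts [h0, h1, h2]

theorem inner3 (a b : E3) : ⟪a, b⟫ = a 0 * b 0 + a 1 * b 1 + a 2 * b 2 := by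
  rw [inner_eq_sum, Fin.sum_univ_three]

theorem norm_sq3 (a : E3) : ‖a‖ ^ 2 = a 0 ^ 2 + a 1 ^ 2 + a 2 ^ 2 := by
  rw [← real_inner_self_eq_norm_sq, inner3]; ring

/-- the cross product as a continuous bilinear map -/
def crL : E3 →L[ℝ] E3 →L[ℝ] E3 :=
  LinearMap.toContinuousLinearMap
    ((LinearMap.toContinuousLinearMap : (E3 →ₗ[ℝ] E3) ≃ₗ[ℝ] _).toLinearMap ∘ₗ
      LinearMap.mk₂ ℝ cr (fun a b c => by apply ext3 <;> simp <;> ring)
        (fun c a b => by apply ext3 <;> simp <;> ring)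
        (fun a b c => by apply ext3 <;> simp <;> ring)
        (fun c a b => by apply ext3 <;> simp <;> ring))

theorem crL_apply (a b : E3) : crL a b = cr a b := rfl

theorem cr_add_left (a b c : E3) : cr (a + b) c = cr a c + cr b c := by
  simp only [← crL_apply, map_add, add_apply]
theorem cr_add_right (a b c : E3) : cr a (b + c) = cr a b + cr a c := map_add (crL a) b c
theorem cr_sub_left (a b c : E3) : cr (a - b) c = cr a c - cr b c := by
  simp only [← crL_apply, map_sub, sub_apply]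
theorem cr_sub_right (a b c : E3) : cr a (b - c) = cr a b - cr a c := map_sub (crL a) b c
theorem cr_smul_left (t : ℝ) (a b : E3) : cr (t • a) b = t • cr a b := by
  simp only [← crL_apply, map_smul, smul_apply]
theorem cr_smul_right (t : ℝ) (a b : E3) : cr a (t • b) = t • cr a b := map_smul (crL a) t b
theorem cr_self (a : E3) : cr a a = 0 := by apply ext3 <;> simp <;> ring
theorem cr_anti (a b : E3) : cr a b = -cr b a := by apply ext3 <;> simp <;> ring
theorem cr_zero_left (a : E3) : cr 0 a = 0 := by apply ext3 <;> simp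
theorem cr_zero_right (a : E3) : cr a 0 = 0 := by apply ext3 <;> simp
theorem inner_cr_cyc (a b c : E3) : ⟪a, cr b c⟫ = ⟪b, cr c a⟫ := by simp [inner3]; ring
theorem inner_cr_left (a b : E3) : ⟪a, cr a b⟫ = 0 := by simp [inner3]; ring
theorem inner_cr_right (a b : E3) : ⟪b, cr a b⟫ = 0 := by simp [inner3]; ring
theorem cr_cr (a b c : E3) : cr a (cr b c) = ⟪a, c⟫ • b - ⟪a, b⟫ • c := by
  apply ext3 <;> simp [inner3] <;> ring
theorem inner_cr_cr (a b c d : E3) : ⟪cr a b, cr c d⟫ = ⟪a, c⟫ * ⟪b, d⟫ - ⟪a, d⟫ * ⟪b, c⟫ := by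
  simp [inner3]; ring
theorem norm_cr_sq (a b : E3) : ‖cr a b‖ ^ 2 = ‖a‖ ^ 2 * ‖b‖ ^ 2 - ⟪a, b⟫ ^ 2 := by
  simp only [norm_sq3, inner3, cr0, cr1, cr2]; ring
theorem norm_cr_le (a b : E3) : ‖cr a b‖ ≤ ‖a‖ * ‖b‖ :=
  abs_le_of_sq_le_sq' (by rw [norm_cr_sq, mul_pow]; nlinarith [sq_nonneg ⟪a, b⟫])
    (by positivity) |>.2

theorem contDiff_cr {X : Type*} [NormedAddCommGroup X] [NormedSpace ℝ X] {k : WithTop ℕ∞}
    {a b : X → E3} (ha : ContDiff ℝ k a) (hb : ContDiff ℝ k b) :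
    ContDiff ℝ k fun x => cr (a x) (b x) := (crL.contDiff.comp ha).clm_apply hb

theorem continuous_cr {X : Type*} [TopologicalSpace X] {a b : X → E3} (ha : Continuous a)
    (hb : Continuous b) : Continuous fun x => cr (a x) (b x) :=
  (crL.continuous.comp ha).clm_apply hb

theorem fderiv_cr {X : Type*} [NormedAddCommGroup X] [NormedSpace ℝ X] {a b : X → E3} {x : X}
    (ha : DifferentiableAt ℝ a x) (hb : DifferentiableAt ℝ b x) (v : X) :
    fderiv ℝ (fun x => cr (a x) (b x)) x v =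
      cr (fderiv ℝ a x v) (b x) + cr (a x) (fderiv ℝ b x v) := by
  have := (crL.hasFDerivAt_of_bilinear ha.hasFDerivAt hb.hasFDerivAt).fderiv
  rw [show (fun x => cr (a x) (b x)) = fun x => crL (a x) (b x) from rfl, this]
  simp [crL_apply, add_comm]

/-! ### traces -/

variable {N : ℕ}

theorem trc_inner (M : E N →L[ℝ] E N) :
    trc M = ∑ i, ⟪(EuclideanSpace.single i 1 : E N), M (EuclideanSpace.single i 1)⟫ := by
  simp [trc, EuclideanSpace.inner_single_left]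

theorem trc_sq_sym {M : E N →L[ℝ] E N} (h : ∀ v w, ⟪M v, w⟫ = ⟪v, M w⟫) :
    trc (M ∘L M) = ∑ i, ‖M (EuclideanSpace.single i 1)‖ ^ 2 := by
  rw [trc_inner]
  exact Finset.sum_congr rfl fun i _ => by
    rw [ContinuousLinearMap.comp_apply, ← h, real_inner_self_eq_norm_sq]

theorem trc_sq_nonneg {M : E N →L[ℝ] E N} (h : ∀ v w, ⟪M v, w⟫ = ⟪v, M w⟫) : 0 ≤ trc (M ∘L M) := by
  rw [trc_sq_sym h]; positivity

theorem norm_sq_le_trc {M : E N →L[ℝ] E N} (h : ∀ v w, ⟪M v, w⟫ = ⟪v, M w⟫) :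
    ‖M‖ ^ 2 ≤ trc (M ∘L M) := by
  have h0 := trc_sq_nonneg h
  refine (Real.le_sqrt (norm_nonneg _) h0).1 (M.opNorm_le_bound (Real.sqrt_nonneg _) fun v => ?_)
  have h1 : ‖M v‖ ≤ ∑ i, ‖M (EuclideanSpace.single i 1)‖ * |v i| := by
    rw [map_eq_sum]
    exact (norm_sum_le _ _).trans (le_of_eq (Finset.sum_congr rfl fun i _ => by
      rw [norm_smul, Real.norm_eq_abs, mul_comm]))
  refine h1.trans ((Real.sum_mul_le_sqrt_mul_sqrt _ _ _).trans (le_of_eq ?_))
  rw [trc_sq_sym h, EuclideanSpace.norm_eq]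
  simp

theorem trc_sq_le {M : E N →L[ℝ] E N} : trc (M ∘L M) ≤ N * ‖M‖ ^ 2 :=
  (le_abs_self _).trans ((abs_trc_le _).trans (by
    gcongr; exact (M.opNorm_comp_le M).trans (le_of_eq (sq _).symm)))

theorem trc_neg (M : E N →L[ℝ] E N) : trc (-M) = -trc M := by
  rw [← neg_one_smul ℝ M, trc_smul, neg_one_mul]

theorem dt_smul (c : ℝ) (M : E3 →L[ℝ] E3) : dt (c • M) = c ^ 2 * dt M := by
  simp only [dt, ContinuousLinearMap.smul_comp, ContinuousLinearMap.comp_smul, trc_smul]; ring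

theorem dt_neg (M : E3 →L[ℝ] E3) : dt (-M) = dt M := by
  rw [← neg_one_smul ℝ M, dt_smul]; ring

theorem contDiff_dt {k : WithTop ℕ∞} : ContDiff ℝ k dt :=
  ((contDiff_trc.pow 2).sub (contDiff_trc.comp (contDiff_id.clm_comp contDiff_id))).div_const _

theorem ex_fr {m : ℕ} {e : E (m + 1)} (he : ‖e‖ = 1) :
    ∃ L : E m →ₗᵢ[ℝ] E (m + 1), Fr e L := by
  have h0 : e ≠ 0 := by rintro rfl; simp at he
  have : Fact (Module.finrank ℝ (E (m + 1)) = m + 1) := ⟨finrank_euclideanSpace_fin⟩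
  let b := OrthonormalBasis.fromOrthogonalSpanSingleton (𝕜 := ℝ) m h0
  exact ⟨(ℝ ∙ e)ᗮ.subtypeₗᵢ.comp b.repr.symm.toLinearIsometry, he, fun y =>
    Submodule.mem_orthogonal_singleton_iff_inner_right.1 (b.repr.symm y).2⟩

/-! ### a smooth substitute for `1 / |g|` -/

/-- equal to `|g|⁻¹` when `|a| < |g|`, smooth off the origin -/
def qq (z : ℝ × E3) : ℝ :=
  (√(‖z.2‖ ^ 2 + expNegInvGlue (z.1 ^ 2 - ‖z.2‖ ^ 2)))⁻¹

theorem qq_pos' {z : ℝ × E3} (h : z.1 = 0 → z.2 ≠ 0) :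
    0 < ‖z.2‖ ^ 2 + expNegInvGlue (z.1 ^ 2 - ‖z.2‖ ^ 2) := by
  by_cases h2 : z.2 = 0
  · have h1 : z.1 ≠ 0 := fun h1 => h h1 h2
    simp only [h2, norm_zero, ne_eq, OfNat.ofNat_ne_zero, not_false_eq_true, zero_pow, sub_zero,
      zero_add]
    exact expNegInvGlue.pos_of_pos (by positivity)
  · exact add_pos_of_pos_of_nonneg (by positivity) (expNegInvGlue.nonneg _)

theorem contDiffAt_qq {z : ℝ × E3} (h : z.1 = 0 → z.2 ≠ 0) : ContDiffAt ℝ ∞ qq z := by
  have h2 : ContDiff ℝ ∞ fun z : ℝ × E3 => ‖z.2‖ ^ 2 := contDiff_snd.norm_sq ℝ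
  have h3 := (h2.add (expNegInvGlue.contDiff.comp ((contDiff_fst.pow 2).sub h2))).contDiffAt
    (x := z)
  exact (h3.sqrt (qq_pos' h).ne').inv (Real.sqrt_pos.2 (qq_pos' h)).ne'

theorem qq_eq {z : ℝ × E3} (h : |z.1| ≤ ‖z.2‖) : qq z = ‖z.2‖⁻¹ := by
  rw [qq, expNegInvGlue.zero_of_nonpos (by nlinarith [sq_abs z.1, abs_nonneg z.1]), add_zero,
    Real.sqrt_sq (norm_nonneg _)]

theorem qq_ev {X : Type*} [TopologicalSpace X] {a : X → ℝ} {g : X → E3} {x : X}
    (ha : ContinuousAt a x) (hg : ContinuousAt g x) (h0 : a x = 0) (h1 : g x ≠ 0) :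
    ∀ᶠ y in 𝓝 x, qq (a y, g y) = ‖g y‖⁻¹ :=
  (ha.abs.eventually_lt hg.norm (by simpa [h0] using h1)).mono fun _ h => qq_eq h.le

theorem qq_mul_le (z : ℝ × E3) : qq z * ‖z.2‖ ≤ 1 := by
  by_cases h : z.2 = 0
  · simp [h]
  · have h1 : ‖z.2‖ ≤ √(‖z.2‖ ^ 2 + expNegInvGlue (z.1 ^ 2 - ‖z.2‖ ^ 2)) :=
      Real.le_sqrt_of_sq_le (le_add_of_nonneg_right (expNegInvGlue.nonneg _))
    rw [qq, inv_mul_le_iff₀ ((norm_pos_iff.2 h).trans_le h1), mul_one]
    exact h1

end Vale.Agent.P218R
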