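import Vale.Agent.P218R.Defs

/-!
# P218R: statements of the rows (base layer, flows, limits, Gauss-Bonnet)
-/

open MeasureTheory Metric Filter Topology Set
open scoped ContDiff ENNReal RealInnerProductSpace
open Vale.Agent.P366.Stmt (E)
open Vale.Agent.P366W (trc dvg Fr)
open Vale.Agent.P218 (limitSet WeakTendsto Slow rescaled)
open Vale.Agent.P218.H552 (NN ext)

noncomputable section

namespace Vale.Agent.P218R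

/-- the open cylinder of radius `r` and height `h` -/
def cyl (p e : E3) (L : E 2 →ₗᵢ[ℝ] E3) (r h : ℝ) : Set E3 :=
  {x | ∃ y s, ‖y‖ < r ∧ |s| < h ∧ x = p + L y + s • e}

/-- the graph map -/
def gX (p e : E3) (L : E 2 →ₗᵢ[ℝ] E3) (v : E 2 → ℝ) (y : E 2) : E3 := p + L y + v y • e

/-! ### static base -/

/-- **GRC**: small tilt in a cylinder about a point of the surface gives a single graph -/
def GRC : Prop := ∀ (S : Srf) (p e : E3) (L : E 2 →ₗᵢ[ℝ] E3) (r h σ : ℝ), S.Ok → Fr e L →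
  S.w p = 0 → 0 ≤ σ → σ ≤ 1 / 4 → 0 < h → 2 * σ * r ≤ h →
  (∀ x ∈ cyl p e L r h, S.w x = 0 → ‖S.n x - e‖ ≤ σ) →
  ∃ v : E 2 → ℝ, ContDiffOn ℝ ∞ v (ball 0 r) ∧ S.Gr p e L r h v ∧ v 0 = 0 ∧
    ∀ y, ‖y‖ < r → ‖gradient v y‖ ≤ 2 * σ

/-- **GRF**: charts, with a globally smooth graph function -/
def GRF : Prop := ∀ (S : Srf) (p : E3) (σ : ℝ), S.Ok → S.w p = 0 → 0 < σ →
  ∃ L, Fr (S.n p) L ∧ ∃ v : E 2 → ℝ, ContDiff ℝ ∞ v ∧ v 0 = 0 ∧ gradient v 0 = 0 ∧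
    ∃ r₀ > (0 : ℝ), (∀ y, ‖y‖ < r₀ → ‖gradient v y‖ ≤ σ) ∧
      ∀ r h, 0 < r → r ≤ h → h ≤ r₀ → S.Gr p (S.n p) L r h v

/-- **GRN**: normal and shape operator of a graph -/
def GRN : Prop := ∀ (S : Srf) (p e : E3) (L : E 2 →ₗᵢ[ℝ] E3) (r h : ℝ) (v : E 2 → ℝ) (y : E 2),
  S.Ok → Fr e L → S.Gr p e L r h v → ‖y‖ < r → ContDiffAt ℝ 2 v y →
  S.n (gX p e L v y) = (√(1 + ‖gradient v y‖ ^ 2))⁻¹ • (e - L (gradient v y)) ∧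
  (∀ a b, ⟪S.A (gX p e L v y) (L a + ⟪gradient v y, a⟫ • e), L b + ⟪gradient v y, b⟫ • e⟫ =
    -(√(1 + ‖gradient v y‖ ^ 2))⁻¹ * ⟪fderiv ℝ (gradient v) y a, b⟫) ∧
  S.H (gX p e L v y) = -(√(1 + ‖gradient v y‖ ^ 2))⁻¹ * (trc (fderiv ℝ (gradient v) y) -
    ⟪fderiv ℝ (gradient v) y (gradient v y), gradient v y⟫ / (1 + ‖gradient v y‖ ^ 2))

/-- **AREA**: the area of a graph -/
def AREA : Prop := ∀ (S : Srf) (p e : E3) (L : E 2 →ₗᵢ[ℝ] E3) (r h : ℝ) (v : E 2 → ℝ),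
  Fr e L → S.Gr p e L r h v → ContDiffOn ℝ 1 v (ball 0 r) →
  (∀ f : E3 → ℝ≥0∞, Measurable f → ∫⁻ x in cyl p e L r h ∩ S.G, f x ∂H2 =
    ∫⁻ y in ball (0 : E 2) r, f (gX p e L v y) * ENNReal.ofReal √(1 + ‖gradient v y‖ ^ 2)) ∧
  (∀ f : E3 → ℝ, Measurable f → ∫ x in cyl p e L r h ∩ S.G, f x ∂H2 =
    ∫ y in ball (0 : E 2) r, f (gX p e L v y) * √(1 + ‖gradient v y‖ ^ 2))

/-- **LOW**: the area is a Radon measure with a lower density bound -/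
def LOW : Prop := ∀ S : Srf, S.Ok → IsLocallyFiniteMeasure S.μ ∧ ∀ p, S.w p = 0 → ∀ c < Real.pi,
  ∀ᶠ r in 𝓝[>] (0 : ℝ), ENNReal.ofReal (c * r ^ 2) ≤ S.μ (ball p r)

/-- **DIV**: the divergence theorem -/
def DIV : Prop := ∀ (S : Srf) (Y : E3 → E3), S.Ok → ContDiff ℝ 1 Y → HasCompactSupport Y →
  ∫ x, ⟪S.n x, Y x⟫ ∂S.μ = ∫ x in {x | S.w x < 0}, dvg Y x

/-- **FV**: the first variation -/
def FV : Prop := ∀ (S : Srf) (Y : E3 → E3), S.Ok → ContDiff ℝ 1 Y → HasCompactSupport Y →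
  ∫ x, S.dv Y x ∂S.μ = ∫ x, S.H x * ⟪S.n x, Y x⟫ ∂S.μ

/-- **BRA**: the integral of a bracket vanishes -/
def BRA : Prop := ∀ (S : Srf) (g h : E3 → ℝ), S.Ok → ContDiff ℝ 1 g → HasCompactSupport g →
  ContDiff ℝ 2 h → ∫ x, S.br g h x ∂S.μ = 0

/-- **MONO**: Simon's form of the monotonicity formula, with a weight -/
def MONO : Prop := ∃ C > (0 : ℝ), ∀ (S : Srf) (u : E3 → ℝ) (x : E3) (r : ℝ), S.Ok →
  ContDiff ℝ 1 u → (∀ y, 0 ≤ u y) → S.w x = 0 → 0 < r →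
  ENNReal.ofReal (u x) +
      ∫⁻ y in ball x r, ENNReal.ofReal (u y * ⟪y - x, S.n y⟫ ^ 2 / ‖y - x‖ ^ 4) ∂S.μ ≤
    ENNReal.ofReal C * ∫⁻ y in ball x (2 * r), ENNReal.ofReal
      (u y / r ^ 2 + ‖S.tg u y‖ / ‖y - x‖ + u y * S.H y ^ 2) ∂S.μ

/-- **ORI**: a closed embedded hypersurface of a vector space is a regular level set -/
def ORI : Prop := ∀ (X : Type) [NormedAddCommGroup X] [NormedSpace ℝ X] [FiniteDimensional ℝ X]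
  (G : Set X), IsClosed G → (∀ p ∈ G, ∃ f : X → ℝ, ContDiff ℝ ∞ f ∧ fderiv ℝ f p ≠ 0 ∧
    ∀ᶠ q in 𝓝 p, q ∈ G ↔ f q = 0) →
  ∃ w : X → ℝ, ContDiff ℝ ∞ w ∧ (∀ q, q ∈ G ↔ w q = 0) ∧ ∀ p ∈ G, fderiv ℝ w p ≠ 0

/-! ### flows -/

/-- **BRK**: Brakke's identity -/
def BRK : Prop := ∀ (F : Flw) (a b : ℝ) (f : ℝ × E3 → ℝ) (K : Set E3), F.Ok a b →
  ContDiffOn ℝ 2 f (Ioo a b ×ˢ univ) → IsCompact K → (∀ t, ∀ x ∉ K, f (t, x) = 0) →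
  ∀ t ∈ Ioo a b, HasDerivAt (fun s => ∫ x, f (s, x) ∂F.μ s)
    (∫ x, (deriv (fun s => f (s, x)) t -
      (F.sl t).H x * ⟪F.n (t, x), gradient (fun y => f (t, y)) x⟫ -
      (F.sl t).H x ^ 2 * f (t, x)) ∂F.μ t) t

/-- **CNT**: continuity in time -/
def CNT : Prop := ∀ (F : Flw) (a b : ℝ) (f : ℝ × E3 → ℝ) (K : Set E3), F.Ok a b →
  ContinuousOn f (Ioo a b ×ˢ univ) → IsCompact K → (∀ t, ∀ x ∉ K, f (t, x) = 0) →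
  ContinuousOn (fun s => ∫ x, f (s, x) ∂F.μ s) (Ioo a b)

/-- the backward heat kernel -/
def hk (x₀ : E3) (t₀ t : ℝ) (x : E3) : ℝ :=
  (4 * Real.pi * (t₀ - t))⁻¹ * Real.exp (-‖x - x₀‖ ^ 2 / (4 * (t₀ - t)))

/-- **HUI**: Huisken's monotonicity for flows of quadratic area growth, with the dissipation -/
def HUI : Prop := ∀ (F : Flw) (a b t₀ s₁ s₂ Λ : ℝ) (x₀ : E3) (ψ : E3 → ℝ), F.Ok a b → a < s₁ →
  s₁ ≤ s₂ → s₂ < b → s₂ < t₀ →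
  (∀ t ∈ Icc s₁ s₂, ∀ R ≥ (1 : ℝ), F.μ t (closedBall x₀ R) ≤ ENNReal.ofReal (Λ * R ^ 2)) →
  Continuous ψ → HasCompactSupport ψ → (∀ x, 0 ≤ ψ x ∧ ψ x ≤ 1) →
  gs (F.μ s₂) x₀ √(t₀ - s₂) + ∫ t in s₁..s₂, ∫ x, ψ x * hk x₀ t₀ t x *
      ((F.sl t).H x - ⟪x - x₀, F.n (t, x)⟫ / (2 * (t₀ - t))) ^ 2 ∂F.μ t ≤
    gs (F.μ s₁) x₀ √(t₀ - s₁)

/-- **RSC**: rescaling -/
def RSC : Prop := (∀ (S : Srf) (b : E3) (l : ℝ), 0 < l → (S.sc b l).μ =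
    ENNReal.ofReal (l ^ 2) • S.μ.map (fun x => l • (x - b))) ∧
  (∀ (S : Srf) (b : E3) (l : ℝ), 0 < l → S.Ok → (S.sc b l).Ok ∧
    (∀ Λ, AR Λ S.μ → AR Λ (S.sc b l).μ) ∧ (∀ G, S.GBd G → (S.sc b l).GBd G) ∧
    ∀ y ρ, 0 < ρ → gs (S.sc b l).μ y ρ = gs S.μ (b + l⁻¹ • y) (ρ / l)) ∧
  ∀ (F : Flw) (a b t₀ l : ℝ) (x₀ : E3), 0 < l →
    (∀ s, (F.rs x₀ t₀ l).μ s = rescaled 2 F.μ x₀ t₀ l s) ∧
    (F.Ok a b → (F.rs x₀ t₀ l).Ok (l ^ 2 * (a - t₀)) (l ^ 2 * (b - t₀))) ∧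
    (∀ Λ, F.OkA a b Λ → (F.rs x₀ t₀ l).OkA (l ^ 2 * (a - t₀)) (l ^ 2 * (b - t₀)) Λ) ∧
    ∀ Λ G, F.Good a b Λ G → (F.rs x₀ t₀ l).Good (l ^ 2 * (a - t₀)) (l ^ 2 * (b - t₀)) Λ G

/-- **HUR**: the rescaled flow: continuity, monotonicity with dissipation -/
def HUR : Prop := ∀ (F : Flw) (a b Λ t₀ τ₁ τ₂ : ℝ) (x₀ : E3) (ψ : E3 → ℝ), F.OkA a b Λ → τ₁ ≤ τ₂ →
  a < t₀ - Real.exp (-2 * τ₁) → t₀ - Real.exp (-2 * τ₂) < b → Continuous ψ →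
  HasCompactSupport ψ → (∀ x, 0 ≤ ψ x ∧ ψ x ≤ 1) →
  ContinuousOn (fun τ => ∫ x, ψ x * (F.rsl x₀ t₀ τ).φ x ^ 2 ∂(F.rsl x₀ t₀ τ).μ) (Icc τ₁ τ₂) ∧
  gs (F.rsl x₀ t₀ τ₂).μ 0 1 + (2 * Real.pi)⁻¹ * ∫ τ in τ₁..τ₂,
      ∫ x, ψ x * Real.exp (-‖x‖ ^ 2 / 4) * (F.rsl x₀ t₀ τ).φ x ^ 2 ∂(F.rsl x₀ t₀ τ).μ ≤
    gs (F.rsl x₀ t₀ τ₁).μ 0 1

/-- **SLW**: slow variation, good times, self-similarity of the limits -/
def SLW : Prop := ∀ (F : Flw) (a b Λ : ℝ) (x₀ : E3), a < b → F.OkA a b Λ →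
  (∃ τ₀, Slow (NN 2 F.μ x₀ b) τ₀) ∧ ∀ (τ : ℕ → ℝ) (κ : Measure E3), Tendsto τ atTop atTop →
    WeakTendsto (fun i => NN 2 F.μ x₀ b (τ i)) κ →
    (∀ s < 0, WeakTendsto (fun i => (F.rs x₀ b (Real.exp (τ i))).μ s) (ext 2 κ s)) ∧
    ∃ σ : ℕ → ℝ, (∀ i, σ i ∈ Icc (τ i) (τ i + 1)) ∧
      WeakTendsto (fun i => (F.rsl x₀ b (σ i)).μ) κ ∧ ∀ R, Tendsto
        (fun i => ∫ x in closedBall 0 R, (F.rsl x₀ b (σ i)).φ x ^ 2 ∂(F.rsl x₀ b (σ i)).μ)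
        atTop (𝓝 0)

/-- **GSL**: Gaussian ratios of measures with bounded area ratios -/
def GSL : Prop := (∃ C > (0 : ℝ), ∀ (Λ : ℝ) (μ : Measure E3), 0 ≤ Λ → AR Λ μ → ∀ x ρ, 0 < ρ →
    Integrable (fun y => Real.exp (-‖y - x‖ ^ 2 / (4 * ρ ^ 2))) μ ∧ gs μ x ρ ≤ C * Λ ∧
    ∀ x' ρ', ρ ≤ 2 * ρ' → ρ' ≤ 2 * ρ → ‖x' - x‖ ≤ ρ →
      |gs μ x' ρ' - gs μ x ρ| ≤ C * Λ * (‖x' - x‖ + |ρ' - ρ|) / ρ) ∧
  ∀ (ι : Type) (l : Filter ι) [l.NeBot] (Λ : ℝ) (μ : ι → Measure E3) (κ : Measure E3),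
    IsLocallyFiniteMeasure κ → (∀ᶠ i in l, AR Λ (μ i)) →
    (∀ f : E3 → ℝ, Continuous f → HasCompactSupport f →
      Tendsto (fun i => ∫ x, f x ∂μ i) l (𝓝 (∫ x, f x ∂κ))) →
    AR Λ κ ∧ ∀ x ρ, 0 < ρ → Tendsto (fun i => gs (μ i) x ρ) l (𝓝 (gs κ x ρ))

/-- uniform local regularity of a family of surfaces -/
def ULR {ι : Type} (l : Filter ι) (S : ι → Srf) : Prop :=
  ∀ p, ∃ δ > (0 : ℝ), ∃ r > (0 : ℝ), ∃ C : ℕ → ℝ, C 0 ≤ 1 / 10 ∧ C 1 ≤ 1 / 10 ∧ ∀ᶠ i in l,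
    ∀ x ∈ ball p δ, (S i).w x = 0 → ∃ L, Fr ((S i).n x) L ∧ (S i).Reg x ((S i).n x) L r C

/-- **LIM**: smooth limits -/
def LIM : Prop := ∀ (ι : Type) (l : Filter ι) [l.NeBot] (S : ι → Srf) (κ : Measure E3),
  IsLocallyFiniteMeasure κ → (∀ᶠ i in l, (S i).Ok) → ULR l S →
  (∀ f : E3 → ℝ, Continuous f → HasCompactSupport f →
    Tendsto (fun i => ∫ x, f x ∂(S i).μ) l (𝓝 (∫ x, f x ∂κ))) →
  ∃ T : Srf, T.Ok ∧ κ = T.μ ∧ ∀ (Ψ : E3 × E3 × (E3 →L[ℝ] E3) → ℝ) (K : Set E3), Continuous Ψ →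
    IsCompact K → (∀ x ∉ K, ∀ q, Ψ (x, q) = 0) → (∀ x n A, Ψ (x, -n, -A) = Ψ (x, n, A)) →
    Tendsto (fun i => ∫ x, Ψ (x, (S i).n x, (S i).A x) ∂(S i).μ) l
      (𝓝 (∫ x, Ψ (x, T.n x, T.A x) ∂T.μ))

/-- **LOC**: White's theorem for the rescaled slices near a point of density close to one -/
def LOC : Prop := ∀ Λ : ℝ, ∃ ε > (0 : ℝ), ∀ σ > (0 : ℝ), ∃ C : ℕ → ℝ, C 0 ≤ σ ∧ C 1 ≤ σ ∧
  ∀ (F : Flw) (a b : ℝ) (x₀ p : E3) (τ : ℕ → ℝ) (κ : Measure E3), a < b → F.OkA a b Λ →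
    IsLocallyFiniteMeasure κ → Tendsto τ atTop atTop →
    WeakTendsto (fun i => NN 2 F.μ x₀ b (τ i)) κ →
    (∃ᶠ ρ in 𝓝[>] (0 : ℝ), gs κ p ρ ≤ 1 + ε) → ∃ δ > (0 : ℝ), ∃ r > (0 : ℝ), ∀ᶠ i in atTop,
      ∀ y ∈ ball p δ, (F.rsl x₀ b (τ i)).w y = 0 → ∃ L, Fr ((F.rsl x₀ b (τ i)).n y) L ∧
        (F.rsl x₀ b (τ i)).Reg y ((F.rsl x₀ b (τ i)).n y) L r C

/-- **SML**: small scales of a smooth surface; planes; the area of a graph from below -/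
def SML : Prop := (∀ (S : Srf) (Λ R : ℝ), S.Ok → AR Λ S.μ → ∀ ε > (0 : ℝ), ∃ ρ₀ > (0 : ℝ),
    ∀ y ρ, ‖y‖ ≤ R → 0 < ρ → ρ ≤ ρ₀ → gs S.μ y ρ ≤ 1 + ε) ∧
  (∀ (S : Srf) (Λ : ℝ) (y : E3), S.Ok → AR Λ S.μ → S.w y = 0 →
    Tendsto (gs S.μ y) (𝓝[>] 0) (𝓝 1)) ∧
  (∀ (p e y : E3) (ρ : ℝ), ‖e‖ = 1 → 0 < ρ → gs (H2.restrict {x | ⟪e, x - p⟫ = 0}) y ρ =
    Real.exp (-⟪e, y - p⟫ ^ 2 / (4 * ρ ^ 2))) ∧
  ∀ (S : Srf) (p e : E3) (L : E 2 →ₗᵢ[ℝ] E3) (r h : ℝ) (v : E 2 → ℝ), Fr e L → S.Gr p e L r h v →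
    0 ≤ r → ENNReal.ofReal (Real.pi * r ^ 2) ≤ S.μ (cyl p e L r h)

/-- **CFL**: the level set flow of a closed flow -/
def CFL : Prop := ∀ (M : ℝ → Set E3) (T : ℝ), IsSmoothMCF M T →
  ∃ F : Flw, F.Ok 0 T ∧ ∀ t ∈ Ioo 0 T, (F.sl t).G = M t

/-! ### Gauss-Bonnet -/

/-- the Jacobian of `(x, s) ↦ x + s n x` -/
def Srf.J (S : Srf) (x : E3) (s : ℝ) : ℝ := 1 + s * S.H x + s ^ 2 * S.K x

/-- half of the squared distance -/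
def dq (y x : E3) : ℝ := ‖x - y‖ ^ 2 / 2

/-- the critical points -/
def Srf.crit (S : Srf) (f : E3 → ℝ) : Set E3 := {x | S.w x = 0 ∧ S.tg f x = 0}

/-- the nondegenerate extrema -/
def Srf.ext (S : Srf) (f : E3 → ℝ) : Set E3 := {x ∈ S.crit f | 0 < dt (S.hs f x)}

/-- the nondegenerate saddles -/
def Srf.sad (S : Srf) (f : E3 → ℝ) : Set E3 := {x ∈ S.crit f | dt (S.hs f x) < 0}

/-- a Morse function -/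
def Srf.Morse (S : Srf) (f : E3 → ℝ) : Prop :=
  ContDiff ℝ ∞ f ∧ ∀ x ∈ S.crit f, dt (S.hs f x) ≠ 0

/-- a fixed bump function of integral one -/
def g0 : E3 → ℝ := (⟨1, 2, one_pos, one_lt_two⟩ : ContDiffBump (0 : E3)).normed volume

/-- the degree of `(x, s) ↦ x + s n x`: the Euler characteristic -/
def Srf.chi (S : Srf) : ℝ := ∫ x, (∫ s, g0 (x + s • S.n x) * S.J x s) ∂S.μ

/-- the number of connected components -/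
def nc {X : Type*} [TopologicalSpace X] (s : Set X) : ℕ∞ := (connectedComponentIn s '' s).encard

/-- **AR3**: the area formula for the normal exponential map -/
def AR3 : Prop := ∀ S : Srf, S.Ok → (∀ᵐ y : E3, S.Morse (dq y)) ∧
  ∀ h : E3 × ℝ → ℝ≥0∞, Measurable h →
    AEMeasurable (fun y : E3 => ∑' x : S.crit (dq y), h (x.1, ⟪y - x.1, S.n x.1⟫)) volume ∧
    ∫⁻ x, (∫⁻ s, h (x, s) * ENNReal.ofReal |S.J x s|) ∂S.μ =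
      ∫⁻ y : E3, ∑' x : S.crit (dq y), h (x.1, ⟪y - x.1, S.n x.1⟫)

/-- **FIN**: finiteness, the Hessian of the distance, the second derivative test -/
def FIN : Prop := ∀ S : Srf, S.Ok →
  (∀ f, S.Morse f → IsCompact S.G → (S.crit f).Finite) ∧
  (∀ y, ∀ x ∈ S.crit (dq y), x + ⟪y - x, S.n x⟫ • S.n x = y ∧
    dt (S.hs (dq y) x) = S.J x ⟪y - x, S.n x⟫) ∧
  (∀ x (s : ℝ), S.w x = 0 → x ∈ S.crit (dq (x + s • S.n x))) ∧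
  ∀ f x, ContDiff ℝ 2 f → S.w x = 0 → IsLocalMaxOn f S.G x → x ∈ S.crit f ∧ 0 ≤ dt (S.hs f x)

/-- **DEG**: the degree -/
def DEG : Prop := ∀ S : Srf, S.Ok → IsCompact S.G → ∀ᵐ y : E3,
  ((S.ext (dq y)).ncard : ℝ) - (S.sad (dq y)).ncard = S.chi

/-- **KCT**: the degree is constant in time -/
def KCT : Prop := ∀ (F : Flw) (a b : ℝ), F.Ok a b →
  (∀ c d, a < c → d < b → ∃ K, IsCompact K ∧ ∀ t ∈ Icc c d, (F.sl t).G ⊆ K) →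
  ∀ s ∈ Ioo a b, ∀ t ∈ Ioo a b, (F.sl s).chi = (F.sl t).chi

section topo

variable {X : Type*} [TopologicalSpace X] (G : Set X) (f : X → ℝ) (p : X)

/-- near `p` the superlevel set is connected and not empty -/
def One : Prop := ∀ U ∈ 𝓝 p, ∃ V ∈ 𝓝 p, V ⊆ U ∧ IsConnected (V ∩ G ∩ {q | f p < f q})

/-- a strict local maximum -/
def Top : Prop := ∀ᶠ q in 𝓝 p, q ∈ G → q ≠ p → f q < f p

/-- near `p` the superlevel set consists of two connected pieces -/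
def Two : Prop := ∀ U ∈ 𝓝 p, ∃ V ∈ 𝓝 p, V ⊆ U ∧ ∃ A B, IsConnected A ∧ IsConnected B ∧
  V ∩ G ∩ {q | f p < f q} = A ∪ B

/-- two components of the superlevel set merge at `p` -/
def Mrg : Prop := ∀ U ∈ 𝓝 p, ∃ q ∈ U ∩ G ∩ {q | f p < f q}, ∃ q' ∈ U ∩ G ∩ {q | f p < f q},
  q' ∉ connectedComponentIn (G ∩ {q | f p < f q}) q

/-- local connectedness of `G` -/
def LC : Prop := ∀ p ∈ G, ∀ U ∈ 𝓝 p, ∃ V ∈ 𝓝 p, V ⊆ U ∧ IsPreconnected (V ∩ G)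

end topo

/-- **MI**: the topological Morse inequality -/
def MI : Prop := ∀ (G T Z : Set E3) (f : E3 → ℝ), IsCompact G → Continuous f → LC G → T.Finite →
  Z.Finite → T ⊆ G → (∀ p ∈ T, Top G f p) → (∀ p ∈ Z, Two G f p) →
  (∀ p ∈ G, p ∉ T → p ∉ Z → One G f p) → ∀ c₁ c₂, c₁ ≤ c₂ →
  nc (G ∩ {q | c₂ < f q}) + {p ∈ T | c₁ < f p ∧ f p ≤ c₂}.encard ≤
    nc (G ∩ {q | c₁ < f q}) + {p ∈ Z | c₁ < f p ∧ f p ≤ c₂ ∧ Mrg G f p}.encard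

/-- **LO1**: regular points and extrema -/
def LO1 : Prop := ∀ S : Srf, S.Ok → LC S.G ∧ ∀ f p, ContDiff ℝ ∞ f → S.w p = 0 →
  (p ∉ S.crit f → One S.G f p) ∧
  (p ∈ S.ext f → Top S.G f p ∧ One S.G (-f) p ∨ One S.G f p ∧ Top S.G (-f) p)

/-- the structure of a saddle -/
def Sad (S : Srf) (f : E3 → ℝ) (p : E3) : Prop :=
  ∃ l₁ l₂ : E3 → ℝ, Continuous l₁ ∧ Continuous l₂ ∧ ∀ U ∈ 𝓝 p, ∃ V ∈ 𝓝 p, V ⊆ U ∧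
    IsConnected (V ∩ S.G ∩ {q | f p < f q ∧ 0 < l₁ q}) ∧
    IsConnected (V ∩ S.G ∩ {q | f p < f q ∧ l₁ q < 0}) ∧
    IsConnected (V ∩ S.G ∩ {q | f q < f p ∧ 0 < l₂ q}) ∧
    IsConnected (V ∩ S.G ∩ {q | f q < f p ∧ l₂ q < 0}) ∧
    (∀ q ∈ V ∩ S.G, (f p < f q → l₁ q ≠ 0) ∧ (f q < f p → l₂ q ≠ 0) ∧
      (f q = f p → q ≠ p → 0 < l₁ q * l₂ q * S.br (dq p) f q)) ∧
    ∃ q ∈ V ∩ S.G, f q = f p ∧ 0 < l₁ q ∧ 0 < l₂ q ∧ q ≠ p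

/-- **LO2**: saddles -/
def LO2 : Prop := ∀ (S : Srf) (f : E3 → ℝ) (p : E3), S.Ok → ContDiff ℝ ∞ f → p ∈ S.sad f →
  Sad S f p

/-- **DJ**: a saddle which is alone on its level does not merge both ways -/
def DJ : Prop := ∀ (S : Srf) (f : E3 → ℝ) (p : E3), S.Ok → IsCompact S.G → ContDiff ℝ ∞ f →
  S.w p = 0 → Sad S f p → (∀ q ∈ S.crit f, f q = f p → q = p) → Mrg S.G f p →
  ¬ Mrg S.G (-f) p

/-- **SEP**: separation of the critical values -/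
def SEP : Prop := ∀ (S : Srf) (f : E3 → ℝ) (c : ℝ), S.Ok → IsCompact S.G → S.Morse f →
  (∀ x ∈ S.crit f, f x ≠ c) → ∃ g, S.Morse g ∧ S.ext g = S.ext f ∧ S.sad g = S.sad f ∧
    InjOn g (S.crit g) ∧ (∀ x ∈ S.crit g, g x ≠ c) ∧ ∀ x, c < g x ↔ c < f x

/-- **MOR**: the Morse inequality above a regular level -/
def MOR : Prop := ∀ (S : Srf) (f : E3 → ℝ) (c : ℝ), S.Ok → IsCompact S.G → IsPreconnected S.G →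
  S.Morse f → (∀ x ∈ S.crit f, f x ≠ c) → {x ∈ S.ext f | c < f x}.encard ≤
    1 + nc (S.G ∩ {q | c < f q}) + {x ∈ S.sad f | c < f x}.encard

/-- **CMP**: the number of components outside a ball -/
def CMP : Prop := ∃ C > (0 : ℝ), ∀ (S : Srf) (Λ r ρ : ℝ) (y : E3), S.Ok → IsCompact S.G →
  IsPreconnected S.G → 0 ≤ Λ → AR Λ S.μ → 0 < r → 2 * r ≤ ρ → ρ ≤ 3 * r →
  (nc (S.G ∩ {q | ρ ^ 2 / 2 < dq y q}) : ℝ≥0∞) ≤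
    ({x ∈ S.G | IsLocalMaxOn (dq y) S.G x ∧ ‖x - y‖ < 4 * r}.encard : ℝ≥0∞) +
    ENNReal.ofReal (C * (1 + Λ + ∫ x in closedBall y (5 * r), S.H x ^ 2 ∂S.μ))

/-- **GBX**: the local Gauss-Bonnet estimate for a closed surface -/
def GBX : Prop := ∃ C : ℝ, ∀ (S : Srf) (Λ : ℝ), S.Ok → IsCompact S.G → IsPreconnected S.G →
  0 ≤ Λ → AR Λ S.μ → S.GBd (C * (1 + Λ + |S.chi|))

end Vale.Agent.P218R
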