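import Vale.Agent.P218R.Base0
import Vale.Agent.P218R.Stm

/-!
# P218R: the basic facts on surfaces and flows
-/

open MeasureTheory Metric Filter Topology Set
open scoped ContDiff ENNReal RealInnerProductSpace
open Vale.Agent.P366.Stmt (E)
open Vale.Agent.P366W

noncomputable section

namespace Vale.Agent.P218R

theorem two_le : (2 : WithTop ℕ∞) ≤ (∞ : WithTop ℕ∞) :=
  WithTop.coe_le_coe.2 (le_top (a := (2 : ℕ∞)))

theorem one_le : (1 : WithTop ℕ∞) ≤ (∞ : WithTop ℕ∞) :=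
  WithTop.coe_le_coe.2 (le_top (a := (1 : ℕ∞)))

theorem grad_ne_iff {N : ℕ} {f : E N → ℝ} {x : E N} : gradient f x ≠ 0 ↔ fderiv ℝ f x ≠ 0 := by
  rw [← norm_ne_zero_iff, norm_gradient, norm_ne_zero_iff]

theorem fderiv_grad_sym {N : ℕ} {f : E N → ℝ} {x : E N} (hf : ContDiffAt ℝ 2 f x) (v w : E N) :
    ⟪fderiv ℝ (gradient f) x v, w⟫ = ⟪v, fderiv ℝ (gradient f) x w⟫ := by
  have hd : DifferentiableAt ℝ (fderiv ℝ f) x :=
    (hf.fderiv_right (m := 1) (by norm_num)).differentiableAt one_ne_zero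
  have h1 : ∀ a b, ⟪fderiv ℝ (gradient f) x a, b⟫ = fderiv ℝ (fderiv ℝ f) x a b := fun a b => by
    have : gradient f = (InnerProductSpace.toDual ℝ (E N)).symm.toContinuousLinearEquiv ∘
      fderiv ℝ f := rfl
    rw [this, ContinuousLinearEquiv.comp_fderiv]
    simp [InnerProductSpace.toDual_symm_apply]
  rw [real_inner_comm _ v, h1, h1]
  exact (hf.isSymmSndFDerivAt (by simp)).eq v w

namespace Srf

variable {S : Srf} {x : E3}

theorem P_apply (x v : E3) : S.P x v = v - ⟪S.n x, v⟫ • S.n x := by simp [P]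

theorem P_sym (x v w : E3) : ⟪S.P x v, w⟫ = ⟪v, S.P x w⟫ := by
  simp only [P_apply, inner_sub_left, inner_sub_right, inner_smul_left, inner_smul_right,
    real_inner_comm v (S.n x), conj_trivial]
  ring

theorem P_tan {v : E3} (hv : ⟪S.n x, v⟫ = 0) : S.P x v = v := by simp [P_apply, hv]

theorem A_apply (x v : E3) : S.A x v = fderiv ℝ S.n x (S.P x v) := rfl

theorem A2_eq (x : E3) : S.A2 x = S.H x ^ 2 - 2 * S.K x := by simp only [K, dt, A2, H]; ring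

theorem dv_n (x : E3) : S.dv S.n x = S.H x := rfl

theorem dv_eq (Y : E3 → E3) (x : E3) :
    S.dv Y x = dvg Y x - ⟪S.n x, fderiv ℝ Y x (S.n x)⟫ := by
  rw [dv, trc_comm, P, ContinuousLinearMap.sub_comp, trc_sub, ContinuousLinearMap.id_comp, dvg_eq,
    trc_comm]
  congr 1
  rw [show fderiv ℝ Y x ∘L (innerSL ℝ (S.n x)).smulRight (S.n x) =
    (innerSL ℝ (S.n x)).smulRight (fderiv ℝ Y x (S.n x)) by ext1; simp, trc_smulRight]
  rfl

theorem inner_tg (f : E3 → ℝ) (x v : E3) : ⟪S.tg f x, v⟫ = fderiv ℝ f x (S.P x v) := by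
  rw [tg, P_sym, inner_grad]

theorem dv_add {Y Z : E3 → E3} (hY : DifferentiableAt ℝ Y x) (hZ : DifferentiableAt ℝ Z x) :
    S.dv (fun y => Y y + Z y) x = S.dv Y x + S.dv Z x := by
  rw [dv, fderiv_fun_add hY hZ, ContinuousLinearMap.add_comp, trc_add]; rfl

theorem dv_sub {Y Z : E3 → E3} (hY : DifferentiableAt ℝ Y x) (hZ : DifferentiableAt ℝ Z x) :
    S.dv (fun y => Y y - Z y) x = S.dv Y x - S.dv Z x := by
  rw [dv, fderiv_fun_sub hY hZ, ContinuousLinearMap.sub_comp, trc_sub]; rfl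

theorem dv_smul {f : E3 → ℝ} {Y : E3 → E3} (hf : DifferentiableAt ℝ f x)
    (hY : DifferentiableAt ℝ Y x) :
    S.dv (fun y => f y • Y y) x = f x * S.dv Y x + ⟪S.tg f x, Y x⟫ := by
  rw [dv, fderiv_fun_smul hf hY, ContinuousLinearMap.add_comp, trc_add,
    ContinuousLinearMap.smul_comp, trc_smul, inner_tg,
    show (fderiv ℝ f x).smulRight (Y x) ∘L S.P x = (fderiv ℝ f x ∘L S.P x).smulRight (Y x) from rfl,
    trc_smulRight]
  rfl

theorem dv_const (c x : E3) : S.dv (fun _ => c) x = 0 := by simp [dv, trc]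

theorem dv_congr {Y Z : E3 → E3} (h : Y =ᶠ[𝓝 x] Z) : S.dv Y x = S.dv Z x := by
  rw [dv, h.fderiv_eq]; rfl

theorem dv_eq_zero {Y : E3 → E3} (hx : x ∉ tsupport Y) : S.dv Y x = 0 := by
  rw [dv_congr (notMem_tsupport_iff_eventuallyEq.1 hx)]; exact dv_const _ _

theorem hcs_dv {Y : E3 → E3} (hY : HasCompactSupport Y) : HasCompactSupport (S.dv Y) :=
  hY.mono' fun _ hx => by_contra fun h => hx (dv_eq_zero h)

theorem br_anti (g h : E3 → ℝ) (x : E3) : S.br g h x = -S.br h g x := by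
  rw [br, br, cr_anti, inner_neg_right]

theorem br_eq (f g : E3 → ℝ) : S.br f g x = ⟪S.n x, cr (S.tg f x) (S.tg g x)⟫ := by
  simp only [br, tg, P_apply, cr_sub_left, cr_sub_right, cr_smul_left, cr_smul_right, cr_self,
    inner_sub_right, inner_smul_right, inner_cr_left, inner_cr_right, smul_zero, sub_zero,
    mul_zero]

/-! ### smoothness -/

namespace Ok

variable (h : S.Ok)
include h

theorem dw (x : E3) : DifferentiableAt ℝ S.w x := h.sw.differentiable (by simp) x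
theorem dn (x : E3) : DifferentiableAt ℝ S.n x := h.sn.differentiable (by simp) x

theorem sP : ContDiff ℝ ∞ S.P :=
  contDiff_const.sub (((innerSL ℝ).contDiff.comp h.sn).smulRight h.sn)
theorem sA : ContDiff ℝ ∞ S.A := (h.sn.fderiv_right (m := ∞) (by simp)).clm_comp h.sP
theorem sH : ContDiff ℝ ∞ S.H := contDiff_trc.comp h.sA
theorem sA2 : ContDiff ℝ ∞ S.A2 := contDiff_trc.comp (h.sA.clm_comp h.sA)
theorem sK : ContDiff ℝ ∞ S.K := contDiff_dt.comp h.sA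
theorem sφ : ContDiff ℝ ∞ S.φ := h.sH.sub ((contDiff_id.inner ℝ h.sn).div_const _)

theorem stg {k : ℕ∞} {f : E3 → ℝ} (hf : ContDiff ℝ ((k : WithTop ℕ∞) + 1) f) :
    ContDiff ℝ k (S.tg f) :=
  (h.sP.of_le (by exact_mod_cast le_top)).clm_apply (contDiff_gradient hf)
theorem stg' {f : E3 → ℝ} (hf : ContDiff ℝ ∞ f) : ContDiff ℝ ∞ (S.tg f) :=
  h.sP.clm_apply (smooth_gradient hf)
theorem ctg {f : E3 → ℝ} (hf : ContDiff ℝ 1 f) : Continuous (S.tg f) :=
  (h.stg (k := 0) (by simpa using hf)).continuous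
theorem shs {f : E3 → ℝ} (hf : ContDiff ℝ ∞ f) : ContDiff ℝ ∞ (S.hs f) :=
  h.sP.clm_comp (((h.stg' hf).fderiv_right (m := ∞) (by simp)).clm_comp h.sP)
theorem cdv {Y : E3 → E3} (hY : ContDiff ℝ 1 Y) : Continuous (S.dv Y) :=
  continuous_trc.comp ((hY.continuous_fderiv one_ne_zero).clm_comp h.sP.continuous)
theorem cbr {f g : E3 → ℝ} (hf : ContDiff ℝ 1 f) (hg : ContDiff ℝ 1 g) : Continuous (S.br f g) :=
  h.sn.continuous.inner (continuous_cr
    (contDiff_gradient (k := 0) (by simpa using hf)).continuous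
    (contDiff_gradient (k := 0) (by simpa using hg)).continuous)

theorem closed : IsClosed S.G := isClosed_eq h.sw.continuous continuous_const
theorem meas : MeasurableSet S.G := h.closed.measurableSet
theorem ae : ∀ᵐ x ∂S.μ, S.w x = 0 := ae_restrict_mem h.meas
theorem int_congr {F : Type*} [NormedAddCommGroup F] [NormedSpace ℝ F] {f g : E3 → F}
    (e : ∀ x, S.w x = 0 → f x = g x) : ∫ x, f x ∂S.μ = ∫ x, g x ∂S.μ :=
  integral_congr_ae (h.ae.mono e)
theorem ae_set (s : Set E3) : ∀ᵐ x ∂S.μ.restrict s, S.w x = 0 := ae_restrict_of_ae h.ae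
theorem restrict (s : Set E3) : S.μ.restrict s = H2.restrict (s ∩ S.G) :=
  Measure.restrict_restrict' h.meas
theorem apply (s : Set E3) : S.μ s = H2 (s ∩ S.G) := Measure.restrict_apply' h.meas

/-! ### algebra on the surface -/

variable (hx : S.w x = 0)
include hx

theorem gpos : 0 < ‖gradient S.w x‖ := norm_pos_iff.2 (h.reg x hx)

theorem ev_reg : ∀ᶠ y in 𝓝 x, gradient S.w y ≠ 0 :=
  (smooth_gradient h.sw).continuous.continuousAt.eventually_ne (h.reg x hx)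

theorem ev_norm : ∀ᶠ y in 𝓝 x, ‖S.n y‖ = 1 := by
  filter_upwards [h.nrm x hx, h.ev_reg hx] with y a b
  rw [a, norm_smul, norm_inv, norm_norm, inv_mul_cancel₀ (norm_ne_zero_iff.2 b)]

theorem ev_grad : ∀ᶠ y in 𝓝 x, gradient S.w y = ‖gradient S.w y‖ • S.n y := by
  filter_upwards [h.nrm x hx, h.ev_reg hx] with y a b
  rw [a, smul_inv_smul₀ (norm_ne_zero_iff.2 b)]

theorem norm_n : ‖S.n x‖ = 1 := (h.ev_norm hx).self_of_nhds
theorem nn : ⟪S.n x, S.n x⟫ = 1 := by rw [real_inner_self_eq_norm_sq, h.norm_n hx, one_pow]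
theorem grad_eq : gradient S.w x = ‖gradient S.w x‖ • S.n x := (h.ev_grad hx).self_of_nhds
theorem fderiv_w (v : E3) : fderiv ℝ S.w x v = ‖gradient S.w x‖ * ⟪S.n x, v⟫ := by
  rw [← inner_grad, ← real_inner_smul_left, ← h.grad_eq hx]

theorem P_n : S.P x (S.n x) = 0 := by rw [P_apply, h.nn hx, one_smul, sub_self]
theorem n_P (v : E3) : ⟪S.n x, S.P x v⟫ = 0 := by rw [← P_sym, h.P_n hx, inner_zero_left]
theorem P_P (v : E3) : S.P x (S.P x v) = S.P x v := P_tan (h.n_P hx v)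
theorem PP : S.P x ∘L S.P x = S.P x := ContinuousLinearMap.ext (h.P_P hx)
theorem norm_P_sq (v : E3) : ‖S.P x v‖ ^ 2 = ‖v‖ ^ 2 - ⟪S.n x, v⟫ ^ 2 := by
  rw [← real_inner_self_eq_norm_sq, P_sym, h.P_P hx, real_inner_comm, P_apply, inner_sub_left,
    real_inner_smul_left, real_inner_self_eq_norm_sq, sq ⟪_, _⟫]
theorem norm_P_le (v : E3) : ‖S.P x v‖ ≤ ‖v‖ :=
  abs_le_of_sq_le_sq' (by rw [h.norm_P_sq hx]; nlinarith [sq_nonneg ⟪S.n x, v⟫])
    (norm_nonneg _) |>.2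
theorem norm_P : ‖S.P x‖ ≤ 1 :=
  ContinuousLinearMap.opNorm_le_bound _ one_pos.le fun v => by simpa using h.norm_P_le hx v
theorem trc_P : trc (S.P x) = 2 := by
  rw [P, trc_sub, trc_id, trc_smulRight, innerSL_apply_apply, h.nn hx]; norm_num
theorem dv_id (c : E3) : S.dv (fun y => y - c) x = 2 := by
  rw [dv, fderiv_sub_const, fderiv_fun_id, ContinuousLinearMap.id_comp, h.trc_P hx]
theorem abs_dv_le (Y : E3 → E3) : |S.dv Y x| ≤ 3 * ‖fderiv ℝ Y x‖ :=
  (abs_trc_le _).trans (by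
    have := (ContinuousLinearMap.opNorm_comp_le (fderiv ℝ Y x) (S.P x)).trans
      (mul_le_of_le_one_right (norm_nonneg _) (h.norm_P hx))
    push_cast; linarith)
theorem norm_tg_le (f : E3 → ℝ) : ‖S.tg f x‖ ≤ ‖gradient f x‖ := h.norm_P_le hx _
theorem n_tg (f : E3 → ℝ) : ⟪S.n x, S.tg f x⟫ = 0 := h.n_P hx _

theorem n_dn (v : E3) : ⟪S.n x, fderiv ℝ S.n x v⟫ = 0 := by
  have h1 : (fun y => ⟪S.n y, S.n y⟫) =ᶠ[𝓝 x] fun _ => 1 :=
    (h.ev_norm hx).mono fun y a => by simp only [real_inner_self_eq_norm_sq, a, one_pow]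
  have h2 := fderiv_inner_apply ℝ (h.dn x) (h.dn x) v
  rw [h1.fderiv_eq, real_inner_comm (S.n x)] at h2
  simp only [fderiv_fun_const, Pi.zero_apply, zero_apply] at h2
  linarith

theorem n_A (v : E3) : ⟪S.n x, S.A x v⟫ = 0 := h.n_dn hx _
theorem A_n : S.A x (S.n x) = 0 := by rw [A_apply, h.P_n hx, map_zero]
theorem P_A (v : E3) : S.P x (S.A x v) = S.A x v := P_tan (h.n_A hx v)
theorem A_P (v : E3) : S.A x (S.P x v) = S.A x v := by rw [A_apply, h.P_P hx, A_apply]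
theorem PA : S.P x ∘L S.A x = S.A x := ContinuousLinearMap.ext (h.P_A hx)
theorem AP : S.A x ∘L S.P x = S.A x := ContinuousLinearMap.ext (h.A_P hx)
theorem H_eq_dvg : S.H x = dvg S.n x := by rw [← dv_n, dv_eq, h.n_dn hx, sub_zero]

theorem P_dn (v : E3) : ‖gradient S.w x‖ • fderiv ℝ S.n x v =
    S.P x (fderiv ℝ (gradient S.w) x v) := by
  have h1 : DifferentiableAt ℝ (fun y => ‖gradient S.w y‖) x :=
    ((smooth_gradient h.sw).differentiable (by simp) x).norm ℝ (h.reg x hx)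
  have h2 : gradient S.w =ᶠ[𝓝 x] fun y => ‖gradient S.w y‖ • S.n y := h.ev_grad hx
  rw [h2.fderiv_eq, fderiv_fun_smul h1 (h.dn x)]
  simp [h.P_n hx, P_tan (h.n_dn hx v)]

theorem A_eq (v : E3) :
    S.A x v = ‖gradient S.w x‖⁻¹ • S.P x (fderiv ℝ (gradient S.w) x (S.P x v)) := by
  rw [← h.P_dn hx, inv_smul_smul₀ (h.gpos hx).ne', A_apply]

theorem A_sym (v w : E3) : ⟪S.A x v, w⟫ = ⟪v, S.A x w⟫ := by
  rw [h.A_eq hx, h.A_eq hx, inner_smul_left, inner_smul_right, P_sym,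
    fderiv_grad_sym (h.sw.contDiffAt.of_le two_le), P_sym]
  rfl

theorem A2_nonneg : 0 ≤ S.A2 x := trc_sq_nonneg (h.A_sym hx)
theorem norm_A_sq : ‖S.A x‖ ^ 2 ≤ S.A2 x := norm_sq_le_trc (h.A_sym hx)
theorem H_sq_le : S.H x ^ 2 ≤ 2 * S.A2 x := by
  have := trc_sq_nonneg (M := S.A x - (S.H x / 2) • S.P x) fun v w => by
    simp only [sub_apply, smul_apply, inner_sub_left, inner_sub_right, real_inner_smul_left,
      real_inner_smul_right, h.A_sym hx, P_sym]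
  simp only [ContinuousLinearMap.sub_comp, ContinuousLinearMap.comp_sub,
    ContinuousLinearMap.smul_comp, ContinuousLinearMap.comp_smul, trc_sub, trc_smul, h.PA hx,
    h.AP hx, h.PP hx, h.trc_P hx] at this
  simp only [H, A2] at this ⊢
  nlinarith
theorem K_le : S.K x ≤ S.H x ^ 2 / 4 := by have := h.H_sq_le hx; rw [A2_eq] at this; linarith
theorem abs_K_le : |S.K x| ≤ S.A2 x / 2 := by
  have := h.H_sq_le hx; have := A2_eq (S := S) x
  exact abs_le.2 ⟨by nlinarith [sq_nonneg (S.H x)], by linarith⟩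

/-! ### tangential derivatives -/

theorem tan {Y : Type*} [NormedAddCommGroup Y] [NormedSpace ℝ Y] {g g' : E3 → Y}
    (hg : DifferentiableAt ℝ g x) (hg' : DifferentiableAt ℝ g' x)
    (e : ∀ᶠ y in 𝓝 x, S.w y = 0 → g y = g' y) :
    fderiv ℝ g x ∘L S.P x = fderiv ℝ g' x ∘L S.P x := by
  ext1 v
  have := tan_zero (h.sw.contDiffAt.of_le (by exact_mod_cast le_top)) hx
    (grad_ne_iff.1 (h.reg x hx)) (hg.sub hg') (e.mono fun y a b => sub_eq_zero.2 (a b))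
    (v := S.P x v) (by rw [h.fderiv_w hx, h.n_P hx, mul_zero])
  rwa [fderiv_sub hg hg', sub_apply, sub_eq_zero] at this

theorem dv_tan {Y Z : E3 → E3} (hY : DifferentiableAt ℝ Y x) (hZ : DifferentiableAt ℝ Z x)
    (e : ∀ᶠ y in 𝓝 x, S.w y = 0 → Y y = Z y) : S.dv Y x = S.dv Z x := by
  rw [dv, h.tan hx hY hZ e, dv]

theorem tg_tan {f g : E3 → ℝ} (hf : DifferentiableAt ℝ f x) (hg : DifferentiableAt ℝ g x)
    (e : ∀ᶠ y in 𝓝 x, S.w y = 0 → f y = g y) : S.tg f x = S.tg g x :=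
  ext_inner_right ℝ fun v => by
    rw [inner_tg, inner_tg]; exact DFunLike.congr_fun (h.tan hx hf hg e) v

/-- the tangential Hessian -/
theorem hs_eq {f : E3 → ℝ} (hf : ContDiffAt ℝ 2 f x) : S.hs f x =
    S.P x ∘L fderiv ℝ (gradient f) x ∘L S.P x - ⟪S.n x, gradient f x⟫ • S.A x := by
  have h1 : DifferentiableAt ℝ (gradient f) x :=
    (InnerProductSpace.toDual ℝ E3).symm.toContinuousLinearEquiv.differentiableAt.comp x
      ((hf.fderiv_right (m := 1) (by norm_num)).differentiableAt one_ne_zero)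
  have h2 := (h.dn x).inner ℝ h1
  have h3 : S.tg f = fun y => gradient f y - ⟪S.n y, gradient f y⟫ • S.n y :=
    funext fun y => P_apply _ _
  ext1 v
  rw [hs, h3, fderiv_fun_sub h1 (h2.fun_smul (h.dn x)), fderiv_fun_smul h2 (h.dn x)]
  simp [h.P_n hx, ← A_apply, h.P_A hx]

theorem hs_sym {f : E3 → ℝ} (hf : ContDiffAt ℝ 2 f x) (v w : E3) :
    ⟪S.hs f x v, w⟫ = ⟪v, S.hs f x w⟫ := by
  simp only [h.hs_eq hx hf, sub_apply, smul_apply, ContinuousLinearMap.comp_apply, inner_sub_left,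
    inner_sub_right, real_inner_smul_left, real_inner_smul_right, h.A_sym hx]
  rw [P_sym, fderiv_grad_sym hf, P_sym]

theorem same_n {T : Srf} (hT : T.Ok) (e : ∀ᶠ y in 𝓝 x, S.w y = 0 ↔ T.w y = 0) :
    T.n x = S.n x ∨ T.n x = -S.n x := by
  have hx' := e.self_of_nhds.1 hx
  have h1 : S.P x (T.n x) = 0 := ext_inner_right ℝ fun v => by
    have := DFunLike.congr_fun (h.tan hx (hT.dw x) (differentiableAt_const 0)
      (e.mono fun y a b => a.1 b)) v
    simp only [ContinuousLinearMap.comp_apply, hT.fderiv_w hx', fderiv_fun_const, Pi.zero_apply,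
      zero_apply, mul_eq_zero, (hT.gpos hx').ne', false_or] at this
    rw [P_sym, this, inner_zero_left]
  have h2 := h.norm_P_sq hx (T.n x)
  rw [h1, hT.norm_n hx'] at h2
  rw [P_apply, sub_eq_zero] at h1
  rcases sq_eq_sq_iff_eq_or_eq_neg.1 (show ⟪S.n x, T.n x⟫ ^ 2 = 1 ^ 2 by simp at h2; linarith)
    with a | a
  · left; rw [h1, a, one_smul]
  · right; rw [h1, a, neg_one_smul]

/-- two surfaces which agree near a point have the same normal and shape operator up to sign -/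
theorem same {T : Srf} (hT : T.Ok) (e : ∀ᶠ y in 𝓝 x, S.w y = 0 ↔ T.w y = 0) :
    ∃ ε : ℝ, (ε = 1 ∨ ε = -1) ∧
      ∀ᶠ y in 𝓝 x, S.w y = 0 → T.n y = ε • S.n y ∧ T.P y = S.P y ∧ T.A y = ε • S.A y := by
  obtain ⟨ε, hε, h0⟩ : ∃ ε : ℝ, (ε = 1 ∨ ε = -1) ∧ T.n x = ε • S.n x := by
    rcases h.same_n hx hT e with a | a
    exacts [⟨1, .inl rfl, by simpa using a⟩, ⟨-1, .inr rfl, by simpa using a⟩]
  have hε2 : ε * ε = 1 := by rcases hε with rfl | rfl <;> norm_num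
  have h1 : ∀ᶠ y in 𝓝 x, 0 < ε * ⟪S.n y, T.n y⟫ :=
    (continuous_const.mul (h.sn.continuous.inner hT.sn.continuous)).continuousAt.eventually
      (lt_mem_nhds (show 0 < ε * ⟪S.n x, T.n x⟫ by
        rw [h0, real_inner_smul_right, h.nn hx, mul_one, hε2]; exact one_pos))
  have h2 : ∀ᶠ y in 𝓝 x, S.w y = 0 → T.n y = ε • S.n y := by
    filter_upwards [h1, e.eventually_nhds] with y a b hy
    rcases h.same_n hy hT b with c | c <;> rcases hε with rfl | rfl <;>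
      simp only [c, inner_neg_right, h.nn hy] at a ⊢ <;> first | linarith | simp
  refine ⟨ε, hε, ?_⟩
  filter_upwards [h2.eventually_nhds] with y a hy
  have h3 : T.P y = S.P y := ContinuousLinearMap.ext fun v => by
    rw [P_apply, P_apply, a.self_of_nhds hy, real_inner_smul_left, smul_smul, mul_right_comm, hε2,
      one_mul]
  refine ⟨a.self_of_nhds hy, h3, ?_⟩
  rw [A, h3, h.tan hy (hT.dn y) ((h.dn y).const_smul ε) a, fderiv_const_smul (h.dn y)]
  rfl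

end Ok

theorem GBd.nonneg {G : ℝ} (h : S.Ok) (hG : S.GBd G) : 0 ≤ G := by
  have h1 := hG 0 1 one_pos
  have h2 : 0 ≤ ∫ x in ball (0 : E3) 1, S.A2 x ∂S.μ :=
    integral_nonneg_of_ae ((h.ae_set _).mono fun x hx => h.A2_nonneg hx)
  have h3 : 0 ≤ ∫ x in closedBall (0 : E3) (20 * 1), S.H x ^ 2 ∂S.μ := by positivity
  exact nonneg_of_mul_nonneg_left (h2.trans h1) (by linarith)

/-- the surface of a defining function -/
def of (w : E3 → ℝ) : Srf := ⟨w, fun x => qq (w x, gradient w x) • gradient w x⟩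

theorem of_ok {w : E3 → ℝ} (hw : ContDiff ℝ ∞ w) (h : ∀ x, w x = 0 → gradient w x ≠ 0) :
    (of w).Ok where
  sw := hw
  sn := (contDiff_iff_contDiffAt.2 fun x => (contDiffAt_qq (z := (w x, gradient w x)) (h x)).comp x
    (hw.prodMk (smooth_gradient hw)).contDiffAt).smul (smooth_gradient hw)
  reg := h
  nrm x hx := (qq_ev hw.continuous.continuousAt (smooth_gradient hw).continuous.continuousAt hx
    (h x hx)).mono fun y a => by simp only [of, a]

end Srf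

/-! ### flows -/

namespace Flw

variable {F : Flw} {a b t : ℝ}

theorem open_dom (a b : ℝ) : IsOpen (Ioo a b ×ˢ (univ : Set E3)) := isOpen_Ioo.prod isOpen_univ

theorem mem_dom (ht : t ∈ Ioo a b) (x : E3) : Ioo a b ×ˢ (univ : Set E3) ∈ 𝓝 (t, x) :=
  (open_dom a b).mem_nhds ⟨ht, trivial⟩

section slice

variable {Y : Type*} [NormedAddCommGroup Y] [NormedSpace ℝ Y] {f : ℝ × E3 → Y} {k : WithTop ℕ∞}

theorem slice (hf : ContDiffOn ℝ k f (Ioo a b ×ˢ univ)) (ht : t ∈ Ioo a b) :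
    ContDiff ℝ k fun x => f (t, x) :=
  contDiff_iff_contDiffAt.2 fun x =>
    (hf.contDiffAt (mem_dom ht x)).comp x (contDiff_prodMk_right t).contDiffAt

theorem fderiv_slice {p : ℝ × E3} (hf : DifferentiableAt ℝ f p) :
    fderiv ℝ (fun x => f (p.1, x)) p.2 = fderiv ℝ f p ∘L ContinuousLinearMap.inr ℝ ℝ E3 :=
  (hf.hasFDerivAt.comp p.2 (hasFDerivAt_prodMk_right p.1 p.2)).fderiv

theorem deriv_slice {p : ℝ × E3} (hf : DifferentiableAt ℝ f p) :
    HasDerivAt (fun s => f (s, p.2)) (fderiv ℝ f p (1, 0)) p.1 := by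
  simpa using! (hf.hasFDerivAt.comp p.1 (hasFDerivAt_prodMk_left p.1 p.2)).hasDerivAt

/-- the spatial derivative of a jointly smooth function is jointly smooth -/
theorem sm_fderiv {m : WithTop ℕ∞} (hf : ContDiffOn ℝ k f (Ioo a b ×ˢ univ)) (hm : m + 1 ≤ k) :
    ContDiffOn ℝ m (fun p : ℝ × E3 => fderiv ℝ (fun x => f (p.1, x)) p.2) (Ioo a b ×ˢ univ) :=
  ((hf.fderiv_of_isOpen (open_dom a b) hm).clm_comp contDiffOn_const).congr fun p hp =>
    fderiv_slice ((hf.contDiffAt ((open_dom a b).mem_nhds hp)).differentiableAt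
      (ne_of_gt (lt_of_lt_of_le (by simp) hm)))

theorem sm_deriv {m : WithTop ℕ∞} (hf : ContDiffOn ℝ k f (Ioo a b ×ˢ univ)) (hm : m + 1 ≤ k) :
    ContDiffOn ℝ m (fun p : ℝ × E3 => deriv (fun s => f (s, p.2)) p.1) (Ioo a b ×ˢ univ) :=
  ((hf.fderiv_of_isOpen (open_dom a b) hm).clm_apply contDiffOn_const).congr fun p hp =>
    (deriv_slice ((hf.contDiffAt ((open_dom a b).mem_nhds hp)).differentiableAt
      (ne_of_gt (lt_of_lt_of_le (by simp) hm)))).deriv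

theorem sm_grad {f : ℝ × E3 → ℝ} {m : WithTop ℕ∞} (hf : ContDiffOn ℝ k f (Ioo a b ×ˢ univ))
    (hm : m + 1 ≤ k) :
    ContDiffOn ℝ m (fun p : ℝ × E3 => gradient (fun x => f (p.1, x)) p.2) (Ioo a b ×ˢ univ) :=
  (InnerProductSpace.toDual ℝ E3).symm.toContinuousLinearEquiv.contDiff.comp_contDiffOn
    (sm_fderiv hf hm)

end slice

namespace Ok

variable (h : F.Ok a b)
include h

theorem sl (ht : t ∈ Ioo a b) : (F.sl t).Ok where
  sw := slice h.su ht
  sn := slice h.sn ht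
  reg := h.reg t ht
  nrm x hx := (continuous_const.prodMk continuous_id).continuousAt.eventually (h.nrm t ht x hx)

theorem mono {c d : ℝ} (hc : a ≤ c) (hd : d ≤ b) : F.Ok c d :=
  have s := Ioo_subset_Ioo hc hd
  ⟨h.su.mono (prod_mono_left s), h.sn.mono (prod_mono_left s), fun t ht => h.reg t (s ht),
    fun t ht => h.nrm t (s ht), fun t ht => h.eq t (s ht)⟩

theorem sg : ContDiffOn ℝ ∞ (fun p : ℝ × E3 => gradient (F.sl p.1).w p.2) (Ioo a b ×ˢ univ) :=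
  sm_grad h.su (by simp)
theorem sP : ContDiffOn ℝ ∞ (fun p : ℝ × E3 => (F.sl p.1).P p.2) (Ioo a b ×ˢ univ) :=
  contDiffOn_const.sub (((innerSL ℝ).contDiff.comp_contDiffOn h.sn).smulRight h.sn)
theorem sA : ContDiffOn ℝ ∞ (fun p : ℝ × E3 => (F.sl p.1).A p.2) (Ioo a b ×ˢ univ) :=
  (sm_fderiv h.sn (by simp)).clm_comp h.sP
theorem sH : ContDiffOn ℝ ∞ (fun p : ℝ × E3 => (F.sl p.1).H p.2) (Ioo a b ×ˢ univ) :=
  contDiff_trc.comp_contDiffOn h.sA
theorem sA2 : ContDiffOn ℝ ∞ (fun p : ℝ × E3 => (F.sl p.1).A2 p.2) (Ioo a b ×ˢ univ) :=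
  contDiff_trc.comp_contDiffOn (h.sA.clm_comp h.sA)
theorem sK : ContDiffOn ℝ ∞ (fun p : ℝ × E3 => (F.sl p.1).K p.2) (Ioo a b ×ˢ univ) :=
  contDiff_dt.comp_contDiffOn h.sA

end Ok

theorem OkA.mono {Λ c d : ℝ} (h : F.OkA a b Λ) (hc : a ≤ c) (hd : d ≤ b) : F.OkA c d Λ :=
  ⟨h.toOk.mono hc hd, fun t ht => h.ar t (Ioo_subset_Ioo hc hd ht)⟩

theorem Good.mono {Λ G c d : ℝ} (h : F.Good a b Λ G) (hc : a ≤ c) (hd : d ≤ b) : F.Good c d Λ G :=
  ⟨h.toOkA.mono hc hd, fun t ht => h.gb t (Ioo_subset_Ioo hc hd ht)⟩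

theorem rs_sl (F : Flw) (x₀ : E3) (t₀ l s : ℝ) :
    (F.rs x₀ t₀ l).sl s = (F.sl (t₀ + s / l ^ 2)).sc x₀ l := rfl

/-- the flow of a defining function -/
def of (u : ℝ × E3 → ℝ) : Flw :=
  ⟨u, fun p => qq (u p, gradient (fun x => u (p.1, x)) p.2) • gradient (fun x => u (p.1, x)) p.2⟩

theorem of_sl (u : ℝ × E3 → ℝ) (t : ℝ) : (of u).sl t = Srf.of fun x => u (t, x) := rfl

theorem of_sq {u : ℝ × E3 → ℝ} (su : ContDiffOn ℝ ∞ u (Ioo a b ×ˢ univ))
    (reg : ∀ t ∈ Ioo a b, ∀ x, u (t, x) = 0 → gradient (fun x => u (t, x)) x ≠ 0) :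
    ContDiffOn ℝ ∞ (fun p : ℝ × E3 => qq (u p, gradient (fun x => u (p.1, x)) p.2))
      (Ioo a b ×ˢ univ) := fun p hp =>
  ContDiffAt.comp_contDiffWithinAt (g := qq) p (contDiffAt_qq (reg p.1 hp.1 p.2))
    (su.prodMk (sm_grad su (by simp)) p hp)

theorem of_ev {u : ℝ × E3 → ℝ} (su : ContDiffOn ℝ ∞ u (Ioo a b ×ˢ univ)) (ht : t ∈ Ioo a b)
    {x : E3} (hx : u (t, x) = 0) (reg : gradient (fun x => u (t, x)) x ≠ 0) :
    ∀ᶠ p : ℝ × E3 in 𝓝 (t, x), qq (u p, gradient (fun x => u (p.1, x)) p.2) =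
      ‖gradient (fun x => u (p.1, x)) p.2‖⁻¹ :=
  qq_ev (su.continuousOn.continuousAt (mem_dom ht x))
    ((sm_grad (m := ∞) su (by simp)).continuousOn.continuousAt (mem_dom ht x)) hx reg

theorem of_ok {u : ℝ × E3 → ℝ} (su : ContDiffOn ℝ ∞ u (Ioo a b ×ˢ univ))
    (reg : ∀ t ∈ Ioo a b, ∀ x, u (t, x) = 0 → gradient (fun x => u (t, x)) x ≠ 0)
    (eq : ∀ t ∈ Ioo a b, ∀ x, u (t, x) = 0 → deriv (fun s => u (s, x)) t =
      ‖gradient (fun x => u (t, x)) x‖ * (Srf.of fun x => u (t, x)).H x) : (of u).Ok a b where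
  su := su
  sn := (of_sq su reg).smul (sm_grad su (by simp))
  reg := reg
  nrm t ht x hx := (of_ev su ht hx (reg t ht x hx)).mono fun p e => by
    simp only [of, e]; rfl
  eq := eq

end Flw

theorem AR.mono {Λ Λ' : ℝ} {μ : Measure E3} (h : AR Λ μ) (hΛ : Λ ≤ Λ') : AR Λ' μ :=
  fun x r hr => (h x r hr).trans (ENNReal.ofReal_le_ofReal (by gcongr))

theorem AR.fin {Λ : ℝ} {μ : Measure E3} (h : AR Λ μ) : IsLocallyFiniteMeasure μ :=
  ⟨fun x => ⟨_, closedBall_mem_nhds x one_pos, (h x 1 one_pos).trans_lt ENNReal.ofReal_lt_top⟩⟩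

theorem AR.real {Λ : ℝ} {μ : Measure E3} (h : AR Λ μ) (h0 : 0 ≤ Λ) {x : E3} {r : ℝ} (hr : 0 < r)
    {s : Set E3} (hs : s ⊆ closedBall x r) : μ.real s ≤ Λ * r ^ 2 :=
  ENNReal.toReal_le_of_le_ofReal (by positivity) ((measure_mono hs).trans (h x r hr))

theorem gs_nonneg (μ : Measure E3) (x : E3) (ρ : ℝ) : 0 ≤ gs μ x ρ := by
  unfold gs; positivity

theorem open_cyl {p e : E3} {L : E 2 →ₗᵢ[ℝ] E3} (h : Fr e L) {r s : ℝ} {x : E3} :
    x ∈ cyl p e L r s ↔ ‖adj L (x - p)‖ < r ∧ |⟪e, x - p⟫| < s := by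
  constructor
  · rintro ⟨y, t, a, b, rfl⟩
    rw [add_assoc, add_sub_cancel_left, h.adj_pt, h.e_pt]; exact ⟨a, b⟩
  · exact fun a => ⟨_, _, a.1, a.2, by rw [add_assoc, h.dec, add_sub_cancel]⟩

theorem isOpen_cyl {p e : E3} {L : E 2 →ₗᵢ[ℝ] E3} (h : Fr e L) (r s : ℝ) :
    IsOpen (cyl p e L r s) := by
  rw [show cyl p e L r s = {x | ‖adj L (x - p)‖ < r} ∩ {x | |⟪e, x - p⟫| < s} from
    Set.ext fun _ => open_cyl h]
  exact (isOpen_lt (by fun_prop) continuous_const).inter (isOpen_lt (by fun_prop) continuous_const)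

theorem Srf.Gr.inter {S : Srf} {p e : E3} {L : E 2 →ₗᵢ[ℝ] E3} {r s : ℝ} {v : E 2 → ℝ}
    (h : S.Gr p e L r s v) : cyl p e L r s ∩ S.G = gX p e L v '' ball 0 r := by
  ext x
  constructor
  · rintro ⟨⟨y, t, a, b, rfl⟩, c⟩
    exact ⟨y, mem_ball_zero_iff.2 a, by rw [gX, ← ((h y a).2 t b).2.1 c]⟩
  · rintro ⟨y, a, rfl⟩
    have a' := mem_ball_zero_iff.1 a
    exact ⟨⟨y, _, a', (h y a').1, rfl⟩, ((h y a').2 _ (h y a').1).2.2 rfl⟩

end Vale.Agent.P218R
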