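import Vale.Agent.P218R.Base

/-!
# P218R, rows BRK and CNT: Brakke's identity for smooth flows
-/

open MeasureTheory Metric Filter Topology Set
open scoped ContDiff ENNReal RealInnerProductSpace
open Vale.Agent.P366.Stmt (E)
open Vale.Agent.P366W

noncomputable section

namespace Vale.Agent.P218R

namespace Brk

abbrev X := ℝ × E3

/-- vanishing outside `ℝ × K` -/
def Z0 {G : Type} [Zero G] (K : Set E3) (φ : X → G) : Prop := ∀ t, ∀ x ∉ K, φ (t, x) = 0

/-- the spatial divergence -/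
def sd (Z : X → E3) (p : X) : ℝ := trc (fderiv ℝ Z p ∘L ContinuousLinearMap.inr ℝ ℝ E3)

variable {G : Type} [NormedAddCommGroup G] [NormedSpace ℝ G] {K : Set E3}

lemma Z0.fderiv {φ : X → G} (h : Z0 K φ) (hK : IsCompact K) : Z0 K (fderiv ℝ φ) := fun t x hx => by
  have : φ =ᶠ[𝓝 (t, x)] fun _ => 0 :=
    ((continuous_snd.tendsto (t, x)).eventually (hK.isClosed.isOpen_compl.mem_nhds hx)).mono
      fun p hp => h p.1 p.2 hp
  rw [this.fderiv_eq, fderiv_fun_const]
  rfl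

lemma Z0.sd {Z : X → E3} (h : Z0 K Z) (hK : IsCompact K) : Z0 K (sd Z) := fun t x hx => by
  simp [Brk.sd, h.fderiv hK t x hx, trc]

omit [NormedSpace ℝ G] in
lemma Z0.bd {φ : X → G} (h : Z0 K φ) (hK : IsCompact K) (hφ : Continuous φ) (t₀ : ℝ) :
    ∃ b : E3 → ℝ, Integrable b ∧ ∀ t ∈ closedBall t₀ 1, ∀ x, ‖φ (t, x)‖ ≤ b x := by
  obtain ⟨C, hC⟩ := ((isCompact_closedBall t₀ 1).prod hK).exists_bound_of_continuousOn
    hφ.continuousOn
  refine ⟨K.indicator fun _ => C, (integrable_indicator_iff hK.measurableSet).2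
    (integrableOn_const hK.measure_lt_top.ne), fun t ht x => ?_⟩
  by_cases hx : x ∈ K
  · rw [indicator_of_mem hx]; exact hC _ ⟨ht, hx⟩
  · rw [indicator_of_notMem hx, h t x hx, norm_zero]

lemma sl_fd {φ : X → G} {t : ℝ} {x : E3} (h : DifferentiableAt ℝ φ (t, x)) :
    HasFDerivAt (fun y => φ (t, y)) (fderiv ℝ φ (t, x) ∘L ContinuousLinearMap.inr ℝ ℝ E3) x :=
  h.hasFDerivAt.comp x (hasFDerivAt_prodMk_right t x)

lemma sl_d {φ : X → G} {t : ℝ} {x : E3} (h : DifferentiableAt ℝ φ (t, x)) :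
    HasDerivAt (fun s => φ (s, x)) (fderiv ℝ φ (t, x) (1, 0)) t := by
  simpa [Function.comp_def] using
    (h.hasFDerivAt.comp t (hasFDerivAt_prodMk_left t x)).hasDerivAt

lemma sd_eq {Z : X → E3} {t : ℝ} {x : E3} (h : DifferentiableAt ℝ Z (t, x)) :
    dvg (fun y => Z (t, y)) x = sd Z (t, x) := by rw [dvg_eq, (sl_fd h).fderiv, sd]

lemma cd_sd {k : WithTop ℕ∞} {Z : X → E3} (h : ContDiff ℝ (k + 1) Z) : ContDiff ℝ k (sd Z) :=
  contDiff_trc.comp ((h.fderiv_right le_rfl).clm_comp contDiff_const)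

lemma cont_d {φ : X → G} (h : ContDiff ℝ 1 φ) (v : X) : Continuous fun p => fderiv ℝ φ p v :=
  (h.continuous_fderiv one_ne_zero).clm_apply continuous_const

lemma sl_c {H : Type} [TopologicalSpace H] {φ : X → H} (h : Continuous φ) (t : ℝ) :
    Continuous fun x => φ (t, x) := h.comp (Continuous.prodMk_right t)

lemma int_sl {φ : X → ℝ} (h : Z0 K φ) (hK : IsCompact K) (hφ : Continuous φ) (t : ℝ) :
    Integrable fun x => φ (t, x) :=
  (sl_c hφ t).integrable_of_hasCompactSupport (HasCompactSupport.intro hK (h t))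

lemma der_int {Φ : X → ℝ} (h : Z0 K Φ) (hK : IsCompact K) (hΦ : ContDiff ℝ 1 Φ) (t : ℝ) :
    HasDerivAt (fun s => ∫ x, Φ (s, x)) (∫ x, fderiv ℝ Φ (t, x) (1, 0)) t := by
  have hc := cont_d hΦ (1, 0)
  obtain ⟨b, hb, h1⟩ := Z0.bd (K := K) (fun s x hx => by simp [h.fderiv hK s x hx]) hK hc t
  exact (hasDerivAt_integral_of_dominated_loc_of_deriv_le (closedBall_mem_nhds t one_pos)
    (Eventually.of_forall fun s => (sl_c hΦ.continuous s).aestronglyMeasurable)
    (int_sl h hK hΦ.continuous t) (F' := fun s x => fderiv ℝ Φ (s, x) (1, 0))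
    (sl_c hc t).aestronglyMeasurable (Eventually.of_forall fun x s hs => h1 s hs x) hb
    (Eventually.of_forall fun x s _ => sl_d (hΦ.differentiable one_ne_zero _))).2

/-- approximations of the indicator function of the negative numbers -/
def β (k : ℕ) (r : ℝ) : ℝ := Real.smoothTransition (-(k * r))

lemma β_cd (k : ℕ) : ContDiff ℝ 1 (β k) :=
  Real.smoothTransition.contDiff.comp (contDiff_const.mul contDiff_id).neg

lemma β_le (k : ℕ) (r : ℝ) : |β k r| ≤ 1 :=
  (abs_of_nonneg (Real.smoothTransition.nonneg _)).trans_le (Real.smoothTransition.le_one _)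

lemma β_ev {r : ℝ} (hr : r ≠ 0) :
    ∀ᶠ q : ℕ × ℝ in atTop ×ˢ 𝓝 r, β q.1 q.2 = if r < 0 then 1 else 0 := by
  split_ifs with h
  · have h1 : ∀ᶠ k : ℕ in atTop, 2 / -r ≤ k := tendsto_natCast_atTop_atTop.eventually_ge_atTop _
    filter_upwards [h1.prod_mk (eventually_lt_nhds (by linarith : r < r / 2))] with q hq
    refine Real.smoothTransition.one_of_one_le ?_
    have := (div_le_iff₀ (neg_pos.2 h)).1 hq.1
    nlinarith [hq.2, q.1.cast_nonneg (α := ℝ)]
  · filter_upwards [(eventually_gt_nhds (lt_of_le_of_ne (not_lt.1 h) hr.symm)).prod_inr _] with q hq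
    exact Real.smoothTransition.zero_of_nonpos (neg_nonpos.2 (mul_nonneg q.1.cast_nonneg hq.le))

lemma β_der {k : ℕ} {r : ℝ} (h : 1 < (k * r) ^ 2) : deriv (β k) r = 0 := by
  have hc : ContinuousAt (fun r : ℝ => k * r) r := by fun_prop
  rcases lt_abs.1 ((one_lt_sq_iff_one_lt_abs _).1 h) with h1 | h1
  · have : β k =ᶠ[𝓝 r] fun _ => 0 := (hc.eventually (eventually_gt_nhds h1)).mono fun s hs =>
      Real.smoothTransition.zero_of_nonpos (by linarith)
    rw [this.deriv_eq, deriv_const]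
  · have : β k =ᶠ[𝓝 r] fun _ => 1 := (hc.neg.eventually (eventually_gt_nhds h1)).mono fun s hs =>
      Real.smoothTransition.one_of_one_le hs.le
    rw [this.deriv_eq, deriv_const]

lemma lim {U φ : X → ℝ} (hU : Continuous U) (h : Z0 K φ) (hK : IsCompact K) (hφ : Continuous φ)
    {t₀ : ℝ} (h0 : volume {x | U (t₀, x) = 0} = 0) :
    Tendsto (fun q : ℕ × ℝ => ∫ x, β q.1 (U (q.2, x)) * φ (q.2, x)) (atTop ×ˢ 𝓝 t₀)
      (𝓝 (∫ x in {x | U (t₀, x) < 0}, φ (t₀, x))) := by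
  obtain ⟨b, hb, h1⟩ := h.bd hK hφ t₀
  rw [← integral_indicator (isOpen_lt (sl_c hU t₀) continuous_const).measurableSet]
  refine tendsto_integral_filter_of_dominated_convergence b (Eventually.of_forall fun q =>
    (((β_cd _).continuous.comp (sl_c hU _)).mul (sl_c hφ _)).aestronglyMeasurable) ?_ hb ?_
  · filter_upwards [Eventually.prod_inr (closedBall_mem_nhds t₀ one_pos) _] with q hq
    refine Eventually.of_forall fun x => ?_
    rw [norm_mul]
    exact (mul_le_of_le_one_left (norm_nonneg _) (β_le _ _)).trans (h1 _ hq x)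
  · filter_upwards [compl_mem_ae_iff.2 h0] with x hx
    have h2 : Tendsto (fun t => (t, x)) (𝓝 t₀) (𝓝 (t₀, x)) := (Continuous.prodMk_left x).tendsto _
    have h3 := (tendsto_id.prodMap ((hU.tendsto _).comp h2)).eventually (β_ev hx)
    have h4 := (((hφ.tendsto _).comp h2).comp (tendsto_snd (f := (atTop : Filter ℕ)))).const_mul
      (if U (t₀, x) < 0 then (1 : ℝ) else 0)
    convert h4.congr' (h3.mono fun q hq => ?_) using 2
    · by_cases h5 : U (t₀, x) < 0 <;> simp [h5, indicator]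
    · exact congrArg (· * _) hq.symm

lemma int_dvg (hD : DIV) {Y : E3 → E3} (hY : ContDiff ℝ 1 Y) (hc : HasCompactSupport Y) :
    ∫ x, dvg Y x = 0 := by
  simpa [Srf.μ, Srf.G] using (hD ⟨fun _ => -1, fun _ => 0⟩ Y
    ⟨contDiff_const, contDiff_const, by simp, by simp⟩ hY hc).symm

lemma mdk (hD : DIV) {b ψ : X → ℝ} {Z : X → E3} (hb : ContDiff ℝ 1 b) (hψ : ContDiff ℝ 1 ψ)
    (hZ : ContDiff ℝ 1 Z) (hK : IsCompact K) (ψ0 : Z0 K ψ) (z0 : Z0 K Z) {t : ℝ}
    (h : ∀ x, fderiv ℝ b (t, x) (0, Z (t, x)) = ψ (t, x) * fderiv ℝ b (t, x) (1, 0)) :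
    HasDerivAt (fun s => ∫ x, b (s, x) * ψ (s, x))
      (∫ x, b (t, x) * (fderiv ℝ ψ (t, x) (1, 0) - sd Z (t, x))) t := by
  have hφ : Continuous fun p => b p * (fderiv ℝ ψ p (1, 0) - sd Z p) :=
    hb.continuous.mul ((cont_d hψ _).sub (cd_sd (k := 0) hZ).continuous)
  have φ0 : Z0 K fun p => b p * (fderiv ℝ ψ p (1, 0) - sd Z p) := fun t x hx => by
    simp [ψ0.fderiv hK t x hx, z0.sd hK t x hx]
  have h1 : ContDiff ℝ 1 fun x => b (t, x) • Z (t, x) :=
    (hb.smul hZ).comp (contDiff_prodMk_right t)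
  have h2 : HasCompactSupport fun x => b (t, x) • Z (t, x) :=
    HasCompactSupport.intro hK fun x hx => by simp [z0 t x hx]
  have h3 := der_int (K := K) (Φ := fun p => b p * ψ p) (fun s x hx => by simp [ψ0 s x hx]) hK
    (hb.mul hψ) t
  refine h3.congr_deriv ?_
  rw [← add_zero (∫ x, b (t, x) * _), ← int_dvg hD h1 h2, ← integral_add (int_sl φ0 hK hφ t)
    ((continuous_dvg h1).integrable_of_hasCompactSupport (hcs_dvg h2))]
  refine integral_congr_ae (Eventually.of_forall fun x => ?_)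
  have db := hb.differentiable one_ne_zero (t, x)
  have dz := hZ.differentiable one_ne_zero (t, x)
  have h4 := dvg_smul (sl_fd db).differentiableAt (sl_fd dz).differentiableAt
  rw [sd_eq dz, (sl_fd db).fderiv] at h4
  simp only [h4, fderiv_fun_mul db (hψ.differentiable one_ne_zero _)]
  simp [h x]
  ring

lemma der_lim {f f' : ℕ × ℝ → ℝ} {g : ℝ → ℝ} {c t₀ : ℝ} (h1 : Tendsto f' (atTop ×ˢ 𝓝 t₀) (𝓝 c))
    (h2 : ∀ t, Tendsto f (atTop ×ˢ 𝓝 t) (𝓝 (g t)))
    (h3 : ∀ᶠ q in atTop ×ˢ 𝓝 t₀, HasDerivAt (fun s => f (q.1, s)) (f' q) q.2) :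
    HasDerivAt g c t₀ :=
  hasDerivAt_of_tendstoUniformlyOnFilter (f := fun k s => f (k, s)) (f' := fun k s => f' (k, s))
    (tendsto_prod_filter_iff.1 h1) h3 (Eventually.of_forall fun t => (h2 t).comp
      (tendsto_id.prodMk (tendsto_const_nhds (x := t))))

/-- integrals over a moving domain -/
lemma md (hD : DIV) {U ψ : X → ℝ} {Z : X → E3} (hU : ContDiff ℝ 1 U) (hψ : ContDiff ℝ 1 ψ)
    (hZ : ContDiff ℝ 1 Z) (hK : IsCompact K) (ψ0 : Z0 K ψ) (z0 : Z0 K Z)
    (h0 : ∀ t, volume {x | U (t, x) = 0} = 0) {m t₀ : ℝ} (hm : 0 < m)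
    (h : ∀ t ∈ closedBall t₀ 1, ∀ x, U (t, x) ^ 2 ≤ m →
      fderiv ℝ U (t, x) (0, Z (t, x)) = ψ (t, x) * fderiv ℝ U (t, x) (1, 0)) :
    HasDerivAt (fun s => ∫ x in {x | U (s, x) < 0}, ψ (s, x))
      (∫ x in {x | U (t₀, x) < 0}, (fderiv ℝ ψ (t₀, x) (1, 0) - sd Z (t₀, x))) t₀ := by
  have hφ : Continuous fun p => fderiv ℝ ψ p (1, 0) - sd Z p :=
    (cont_d hψ _).sub (cd_sd (k := 0) hZ).continuous
  have φ0 : Z0 K fun p => fderiv ℝ ψ p (1, 0) - sd Z p := fun t x hx => by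
    simp [ψ0.fderiv hK t x hx, z0.sd hK t x hx]
  refine der_lim (lim hU.continuous φ0 hK hφ (h0 t₀))
    (fun t => lim hU.continuous ψ0 hK hψ.continuous (h0 t)) ?_
  have h1 : ∀ᶠ k : ℕ in atTop, 1 + 1 / m ≤ k := tendsto_natCast_atTop_atTop.eventually_ge_atTop _
  filter_upwards [h1.prod_mk (closedBall_mem_nhds t₀ one_pos)] with q hq
  refine mdk hD (b := fun p => β q.1 (U p)) ((β_cd q.1).comp hU) hψ hZ hK ψ0 z0 fun x => ?_
  have h5 : HasFDerivAt (fun p => β q.1 (U p)) _ (q.2, x) :=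
    ((β_cd q.1).differentiable one_ne_zero _).hasDerivAt.comp_hasFDerivAt _
      (hU.differentiable one_ne_zero _).hasFDerivAt
  rw [h5.fderiv]
  by_cases h6 : U (q.2, x) ^ 2 ≤ m
  · simp [h _ hq.2 x h6, mul_left_comm]
  · have h7 : (0 : ℝ) < 1 / m := by positivity
    have h8 : 1 / m * m = 1 := by field_simp
    have h9 : 1 / m ≤ (q.1 : ℝ) ^ 2 := by nlinarith [hq.1]
    simp [β_der (k := q.1) (r := U (q.2, x)) (by rw [mul_pow]; nlinarith [not_le.1 h6])]

lemma null (hL : LOW) {S : Srf} (h : S.Ok) : volume S.G = 0 := by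
  have := (hL S h).1
  rw [← EuclideanSpace.euclideanHausdorffMeasure_eq_volume, ← univ_inter S.G,
    ← iUnion_closedBall_nat 0, iUnion_inter]
  exact measure_iUnion_null fun n => (Measure.euclideanHausdorffMeasure_zero_or_top
    (by norm_num : 2 < 3) _).resolve_right
      (h.apply _ ▸ (isCompact_closedBall (0 : E3) n).measure_lt_top.ne)

/-- equal to `1 / s` for `m ≤ s ^ 2` -/
def ρ (m s : ℝ) : ℝ := s / (s ^ 2 + expNegInvGlue (m - s ^ 2))

lemma ρ_cd {m : ℝ} (hm : 0 < m) : ContDiff ℝ 1 (ρ m) := by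
  refine contDiff_id.div ((contDiff_id.pow 2).add (expNegInvGlue.contDiff.comp
    (contDiff_const.sub (contDiff_id.pow 2)))) fun s => ne_of_gt ?_
  rcases lt_or_ge (s ^ 2) m with h | h
  · exact add_pos_of_nonneg_of_pos (sq_nonneg s) (expNegInvGlue.pos_of_pos (sub_pos.2 h))
  · exact add_pos_of_pos_of_nonneg (hm.trans_le h) (expNegInvGlue.nonneg _)

lemma ρ_mul {m s : ℝ} (hm : 0 < m) (h : m ≤ s ^ 2) : ρ m s * s = 1 := by
  rw [ρ, expNegInvGlue.zero_of_nonpos (sub_nonpos.2 h), add_zero, div_mul_eq_mul_div, ← sq,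
    div_self (hm.trans_le h).ne']

lemma sd_t {Y : X → E3} (hY : ContDiff ℝ 2 Y) (p v : X) :
    fderiv ℝ (sd Y) p v = sd (fun p => fderiv ℝ Y p v) p := by
  have h1 : HasFDerivAt (fderiv ℝ Y) _ p :=
    ((hY.fderiv_right (m := 1) le_rfl).differentiable one_ne_zero p).hasFDerivAt
  have h2 : HasFDerivAt (fun p => ∑ i, fderiv ℝ Y p (0, EuclideanSpace.single i 1) i) _ p :=
    HasFDerivAt.fun_sum fun i _ => (EuclideanSpace.proj (𝕜 := ℝ) i).hasFDerivAt.comp p
      (h1.clm_apply (hasFDerivAt_const ((0, EuclideanSpace.single i 1) : X) p))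
  rw [show fderiv ℝ (sd Y) p = _ from h2.fderiv, sd, (h1.clm_apply (hasFDerivAt_const v p)).fderiv]
  simp [trc, (hY.contDiffAt.isSymmSndFDerivAt (by simp)).eq v]

lemma unit_d {N : X → E3} {p : X} (h : DifferentiableAt ℝ N p) (h1 : ∀ᶠ q in 𝓝 p, ‖N q‖ = 1)
    (v : X) : ⟪N p, fderiv ℝ N p v⟫ = 0 := by
  have h2 : (fun q => ‖N q‖ ^ 2) =ᶠ[𝓝 p] fun _ => 1 := h1.mono fun q hq => by simp [hq]
  have := congrArg (· v) (h.hasFDerivAt.norm_sq.fderiv.symm.trans h2.fderiv_eq)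
  simpa using this

lemma brk0 (hD : DIV) (hL : LOW) {F : Flw} {f : X → ℝ} {t : ℝ} (hu : ContDiff ℝ ∞ F.u)
    (hn : ContDiff ℝ ∞ F.n) (hs : ∀ s, (F.sl s).Ok) (hf : ContDiff ℝ 2 f) (hK : IsCompact K)
    (f0 : Z0 K f) (h1 : ∀ x, F.u (t, x) = 0 → ∀ᶠ q in 𝓝 (t, x), ‖F.n q‖ = 1)
    (h2 : ∀ x, F.u (t, x) = 0 →
      deriv (fun s => F.u (s, x)) t = ‖gradient (F.sl t).w x‖ * (F.sl t).H x) :
    HasDerivAt (fun s => ∫ x, f (s, x) ∂F.μ s) (∫ x, (deriv (fun s => f (s, x)) t -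
      (F.sl t).H x * ⟪F.n (t, x), gradient (fun y => f (t, y)) x⟫ -
      (F.sl t).H x ^ 2 * f (t, x)) ∂F.μ t) t := by
  have du := hu.differentiable (by simp)
  have dn := hn.differentiable (by simp)
  have df := hf.differentiable two_ne_zero
  have u1 : ∀ v : X → X, ContDiff ℝ 1 v → ContDiff ℝ 1 fun p => fderiv ℝ F.u p (v p) := fun v hv =>
    (hu.fderiv_right (m := 1) two_le).clm_apply hv
  have s1 := u1 (fun p => (0, F.n p)) (contDiff_const.prodMk (hn.of_le one_le))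
  have sg : ∀ s x, F.u (s, x) = 0 →
      fderiv ℝ F.u (s, x) (0, F.n (s, x)) = ‖gradient (F.sl s).w x‖ := fun s x hx => by
    have := (hs s).fderiv_w hx (F.n (s, x))
    rw [show ⟪(F.sl s).n x, F.n (s, x)⟫ = 1 from (hs s).nn hx, mul_one] at this
    rw [← this, show fderiv ℝ (F.sl s).w x = _ from (sl_fd (du (s, x))).fderiv]
    rfl
  obtain ⟨m, hm, h3⟩ := ((isCompact_closedBall t 1).prod hK).exists_forall_le'
    (((hu.continuous.pow 2).add (s1.continuous.pow 2)).div_const 2).continuousOn (a := 0)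
    fun p _ => by
      change 0 < (F.u p ^ 2 + fderiv ℝ F.u p (0, F.n p) ^ 2) / 2
      by_cases h0 : F.u p = 0
      · have := ((hs p.1).gpos h0).trans_eq (sg p.1 p.2 h0).symm
        positivity
      · positivity
  have hY : ContDiff ℝ 2 fun p => f p • F.n p := hf.smul (hn.of_le two_le)
  have Y0 : Z0 K fun p => f p • F.n p := fun s x hx => by simp [f0 s x hx]
  set Y := fun p => f p • F.n p with eY
  have hψ : ContDiff ℝ 1 (sd Y) := cd_sd hY
  let Z := fun p => (sd Y p * fderiv ℝ F.u p (1, 0) * ρ m (fderiv ℝ F.u p (0, F.n p))) • F.n p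
  have hZ : ContDiff ℝ 1 Z :=
    ((hψ.mul (u1 _ contDiff_const)).mul ((ρ_cd hm).comp s1)).smul (hn.of_le one_le)
  have z0 : Z0 K Z := fun s x hx => by simp [Z, Y0.sd hK s x hx]
  have h4 : ∀ s ∈ closedBall t 1, ∀ x, F.u (s, x) ^ 2 ≤ m → sd Y (s, x) *
      (ρ m (fderiv ℝ F.u (s, x) (0, F.n (s, x))) * fderiv ℝ F.u (s, x) (0, F.n (s, x))) =
        sd Y (s, x) := fun s hs x hx => by
    by_cases hx' : x ∈ K
    · rw [ρ_mul hm (by
        have : m ≤ (F.u (s, x) ^ 2 + fderiv ℝ F.u (s, x) (0, F.n (s, x)) ^ 2) / 2 :=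
          h3 (s, x) ⟨hs, hx'⟩
        linarith), mul_one]
    · rw [Y0.sd hK s x hx', zero_mul]
  have h5 := md hD (hu.of_le one_le) hψ hZ hK (Y0.sd hK) z0 (fun s => null hL (hs s)) hm
    fun s hs x hx => by
      rw [← h4 s hs x hx, show ((0 : ℝ), Z (s, x)) = (_ : ℝ) • ((0 : ℝ), F.n (s, x)) from
        Prod.ext (mul_zero _).symm rfl, map_smul, h4 s hs x hx, smul_eq_mul]
      linear_combination fderiv ℝ F.u (s, x) (1, 0) * h4 s hs x hx
  have hW : ContDiff ℝ 1 fun p => fderiv ℝ Y p (1, 0) :=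
    (hY.fderiv_right (m := 1) le_rfl).clm_apply contDiff_const
  have D := fun (W : X → E3) (hW : ContDiff ℝ 1 W) (h0 : Z0 K W) s => (hD (F.sl s) _ (hs s)
    (hW.comp (contDiff_prodMk_right s)) (HasCompactSupport.intro hK (h0 s))).trans
      (integral_congr_ae (Eventually.of_forall fun x => sd_eq (hW.differentiable one_ne_zero _)))
  have h6 : (fun s => ∫ x, f (s, x) ∂F.μ s) = fun s => ∫ x in {x | F.u (s, x) < 0}, sd Y (s, x) :=
    funext fun s => ((hs s).int_congr fun x hx => by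
      simp [Y, inner_smul_right, show ⟪(F.sl s).n x, F.n (s, x)⟫ = 1 from (hs s).nn hx]).trans
        (D Y (hY.of_le one_le_two) Y0 s)
  rw [h6]
  refine h5.congr_deriv (Eq.trans (integral_congr_ae (Eventually.of_forall fun x => ?_))
    ((D _ (hW.sub hZ) (fun s x hx => by simp [Y0.fderiv hK s x hx, z0 s x hx]) t).symm.trans
      ((hs t).int_congr fun x hx => ?_)))
  · simp only [sd_t hY]
    rw [sd, sd, sd, fderiv_fun_sub (hW.differentiable one_ne_zero _)
      (hZ.differentiable one_ne_zero _), ContinuousLinearMap.sub_comp, trc_sub]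
  · have e1 : ⟪F.n (t, x), F.n (t, x)⟫ = 1 := (hs t).nn hx
    have e2 : sd Y (t, x) = f (t, x) * (F.sl t).H x +
        ⟪F.n (t, x), gradient (fun y => f (t, y)) x⟫ := by
      rw [← sd_eq (hY.differentiable two_ne_zero _), (hs t).H_eq_dvg hx, real_inner_comm,
        inner_grad]
      exact dvg_smul (sl_fd (df _)).differentiableAt (sl_fd (dn _)).differentiableAt
    have e3 := h4 t (mem_closedBall_self one_pos.le) x (by rw [show F.u (t, x) = 0 from hx]; simp [hm.le])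
    have e4 := (sl_d (du (t, x))).deriv.symm.trans (h2 x hx)
    rw [sg t x hx] at e3
    change ⟪F.n (t, x), fderiv ℝ Y (t, x) (1, 0) - Z (t, x)⟫ = _
    rw [eY, fderiv_fun_smul (df _) (dn _), (sl_d (df (t, x))).deriv]
    simp only [Z, inner_sub_right, inner_add_right, inner_smul_right, e1, e4, sg t x hx,
      add_apply, smul_apply, ContinuousLinearMap.smulRight_apply, unit_d (dn _) (h1 x hx)]
    linear_combination -(F.sl t).H x * e3 - (F.sl t).H x * e2

lemma ex_τ {a b t : ℝ} (ht : t ∈ Ioo a b) :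
    ∃ τ : ℝ → ℝ, ContDiff ℝ ∞ τ ∧ (∀ s, τ s ∈ Ioo a b) ∧ τ =ᶠ[𝓝 t] id := by
  obtain ⟨r, hr, h⟩ := Metric.isOpen_iff.1 isOpen_Ioo t ht
  let φ : ContDiffBump t := ⟨r / 2, r, half_pos hr, half_lt_self hr⟩
  refine ⟨fun s => t + φ s * (s - t), contDiff_const.add (φ.contDiff.mul
    (contDiff_id.sub contDiff_const)), fun s => h ?_, φ.eventuallyEq_one.mono fun s hs => by
      simp [hs]⟩
  rw [mem_ball, dist_self_add_left, norm_mul]
  by_cases hs : s ∈ ball t r
  · exact (mul_le_of_le_one_left (norm_nonneg _) ((abs_of_nonneg φ.nonneg).trans_le φ.le_one)).trans_lt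
      (mem_ball_iff_norm.1 hs)
  · rw [φ.zero_of_le_dist (not_lt.1 hs)]
    simpa using hr

end Brk

open Brk

theorem brk (hD : DIV) (hL : LOW) : BRK := by
  intro F a b f K h hf hK f0 t ht
  obtain ⟨τ, h1, h2, h3⟩ := ex_τ ht
  have e0 : τ t = t := h3.self_of_nhds
  have hg : ContDiff ℝ ∞ fun p : X => (τ p.1, p.2) := (h1.comp contDiff_fst).prodMk contDiff_snd
  have hm : ∀ p : X, (τ p.1, p.2) ∈ Ioo a b ×ˢ (univ : Set E3) := fun p => ⟨h2 _, trivial⟩
  have hd : ∀ (g : X → ℝ) x, deriv (fun s => g (τ s, x)) t = deriv (fun s => g (s, x)) t :=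
    fun g x => EventuallyEq.deriv_eq (h3.mono fun s hs => by simp [hs])
  have := brk0 hD hL (F := ⟨fun p => F.u (τ p.1, p.2), fun p => F.n (τ p.1, p.2)⟩) (t := t)
    (f := fun p => f (τ p.1, p.2)) (h.su.comp_contDiff hg hm) (h.sn.comp_contDiff hg hm)
    (fun s => h.sl (h2 s)) (hf.comp_contDiff (hg.of_le two_le) hm) hK (fun s => f0 (τ s))
    (fun x hx => ?_) fun x hx => (hd F.u x).trans (by
      have := h.eq _ (h2 t) x hx
      rwa [show deriv (fun s => F.u (s, x)) (τ t) = deriv (fun s => F.u (s, x)) t by rw [e0]] at this)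
  · refine (this.congr_of_eventuallyEq (h3.mono fun s hs => ?_)).congr_deriv ?_
    · change ∫ x, f (s, x) ∂F.μ s = ∫ x, f (τ s, x) ∂F.μ (τ s)
      rw [show τ s = s from hs]
    · change ∫ x, (deriv (fun s => f (τ s, x)) t - (F.sl (τ t)).H x *
        ⟪F.n (τ t, x), gradient (fun y => f (τ t, y)) x⟫ - (F.sl (τ t)).H x ^ 2 * f (τ t, x))
          ∂F.μ (τ t) = _
      simp only [hd, e0]
  · refine (hg.continuous.tendsto (t, x)).eventually (p := fun q => ‖F.n q‖ = 1) ?_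
    have c := (h.sn.contDiffAt (Flw.mem_dom (h2 t) x)).continuousAt
    have n1 : ‖F.n (τ t, x)‖ = 1 := (h.sl (h2 t)).norm_n hx
    filter_upwards [h.nrm _ (h2 t) x hx, c.eventually_ne (y := 0) fun e => by simp [e] at n1]
      with q q1 q2
    rw [q1] at q2 ⊢
    exact norm_smul_inv_norm (right_ne_zero_of_smul q2)

theorem cnt (hB : BRK) (hL : LOW) : CNT := by
  intro F a b f K h hf hK f0 t ht
  have c1 : ∀ g : E3 → ℝ, ContDiff ℝ ∞ g → HasCompactSupport g →
      ContinuousAt (fun s => ∫ x, g x ∂F.μ s) t := fun g hg hc =>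
    (hB F a b (fun p => g p.2) _ h ((hg.of_le two_le).comp contDiff_snd).contDiffOn hc
      (fun _ _ => image_eq_zero_of_notMem_tsupport) t ht).continuousAt
  have c2 : ∀ s ∈ Ioo a b, Continuous fun x => f (s, x) := fun s hs =>
    hf.comp_continuous (Continuous.prodMk_right s) fun x => ⟨hs, trivial⟩
  obtain ⟨R, hR, hKR⟩ := hK.isBounded.subset_closedBall_lt 0 0
  let χ : ContDiffBump (0 : E3) := ⟨R, R + 1, hR, lt_add_one R⟩
  set M := ∫ x, χ x ∂F.μ t + 1 with hM
  have M0 : 0 < M := add_pos_of_nonneg_of_pos (integral_nonneg fun _ => χ.nonneg) one_pos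
  refine (continuousAt_of_locally_uniform_approx_of_continuousAt fun u hu => ?_).continuousWithinAt
  obtain ⟨ε, hε, hu⟩ := Metric.mem_uniformity_dist.1 hu
  have hδ : 0 < ε / (2 * M) := by positivity
  obtain ⟨g, hg, g1⟩ := ((HasCompactSupport.intro hK (f0 t)).uniformContinuous_of_continuous
    (c2 t ht)).exists_contDiff_dist_le hδ
  have e1 : ∀ᶠ s in 𝓝 t, ∀ x ∈ K, dist (f (s, x)) (f (t, x)) < ε / (2 * M) :=
    hK.eventually_forall_of_forall_eventually fun y _ =>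
      ((hf.continuousAt (Flw.mem_dom ht y)).dist ((c2 t ht).comp continuous_snd).continuousAt
        ).eventually_lt continuousAt_const (by simpa using hδ)
  have e2 := (c1 χ χ.contDiff χ.hasCompactSupport).eventually_lt continuousAt_const
    (show _ < M from lt_add_one _)
  refine ⟨_, e1.and (e2.and (isOpen_Ioo.mem_nhds ht)), _, c1 (fun x => χ x * g x)
    (χ.contDiff.mul hg) χ.hasCompactSupport.mul_right, fun s ⟨s1, s2, s3⟩ => hu ?_⟩
  have : IsLocallyFiniteMeasure (F.μ s) := (hL _ (h.sl s3)).1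
  have i1 : Integrable (fun x => χ x * g x) (F.μ s) :=
    (χ.continuous.mul hg.continuous).integrable_of_hasCompactSupport χ.hasCompactSupport.mul_right
  rw [dist_eq_norm, ← integral_sub ((c2 s s3).integrable_of_hasCompactSupport
    (HasCompactSupport.intro hK (f0 s))) i1]
  refine (norm_integral_le_of_norm_le ((χ.continuous.integrable_of_hasCompactSupport
    χ.hasCompactSupport).const_mul (ε / M)) (Eventually.of_forall fun x => ?_)).trans_lt ?_
  · have g2 := g1 x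
    have e : ε / M = ε / (2 * M) + ε / (2 * M) := by field_simp; norm_num
    by_cases hx : x ∈ K
    · rw [χ.one_of_mem_closedBall (hKR hx), one_mul, mul_one, ← dist_eq_norm, e]
      exact (dist_triangle_right _ _ _).trans (add_le_add (s1 x hx).le g2.le)
    · rw [f0 t x hx, dist_zero_right] at g2
      rw [f0 s x hx, zero_sub, norm_neg, norm_mul, Real.norm_of_nonneg χ.nonneg, mul_comm, e]
      exact mul_le_mul_of_nonneg_right (by linarith) χ.nonneg
  · rw [integral_const_mul]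
    exact (mul_lt_mul_of_pos_left s2 (div_pos hε M0)).trans_eq (div_mul_cancel₀ _ M0.ne')

end Vale.Agent.P218R
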