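import Vale.Agent.P218R.Stm

/-!
# P218R: Huisken's monotonicity formula, with the cut-off function of Ecker
-/

open MeasureTheory Metric Filter Topology Set
open scoped ContDiff ENNReal RealInnerProductSpace
open Vale.Agent.P366.Stmt (E)
open Vale.Agent.P366W

noncomputable section

namespace Vale.Agent.P218R

namespace Hu

theorem ok_mono {F : Flw} {a b a' b' : ℝ} (h : F.Ok a b) (ha : a ≤ a') (hb : b' ≤ b) :
    F.Ok a' b' := by
  have hs : Ioo a' b' ⊆ Ioo a b := Ioo_subset_Ioo ha hb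
  exact ⟨h.su.mono (prod_mono hs le_rfl), h.sn.mono (prod_mono hs le_rfl),
    fun t ht => h.reg t (hs ht), fun t ht => h.nrm t (hs ht), fun t ht => h.eq t (hs ht)⟩

theorem ok_sl {F : Flw} {a b t : ℝ} (h : F.Ok a b) (ht : t ∈ Ioo a b) : (F.sl t).Ok :=
  ⟨h.su.comp_contDiff (contDiff_const.prodMk contDiff_id) fun _ => ⟨ht, trivial⟩,
    h.sn.comp_contDiff (contDiff_const.prodMk contDiff_id) fun _ => ⟨ht, trivial⟩,
    h.reg t ht, fun x hx => ((Continuous.prodMk_right t).tendsto x).eventually (h.nrm t ht x hx)⟩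

theorem norm_n {S : Srf} (h : S.Ok) {x : E3} (hx : S.w x = 0) : ‖S.n x‖ = 1 := by
  rw [(h.nrm x hx).self_of_nhds, norm_smul, norm_inv, norm_norm,
    inv_mul_cancel₀ (norm_ne_zero_iff.2 (h.reg x hx))]

theorem ae_G {S : Srf} (h : S.Ok) : ∀ᵐ x ∂S.μ, S.w x = 0 :=
  ae_restrict_mem (isClosed_eq h.sw.continuous continuous_const).measurableSet

theorem cont_P {S : Srf} (h : S.Ok) : Continuous S.P := by
  have := h.sn.continuous
  unfold Srf.P
  fun_prop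

theorem cont_H {S : Srf} (h : S.Ok) : Continuous S.H :=
  continuous_trc.comp ((h.sn.continuous_fderiv (by simp)).clm_comp (cont_P h))

theorem contOn_H {F : Flw} {a b : ℝ} (h : F.Ok a b) :
    ContinuousOn (fun p : ℝ × E3 => (F.sl p.1).H p.2) (Ioo a b ×ˢ univ) := by
  have ho : IsOpen (Ioo a b ×ˢ (univ : Set E3)) := isOpen_Ioo.prod isOpen_univ
  have h1 := h.sn.continuousOn_fderiv_of_isOpen ho (by simp)
  have h2 := h.sn.continuousOn
  have h3 : ContinuousOn (fun p : ℝ × E3 => trc ((fderiv ℝ F.n p ∘L ContinuousLinearMap.inr ℝ ℝ E3)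
      ∘L (ContinuousLinearMap.id ℝ E3 - (innerSL ℝ (F.n p)).smulRight (F.n p))))
      (Ioo a b ×ˢ univ) := by
    refine continuous_trc.comp_continuousOn ((h1.clm_comp continuousOn_const).clm_comp ?_)
    exact (show Continuous fun v : E3 => ContinuousLinearMap.id ℝ E3 - (innerSL ℝ v).smulRight v by
      fun_prop).comp_continuousOn h2
  refine h3.congr fun p hp => ?_
  have h4 : HasFDerivAt F.n (fderiv ℝ F.n p) (p.1, p.2) :=
    ((h.sn.contDiffAt (ho.mem_nhds hp)).differentiableAt (by simp)).hasFDerivAt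
  have h5 := (h4.comp p.2 (hasFDerivAt_prodMk_right p.1 p.2)).fderiv
  simp only [Srf.H, Srf.A, Srf.P, Flw.sl]
  rw [← h5]
  rfl

theorem intg (low : LOW) {S : Srf} (h : S.Ok) {f : E3 → ℝ} (hf : Continuous f) {K : Set E3}
    (hK : IsCompact K) (h0 : ∀ x ∉ K, f x = 0) : Integrable f S.μ := by
  have := (low S h).1
  exact hf.integrable_of_hasCompactSupport (HasCompactSupport.intro hK h0)

theorem brk' (brk : BRK) {F : Flw} {a b : ℝ} {f : ℝ × E3 → ℝ} {K : Set E3} (h : F.Ok a b)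
    (hf : ContDiffOn ℝ 2 f (Ioo a b ×ˢ univ)) (hK : IsCompact K)
    (h0 : ∀ t ∈ Ioo a b, ∀ x ∉ K, f (t, x) = 0) {t : ℝ} (ht : t ∈ Ioo a b) :
    HasDerivAt (fun s => ∫ x, f (s, x) ∂F.μ s)
      (∫ x, (deriv (fun s => f (s, x)) t -
        (F.sl t).H x * ⟪F.n (t, x), gradient (fun y => f (t, y)) x⟫ -
        (F.sl t).H x ^ 2 * f (t, x)) ∂F.μ t) t := by
  classical
  have h1 := brk F a b (fun p => if p.1 ∈ Ioo a b then f p else 0) K h
    (hf.congr fun p hp => if_pos hp.1) hK (fun s x hx => by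
      split_ifs with hs
      exacts [h0 s hs x hx, rfl]) t ht
  have h2 : ∀ x, (fun s => if s ∈ Ioo a b then f (s, x) else 0) =ᶠ[𝓝 t] fun s => f (s, x) :=
    fun x => by
      filter_upwards [isOpen_Ioo.mem_nhds ht] with s hs
      exact if_pos hs
  simp only [if_pos ht, (h2 _).deriv_eq] at h1
  refine h1.congr_of_eventuallyEq ?_
  filter_upwards [isOpen_Ioo.mem_nhds ht] with s hs
  simp only [if_pos hs]

theorem cnt' (cnt : CNT) {F : Flw} {a b : ℝ} {f : ℝ × E3 → ℝ} {K : Set E3} (h : F.Ok a b)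
    (hf : ContinuousOn f (Ioo a b ×ˢ univ)) (hK : IsCompact K)
    (h0 : ∀ t ∈ Ioo a b, ∀ x ∉ K, f (t, x) = 0) :
    ContinuousOn (fun s => ∫ x, f (s, x) ∂F.μ s) (Ioo a b) := by
  classical
  refine (cnt F a b (fun p => if p.1 ∈ Ioo a b then f p else 0) K h
    (hf.congr fun p hp => if_pos hp.1) hK (fun s x hx => by
      split_ifs with hs
      exacts [h0 s hs x hx, rfl])).congr fun s hs => ?_
  simp only [if_pos hs]

theorem gauss_int {μ : Measure E3} {x₀ : E3} {Λ c : ℝ} (hc : 0 < c)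
    (h : ∀ R ≥ (1 : ℝ), μ (closedBall x₀ R) ≤ ENNReal.ofReal (Λ * R ^ 2)) :
    Integrable (fun y => Real.exp (-‖y - x₀‖ ^ 2 / c)) μ := by
  refine ⟨(by fun_prop : Continuous _).aestronglyMeasurable, ?_⟩
  let A : ℕ → Set E3 := fun k => closedBall x₀ (k + 1) \ ball x₀ k
  have hU : ⋃ k, A k = univ := eq_univ_of_forall fun y => mem_iUnion.2 ⟨⌊dist y x₀⌋₊,
    mem_closedBall.2 (Nat.lt_floor_add_one _).le, fun hy => (Nat.floor_le dist_nonneg).not_gt hy⟩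
  have hs : Summable fun k : ℕ => Real.exp (-c⁻¹ * k) * (Λ * ((k : ℝ) + 1) ^ 2) := by
    have h0 := Real.summable_pow_mul_exp_neg_nat_mul 0 (inv_pos.2 hc)
    have h1 := Real.summable_pow_mul_exp_neg_nat_mul 1 (inv_pos.2 hc)
    have h2 := Real.summable_pow_mul_exp_neg_nat_mul 2 (inv_pos.2 hc)
    refine (((h2.add (h1.mul_left 2)).add h0).mul_left Λ).congr fun k => ?_
    ring
  rw [HasFiniteIntegral, ← setLIntegral_univ, ← hU]
  refine (lintegral_iUnion_le _ _).trans_lt ((ENNReal.tsum_le_tsum fun k => ?_).trans_lt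
    hs.tsum_ofReal_lt_top)
  rw [ENNReal.ofReal_mul (Real.exp_pos _).le]
  calc _ ≤ ∫⁻ _ in A k, ENNReal.ofReal (Real.exp (-c⁻¹ * k)) ∂μ := by
        refine setLIntegral_mono measurable_const fun y hy => ?_
        rw [Real.enorm_eq_ofReal (Real.exp_pos _).le]
        refine ENNReal.ofReal_le_ofReal (Real.exp_le_exp.2 ?_)
        have h1 : (k : ℝ) ≤ ‖y - x₀‖ := by simpa [dist_eq_norm] using hy.2
        have h2 : (k : ℝ) ≤ k ^ 2 := by exact_mod_cast Nat.le_self_pow two_ne_zero k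
        have h3 : (k : ℝ) ^ 2 ≤ ‖y - x₀‖ ^ 2 := by gcongr
        rw [div_eq_inv_mul, neg_mul, mul_neg, neg_le_neg_iff]
        gcongr
        exact h2.trans h3
    _ ≤ _ := by
        rw [setLIntegral_const]
        gcongr
        exact (measure_mono sdiff_subset).trans (h _ (by simp))

theorem rad {g : ℝ → ℝ} {g' : ℝ} {x₀ x : E3} (hg : HasDerivAt g g' (‖x - x₀‖ ^ 2)) :
    HasFDerivAt (fun y => g (‖y - x₀‖ ^ 2)) ((2 * g') • innerSL ℝ (x - x₀)) x := by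
  refine (hg.comp_hasFDerivAt x ((hasFDerivAt_id x).sub_const x₀).norm_sq).congr_fderiv ?_
  ext v
  simp
  ring

theorem dv_rad {S : Srf} {g : ℝ → ℝ} {g' : ℝ} {x₀ x : E3} (hn : ‖S.n x‖ = 1)
    (hg : HasDerivAt g g' (‖x - x₀‖ ^ 2)) :
    S.dv (fun y => g (‖y - x₀‖ ^ 2) • (y - x₀)) x =
      2 * g (‖x - x₀‖ ^ 2) + 2 * g' * (‖x - x₀‖ ^ 2 - ⟪x - x₀, S.n x⟫ ^ 2) := by
  have h1 := ((rad hg).fun_smul ((hasFDerivAt_id x).sub_const x₀)).fderiv
  simp only [id] at h1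
  have h2 : (g (‖x - x₀‖ ^ 2) • ContinuousLinearMap.id ℝ E3 +
      ((2 * g') • innerSL ℝ (x - x₀)).smulRight (x - x₀)) ∘L S.P x = g (‖x - x₀‖ ^ 2) • S.P x +
      (((2 * g') • innerSL ℝ (x - x₀)) ∘L S.P x).smulRight (x - x₀) := by
    ext v; simp
  rw [Srf.dv, h1, h2, trc_add, trc_smul, trc_smulRight, Srf.P, trc_sub, trc_id, trc_smulRight]
  simp only [innerSL_apply_apply, real_inner_self_eq_norm_sq, hn, ContinuousLinearMap.comp_apply,
    smul_apply, sub_apply, ContinuousLinearMap.id_apply,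
    ContinuousLinearMap.smulRight_apply, inner_sub_right (x - x₀) (x - x₀), inner_smul_right,
    smul_eq_mul, real_inner_comm (x - x₀) (S.n x)]
  push_cast
  ring

/-- the heat kernel as a function of the time to go and the square of the distance -/
def Ph (τ q : ℝ) : ℝ := (4 * Real.pi * τ)⁻¹ * Real.exp (-q / (4 * τ))

theorem Ph_pos {τ : ℝ} (hτ : 0 < τ) (q : ℝ) : 0 < Ph τ q := by
  have := Real.pi_pos
  unfold Ph; positivity

theorem Ph_q (τ q : ℝ) : HasDerivAt (Ph τ) (-Ph τ q / (4 * τ)) q := by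
  refine ((((hasDerivAt_id q).neg.div_const (4 * τ)).exp).const_mul
    (4 * Real.pi * τ)⁻¹).congr_deriv ?_
  simp only [Ph, Pi.neg_apply, id]; ring

theorem Ph_t {t₀ t : ℝ} (h : t < t₀) (q : ℝ) : HasDerivAt (fun s => Ph (t₀ - s) q)
    (Ph (t₀ - t) q * (1 / (t₀ - t) - q / (4 * (t₀ - t) ^ 2))) t := by
  have h0 : t₀ - t ≠ 0 := (sub_pos.2 h).ne'
  have hπ := Real.pi_pos.ne'
  have h1 : HasDerivAt (fun s => t₀ - s) (-1) t := (hasDerivAt_id t).const_sub t₀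
  have h2 := (h1.const_mul (4 * Real.pi)).fun_inv (by positivity)
  have h3 := ((hasDerivAt_const t (-q)).fun_div (h1.const_mul 4) (by positivity)).exp
  refine (h2.fun_mul h3).congr_deriv ?_
  simp only [Ph]
  field_simp
  ring

theorem cd_Ph (τ : ℝ) {k : WithTop ℕ∞} : ContDiff ℝ k (Ph τ) := by
  unfold Ph; fun_prop

theorem stat (fv : FV) (low : LOW) {S : Srf} (h : S.Ok) (x₀ : E3) {τ r k : ℝ} (hτ : 0 < τ)
    (hr : 0 < r) (hk : 0 ≤ k) {ψ I : E3 → ℝ} (hψ : Continuous ψ) (h0 : ∀ x, 0 ≤ ψ x)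
    (h1 : ∀ x, ψ x ≤ ph ((‖x - x₀‖ ^ 2 + k) / r))
    (hI : ∀ x, I x = Ph τ (‖x - x₀‖ ^ 2) * ((1 / τ - ‖x - x₀‖ ^ 2 / (4 * τ ^ 2)) *
      ph ((‖x - x₀‖ ^ 2 + k) / r) - 4 * dph ((‖x - x₀‖ ^ 2 + k) / r) / r + S.H x * ⟪x - x₀, S.n x⟫ *
      (ph ((‖x - x₀‖ ^ 2 + k) / r) / (2 * τ) + 2 * dph ((‖x - x₀‖ ^ 2 + k) / r) / r) -
      S.H x ^ 2 * ph ((‖x - x₀‖ ^ 2 + k) / r))) :
    ∫ x, I x ∂S.μ ≤ -∫ x, ψ x * Ph τ (‖x - x₀‖ ^ 2) *
      (S.H x - ⟪x - x₀, S.n x⟫ / (2 * τ)) ^ 2 ∂S.μ := by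
  have hK := isCompact_closedBall x₀ √r
  have hs : ∀ x ∉ closedBall x₀ √r, 1 ≤ (‖x - x₀‖ ^ 2 + k) / r := fun x hx => by
    have h2 : √r < ‖x - x₀‖ := by simpa [dist_eq_norm] using hx
    rw [le_div_iff₀ hr]
    nlinarith [Real.sq_sqrt hr.le, Real.sqrt_nonneg r]
  let α : ℝ → ℝ := fun q => Ph τ q * (ph ((q + k) / r) / (2 * τ) - 2 * dph ((q + k) / r) / r)
  have hα : ∀ q, HasDerivAt α (Ph τ q * (-ph ((q + k) / r) / (8 * τ ^ 2) +
      12 * max (1 - (q + k) / r) 0 / r ^ 2)) q := fun q => by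
    have h2 : HasDerivAt (fun q => (q + k) / r) (1 / r) q :=
      ((hasDerivAt_id q).add_const k).div_const r
    refine ((Ph_q τ q).fun_mul ((((hasDerivAt_ph _).comp q h2).div_const (2 * τ)).fun_sub
      ((((hasDerivAt_dph _).comp q h2).const_mul 2).div_const r))).congr_deriv ?_
    simp only [Function.comp]
    field_simp
    ring
  let Y : E3 → E3 := fun y => α (‖y - x₀‖ ^ 2) • (y - x₀)
  have hq : ContDiff ℝ 1 fun y : E3 => ‖y - x₀‖ ^ 2 := (contDiff_id.sub contDiff_const).norm_sq ℝ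
  have hY : ContDiff ℝ 1 Y := by
    have h2 : ContDiff ℝ 1 fun q : ℝ => (q + k) / r := by fun_prop
    have h3 : ContDiff ℝ 1 α := (cd_Ph τ).mul
      ((((contDiff_ph.of_le (by norm_num)).comp h2).div_const _).sub
        ((contDiff_const.mul (contDiff_dph.comp h2)).div_const _))
    exact (h3.comp hq).smul (contDiff_id.sub contDiff_const)
  have hY0 : ∀ x ∉ closedBall x₀ √r, Y x = 0 := fun x hx => by
    simp [Y, α, ph_zero (hs x hx), dph_zero (hs x hx)]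
  have hYc : HasCompactSupport Y := HasCompactSupport.intro hK hY0
  have hn := h.sn.continuous
  have hH := cont_H h
  have hP := (cd_Ph τ (k := 0)).continuous
  have hp := continuous_ph
  have i1 : Integrable (S.dv Y) S.μ := intg low h
    (continuous_trc.comp ((hY.continuous_fderiv one_ne_zero).clm_comp (cont_P h))) hYc
    fun x hx => by
      rw [Srf.dv, image_eq_zero_of_notMem_tsupport fun h => hx (tsupport_fderiv_subset ℝ h)]
      simp [trc]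
  have i2 : Integrable (fun x => S.H x * ⟪S.n x, Y x⟫) S.μ :=
    intg low h (hH.mul (hn.inner hY.continuous)) hK fun x hx => by simp [hY0 x hx]
  let J : E3 → ℝ := fun x => Ph τ (‖x - x₀‖ ^ 2) * (ph ((‖x - x₀‖ ^ 2 + k) / r) *
    (S.H x - ⟪x - x₀, S.n x⟫ / (2 * τ)) ^ 2 + 24 * max (1 - (‖x - x₀‖ ^ 2 + k) / r) 0 / r ^ 2 *
      (‖x - x₀‖ ^ 2 - ⟪x - x₀, S.n x⟫ ^ 2))
  have i3 : Integrable J S.μ := intg low h (by fun_prop) hK fun x hx => by
    simp [J, ph_zero (hs x hx), max_eq_right (sub_nonpos.2 (hs x hx))]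
  have i4 : Integrable (fun x => ψ x * Ph τ (‖x - x₀‖ ^ 2) *
      (S.H x - ⟪x - x₀, S.n x⟫ / (2 * τ)) ^ 2) S.μ := intg low h (by fun_prop) hK fun x hx => by
    simp [le_antisymm ((h1 x).trans_eq (ph_zero (hs x hx))) (h0 x)]
  have e1 : ∫ x, I x ∂S.μ = ∫ x, (S.dv Y x - S.H x * ⟪S.n x, Y x⟫ - J x) ∂S.μ := by
    refine integral_congr_ae ((ae_G h).mono fun x hx => ?_)
    simp only [hI, Y, dv_rad (norm_n h hx) (hα _), inner_smul_right, J, α,
      real_inner_comm (x - x₀) (S.n x)]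
    field_simp
    ring
  rw [e1, integral_sub (i1.sub' i2) i3, integral_sub i1 i2, fv S Y h hY hYc, sub_self, zero_sub,
    neg_le_neg_iff]
  refine integral_mono_ae i4 i3 ((ae_G h).mono fun x hx => ?_)
  have h2 : ⟪x - x₀, S.n x⟫ ^ 2 ≤ ‖x - x₀‖ ^ 2 := by
    have := abs_real_inner_le_norm (x - x₀) (S.n x)
    rw [norm_n h hx, mul_one] at this
    exact sq_le_sq' (abs_le.1 this).1 (abs_le.1 this).2
  have h3 := Ph_pos hτ (‖x - x₀‖ ^ 2)
  have h4 := sub_nonneg.2 h2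
  simp only [J]
  rw [mul_comm (ψ x), mul_assoc]
  gcongr
  refine le_add_of_le_of_nonneg (by gcongr; exact h1 x) (by positivity)

theorem ph_lim (k : ℝ) : Tendsto (fun r : ℝ => ph (k / r)) atTop (𝓝 1) := by
  have := (continuous_ph.tendsto 0).comp (tendsto_const_nhds (x := k).div_atTop tendsto_id)
  simpa [ph, Function.comp_def] using this

theorem lim_gs {μ : Measure E3} {x₀ : E3} {Λ τ k : ℝ} (hτ : 0 < τ) (hk : 0 ≤ k)
    (h : ∀ R ≥ (1 : ℝ), μ (closedBall x₀ R) ≤ ENNReal.ofReal (Λ * R ^ 2)) :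
    Tendsto (fun r : ℝ => ∫ x, Ph τ (‖x - x₀‖ ^ 2) * ph ((‖x - x₀‖ ^ 2 + k) / r) ∂μ) atTop
      (𝓝 (gs μ x₀ √τ)) := by
  have hP := (cd_Ph τ (k := 0)).continuous
  have hp := continuous_ph
  rw [gs, Real.sq_sqrt hτ.le, ← integral_const_mul]
  refine tendsto_integral_filter_of_dominated_convergence (fun x => Ph τ (‖x - x₀‖ ^ 2))
    (Eventually.of_forall fun r => (by fun_prop : Continuous _).aestronglyMeasurable) ?_
    ((gauss_int (by positivity) h).const_mul _) (Eventually.of_forall fun x => ?_)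
  · filter_upwards [eventually_gt_atTop 0] with r hr
    refine Eventually.of_forall fun x => ?_
    have h1 := Ph_pos hτ (‖x - x₀‖ ^ 2)
    rw [Real.norm_of_nonneg (mul_nonneg h1.le (ph_nonneg _))]
    exact mul_le_of_le_one_right h1.le (ph_le_one (by positivity))
  · simpa [Ph] using (ph_lim (‖x - x₀‖ ^ 2 + k)).const_mul (Ph τ (‖x - x₀‖ ^ 2))

theorem dyn (brk : BRK) (fv : FV) (low : LOW) {F : Flw} {a b t₀ r t : ℝ} (x₀ : E3) (h : F.Ok a b)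
    (hb : b ≤ t₀) (hr : 0 < r) (ht : t ∈ Ioo a b) : ∃ D, HasDerivAt (fun s => ∫ x,
      Ph (t₀ - s) (‖x - x₀‖ ^ 2) * ph ((‖x - x₀‖ ^ 2 + 4 * (s - a)) / r) ∂F.μ s) D t ∧
      ∀ ψ : E3 → ℝ, Continuous ψ → (∀ x, 0 ≤ ψ x) →
        (∀ x, ψ x ≤ ph ((‖x - x₀‖ ^ 2 + 4 * (t - a)) / r)) → D ≤ -∫ x, ψ x * hk x₀ t₀ t x *
          ((F.sl t).H x - ⟪x - x₀, F.n (t, x)⟫ / (2 * (t₀ - t))) ^ 2 ∂F.μ t := by
  have hq : ContDiff ℝ 2 fun p : ℝ × E3 => ‖p.2 - x₀‖ ^ 2 :=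
    (contDiff_snd.sub contDiff_const).norm_sq ℝ
  have hπ := Real.pi_pos
  have hf : ContDiffOn ℝ 2 (fun p : ℝ × E3 => Ph (t₀ - p.1) (‖p.2 - x₀‖ ^ 2) *
      ph ((‖p.2 - x₀‖ ^ 2 + 4 * (p.1 - a)) / r)) (Ioo a b ×ˢ univ) := by
    refine ContDiffOn.mul (ContDiffOn.mul (ContDiffOn.inv (by fun_prop) fun p hp => ?_)
      (ContDiffOn.exp (hq.neg.contDiffOn.div (by fun_prop) fun p hp => ?_)))
      (contDiff_ph.comp ((hq.add (by fun_prop)).div_const r)).contDiffOn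
    all_goals
      have := sub_pos.2 (hp.1.2.trans_le hb)
      positivity
  have htt : t < t₀ := ht.2.trans_le hb
  refine ⟨_, brk' brk h hf (isCompact_closedBall x₀ √r) (fun s hs x hx => ?_) ht,
    fun ψ hψ h0 h1 => stat fv low (ok_sl h ht) x₀ (sub_pos.2 htt) hr
      (by linarith [ht.1]) hψ h0 h1 fun x => ?_⟩
  · have h2 : √r < ‖x - x₀‖ := by simpa [dist_eq_norm] using hx
    rw [ph_zero, mul_zero]
    rw [le_div_iff₀ hr]
    nlinarith [Real.sq_sqrt hr.le, Real.sqrt_nonneg r, hs.1]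
  · have h2 : HasDerivAt (fun s => (‖x - x₀‖ ^ 2 + 4 * (s - a)) / r) (4 * 1 / r) t :=
      ((((hasDerivAt_id t).sub_const a).const_mul 4).const_add _).div_const r
    have h3 := ((Ph_t htt (‖x - x₀‖ ^ 2)).fun_mul ((hasDerivAt_ph _).comp t h2)).deriv
    have h4 : HasDerivAt (fun q => (q + 4 * (t - a)) / r) (1 / r) (‖x - x₀‖ ^ 2) :=
      ((hasDerivAt_id _).add_const _).div_const r
    have h5 := (rad ((Ph_q (t₀ - t) _).fun_mul ((hasDerivAt_ph _).comp _ h4))).fderiv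
    simp only [Function.comp] at h3 h5
    have := (sub_pos.2 htt).ne'
    simp only [h3, real_inner_comm (gradient _ x), inner_grad, h5, smul_apply, innerSL_apply_apply,
      smul_eq_mul, Flw.sl]
    field_simp
    ring

theorem core (brk : BRK) (fv : FV) (low : LOW) {F : Flw} {a b t₀ Λ σ₁ σ₂ M : ℝ} {x₀ : E3}
    {θ θ' En : ℝ → ℝ} (h : F.Ok a b) (hb : b ≤ t₀) (h12 : σ₁ ≤ σ₂)
    (hθ : ∀ σ ∈ Icc σ₁ σ₂, HasDerivAt θ (θ' σ) σ ∧ θ σ ∈ Ioo a b ∧ 0 ≤ θ' σ)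
    (hE : IntegrableOn En (Icc σ₁ σ₂))
    (hψ : ∀ σ ∈ Icc σ₁ σ₂, ∃ ψ : E3 → ℝ, Continuous ψ ∧ (∀ x, 0 ≤ ψ x ∧ ψ x ≤ 1) ∧
      (∀ x ∉ closedBall x₀ M, ψ x = 0) ∧ En σ = θ' σ * ∫ x, ψ x * hk x₀ t₀ (θ σ) x *
        ((F.sl (θ σ)).H x - ⟪x - x₀, F.n (θ σ, x)⟫ / (2 * (t₀ - θ σ))) ^ 2 ∂F.μ (θ σ))
    (hg : ∀ σ ∈ Icc σ₁ σ₂, ∀ R ≥ (1 : ℝ),
      F.μ (θ σ) (closedBall x₀ R) ≤ ENNReal.ofReal (Λ * R ^ 2)) :
    gs (F.μ (θ σ₂)) x₀ √(t₀ - θ σ₂) + ∫ σ in σ₁..σ₂, En σ ≤ gs (F.μ (θ σ₁)) x₀ √(t₀ - θ σ₁) := by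
  have hl := fun σ (hσ : σ ∈ Icc σ₁ σ₂) => lim_gs (sub_pos.2 ((hθ σ hσ).2.1.2.trans_le hb))
    (k := 4 * (θ σ - a)) (by linarith [(hθ σ hσ).2.1.1]) (hg σ hσ)
  have h1 := ((hl σ₂ ⟨h12, le_rfl⟩).sub (hl σ₁ ⟨le_rfl, h12⟩)).add
    ((ph_lim (M ^ 2 + 4 * (b - a))).mul_const (∫ σ in σ₁..σ₂, En σ))
  refine (fun h : _ ≤ (0 : ℝ) => by linarith) (le_of_tendsto h1 ?_)
  filter_upwards [eventually_gt_atTop 0] with r hr
  choose! D hD hD' using fun t (ht : t ∈ Ioo a b) => dyn brk fv low x₀ h hb hr ht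
  have hd := fun σ (hσ : σ ∈ Icc σ₁ σ₂) => (hD _ (hθ σ hσ).2.1).comp σ (hθ σ hσ).1
  have h2 := intervalIntegral.sub_le_integral_of_hasDeriv_right_of_le h12
    (fun σ hσ => (hd σ hσ).continuousAt.continuousWithinAt)
    (fun σ hσ => (hd σ (Ioo_subset_Icc_self hσ)).hasDerivWithinAt)
    (hE.const_mul (-ph ((M ^ 2 + 4 * (b - a)) / r))) fun σ hσ => by
      obtain ⟨ψ, h3, h4, h5, h6⟩ := hψ σ (Ioo_subset_Icc_self hσ)
      obtain ⟨-, h7, h8⟩ := hθ σ (Ioo_subset_Icc_self hσ)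
      have h9 := hD' _ h7 (fun x => ph ((M ^ 2 + 4 * (b - a)) / r) * ψ x) (by fun_prop)
        (fun x => mul_nonneg (ph_nonneg _) (h4 x).1) fun x => by
          by_cases hx : x ∈ closedBall x₀ M
          · refine (mul_le_of_le_one_right (ph_nonneg _) (h4 x).2).trans (ph_anti ?_)
            have : ‖x - x₀‖ ≤ M := by simpa [dist_eq_norm] using hx
            gcongr
            exact h7.2.le
          · simp [h5 x hx, ph_nonneg]
      simp only [mul_assoc (ph _), integral_const_mul] at h9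
      rw [h6]
      nlinarith [mul_le_mul_of_nonneg_right h9 h8]
  rw [intervalIntegral.integral_const_mul] at h2
  simp only [Function.comp] at h2
  linarith

theorem contOn_dis {F : Flw} {a b t₀ : ℝ} (x₀ : E3) (h : F.Ok a b) (hb : b ≤ t₀) :
    ContinuousOn (fun p : ℝ × E3 =>
      ((F.sl p.1).H p.2 - ⟪p.2 - x₀, F.n p⟫ / (2 * (t₀ - p.1))) ^ 2) (Ioo a b ×ˢ univ) :=
  ((contOn_H h).sub (((continuous_snd.sub continuous_const).continuousOn.inner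
    h.sn.continuousOn).div (by fun_prop) fun p hp => by
      have := sub_pos.2 (hp.1.2.trans_le hb)
      positivity)).pow 2

theorem supp_ball {ψ : E3 → ℝ} (h : HasCompactSupport ψ) (x₀ : E3) :
    ∃ M > (0 : ℝ), ∀ x ∉ closedBall x₀ M, ψ x = 0 := by
  obtain ⟨M, hM, h1⟩ := h.isCompact.isBounded.subset_closedBall_lt 0 x₀
  exact ⟨M, hM, fun x hx => image_eq_zero_of_notMem_tsupport fun h => hx (h1 h)⟩

theorem rsl_eq (F : Flw) (x₀ : E3) (t₀ τ : ℝ) :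
    F.rsl x₀ t₀ τ = (F.sl (t₀ - Real.exp (-2 * τ))).sc x₀ (Real.exp τ) := by
  have : t₀ + -1 / Real.exp τ ^ 2 = t₀ - Real.exp (-2 * τ) := by
    rw [neg_mul, Real.exp_neg, two_mul, Real.exp_add]; ring
  simp only [Flw.rsl, Flw.rs, Flw.sl, Srf.sc, this]

theorem H_sc {S : Srf} (h : S.Ok) (b : E3) (l : ℝ) (y : E3) :
    (S.sc b l).H y = l⁻¹ * S.H (b + l⁻¹ • y) := by
  have h1 := ((h.sn.differentiable (by simp) (b + l⁻¹ • y)).hasFDerivAt.comp y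
    (((hasFDerivAt_id y).fun_const_smul l⁻¹).const_add b)).fderiv
  rw [Srf.H, Srf.H, ← trc_smul, Srf.A, Srf.A, show fderiv ℝ (S.sc b l).n y = _ from h1]
  congr 1
  ext v
  simp [Srf.P, Srf.sc, mul_sub]

theorem int_sc (rsc : RSC) (S : Srf) (b : E3) {l : ℝ} (hl : 0 < l) (f : E3 → ℝ) :
    ∫ y, f y ∂(S.sc b l).μ = l ^ 2 * ∫ x, f (l • (x - b)) ∂S.μ := by
  rw [rsc.1 S b l hl, integral_smul_measure, ENNReal.toReal_ofReal (by positivity), smul_eq_mul]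
  congr 1
  exact ((Homeomorph.subRight b).trans
    (Homeomorph.smulOfNeZero l hl.ne')).measurableEmbedding.integral_map f

theorem sqrt_exp (τ : ℝ) : √(Real.exp (-2 * τ)) = (Real.exp τ)⁻¹ := by
  rw [Real.sqrt_eq_iff_mul_self_eq (Real.exp_pos _).le (by positivity), ← Real.exp_neg,
    ← Real.exp_add]
  congr 1; ring

theorem int_rsl (rsc : RSC) {F : Flw} {a b t₀ τ t : ℝ} (x₀ : E3) (h : F.Ok a b) (ht : t ∈ Ioo a b)
    (e : t = t₀ - Real.exp (-2 * τ)) (g : E3 → ℝ) :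
    ∫ y, g y * (F.rsl x₀ t₀ τ).φ y ^ 2 ∂(F.rsl x₀ t₀ τ).μ = ∫ x, g ((√(t₀ - t))⁻¹ • (x - x₀)) *
      ((F.sl t).H x - ⟪x - x₀, F.n (t, x)⟫ / (2 * (t₀ - t))) ^ 2 ∂F.μ t := by
  have h1 : t₀ - t = (Real.exp τ ^ 2)⁻¹ := by
    rw [e, sub_sub_cancel, neg_mul, Real.exp_neg, two_mul, Real.exp_add]; ring
  have h2 : √(t₀ - t) = (Real.exp τ)⁻¹ := by rw [e, sub_sub_cancel, sqrt_exp]
  have hl := Real.exp_pos τ
  rw [rsl_eq, ← e, int_sc rsc _ _ hl, ← integral_const_mul, h2, h1, inv_inv]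
  refine integral_congr_ae (Eventually.of_forall fun x => ?_)
  simp only [Srf.φ, H_sc (ok_sl h ht)]
  simp only [Srf.sc, inv_smul_smul₀ hl.ne', add_sub_cancel,
    real_inner_smul_left, show (F.sl t).n x = F.n (t, x) from rfl]
  field_simp

theorem gs_rsl (rsc : RSC) {F : Flw} {a b t₀ τ t : ℝ} (x₀ : E3) (h : F.Ok a b) (ht : t ∈ Ioo a b)
    (e : t = t₀ - Real.exp (-2 * τ)) : gs (F.rsl x₀ t₀ τ).μ 0 1 = gs (F.μ t) x₀ √(t₀ - t) := by
  rw [rsl_eq, ← e, (rsc.2.1 _ x₀ _ (Real.exp_pos τ) (ok_sl h ht)).2.2.2 0 1 one_pos, e,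
    sub_sub_cancel, sqrt_exp, smul_zero, add_zero, one_div]
  rfl

theorem supp_sc {ψ : E3 → ℝ} {M a t t₀ : ℝ} {x₀ x : E3} (hM : 0 < M)
    (h : ∀ x ∉ closedBall (0 : E3) M, ψ x = 0) (ha : a < t) (ht : t < t₀)
    (hx : x ∉ closedBall x₀ (M * √(t₀ - a))) : ψ ((√(t₀ - t))⁻¹ • (x - x₀)) = 0 := by
  refine h _ fun h1 => hx ?_
  have h2 : 0 < √(t₀ - t) := Real.sqrt_pos.2 (sub_pos.2 ht)
  rw [mem_closedBall_zero_iff, norm_smul, norm_inv, Real.norm_of_nonneg h2.le,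
    inv_mul_le_iff₀ h2, mul_comm] at h1
  rw [mem_closedBall, dist_eq_norm]
  exact h1.trans (by gcongr)

end Hu

open Hu

theorem hui (brk : BRK) (cnt : CNT) (fv : FV) (low : LOW) : HUI := by
  intro F a b t₀ s₁ s₂ Λ x₀ ψ h h1 h2 h3 h4 hg hψ hc h01
  obtain ⟨M, -, hM⟩ := supp_ball hc x₀
  have h' : F.Ok a (min b t₀) := ok_mono h le_rfl (min_le_left _ _)
  have hs : Icc s₁ s₂ ⊆ Ioo a (min b t₀) := Icc_subset_Ioo h1 (lt_min h3 h4)
  have hπ := Real.pi_pos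
  refine core brk fv low (θ := fun s => s) (θ' := fun _ => 1) (M := M) h' (min_le_right _ _) h2
    (fun s hs' => ⟨hasDerivAt_id s, hs hs', zero_le_one⟩) (ContinuousOn.integrableOn_Icc ?_)
    (fun s _ => ⟨ψ, hψ, h01, hM, (one_mul _).symm⟩) hg
  refine (cnt' cnt (f := fun p => ψ p.2 * hk x₀ t₀ p.1 p.2 *
    ((F.sl p.1).H p.2 - ⟪p.2 - x₀, F.n p⟫ / (2 * (t₀ - p.1))) ^ 2) h'
    (((hψ.comp continuous_snd).continuousOn.mul ?_).mul (contOn_dis x₀ h' (min_le_right _ _)))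
    (isCompact_closedBall x₀ M) fun t _ x hx => by simp [hM x hx]).mono hs
  refine ContinuousOn.mul (ContinuousOn.inv₀ (by fun_prop) fun p hp => ?_)
    (ContinuousOn.rexp (ContinuousOn.div (by fun_prop) (by fun_prop) fun p hp => ?_))
  all_goals
    have := sub_pos.2 (hp.1.2.trans_le (min_le_right _ _))
    positivity

theorem hur (brk : BRK) (cnt : CNT) (fv : FV) (low : LOW) (rsc : RSC) : HUR := by
  intro F a b Λ t₀ τ₁ τ₂ x₀ ψ h h12 h1 h2 hψ hc h01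
  have h' : F.Ok a (min b t₀) := ok_mono h.toOk le_rfl (min_le_left _ _)
  have hs : ∀ τ ∈ Icc τ₁ τ₂, t₀ - Real.exp (-2 * τ) ∈ Ioo a (min b t₀) := fun τ hτ =>
    ⟨h1.trans_le (sub_le_sub_left (Real.exp_le_exp.2 (by linarith [hτ.1])) _),
      lt_min (lt_of_le_of_lt (sub_le_sub_left (Real.exp_le_exp.2 (by linarith [hτ.2])) _) h2)
      (sub_lt_self _ (Real.exp_pos _))⟩
  obtain ⟨M, hM0, hM⟩ := supp_ball hc 0
  have hC : ∀ g : E3 → ℝ, Continuous g → (∀ x ∉ closedBall (0 : E3) M, g x = 0) → ContinuousOn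
      (fun τ => ∫ x, g x * (F.rsl x₀ t₀ τ).φ x ^ 2 ∂(F.rsl x₀ t₀ τ).μ) (Icc τ₁ τ₂) := by
    intro g hg hgM
    refine ((cnt' cnt (f := fun p => g ((√(t₀ - p.1))⁻¹ • (p.2 - x₀)) *
      ((F.sl p.1).H p.2 - ⟪p.2 - x₀, F.n p⟫ / (2 * (t₀ - p.1))) ^ 2) h'
      ((hg.comp_continuousOn ?_).mul (contOn_dis x₀ h' (min_le_right _ _)))
      (isCompact_closedBall x₀ (M * √(t₀ - a))) fun t ht x hx => ?_).comp
      (f := fun τ => t₀ - Real.exp (-2 * τ)) (by fun_prop) hs).congr fun τ hτ =>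
        int_rsl rsc x₀ h' (hs τ hτ) rfl g
    · exact (ContinuousOn.inv₀ (by fun_prop) fun p hp => (Real.sqrt_pos.2
        (sub_pos.2 (hp.1.2.trans_le (min_le_right _ _)))).ne').smul (by fun_prop)
    · simp [supp_sc hM0 hgM ht.1 (ht.2.trans_le (min_le_right _ _)) hx]
  refine ⟨hC ψ hψ hM, ?_⟩
  rw [gs_rsl rsc x₀ h' (hs τ₁ ⟨le_rfl, h12⟩) rfl, gs_rsl rsc x₀ h' (hs τ₂ ⟨h12, le_rfl⟩) rfl,
    ← intervalIntegral.integral_const_mul]
  refine core brk fv low (θ := fun τ => t₀ - Real.exp (-2 * τ)) (Λ := Λ)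
    (θ' := fun τ => 2 * Real.exp (-2 * τ)) (M := M * √(t₀ - a)) h' (min_le_right _ _) h12
    (fun τ hτ => ⟨?_, hs τ hτ, by positivity⟩) (ContinuousOn.integrableOn_Icc
      (continuousOn_const.mul (hC _ (by fun_prop) fun x hx => by simp [hM x hx])))
    (fun τ hτ => ⟨fun x => ψ ((√(t₀ - (t₀ - Real.exp (-2 * τ))))⁻¹ • (x - x₀)), by fun_prop,
      fun x => h01 _, fun x hx => supp_sc hM0 hM (hs τ hτ).1 (sub_lt_self _ (Real.exp_pos _)) hx,
      ?_⟩) fun τ hτ R hR => h.ar _ ⟨(hs τ hτ).1, (hs τ hτ).2.trans_le (min_le_left _ _)⟩ _ _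
        (one_pos.trans_le hR)
  · refine ((((hasDerivAt_id τ).const_mul (-2)).exp).const_sub t₀).congr_deriv ?_
    simp only [id]; ring
  · rw [int_rsl rsc x₀ h' (hs τ hτ) rfl, ← integral_const_mul, ← integral_const_mul]
    refine integral_congr_ae (Eventually.of_forall fun x => ?_)
    have h3 := Real.exp_pos (-2 * τ)
    have h4 : ‖(√(Real.exp (-2 * τ)))⁻¹ • (x - x₀)‖ ^ 2 / 4 =
        ‖x - x₀‖ ^ 2 / (4 * Real.exp (-2 * τ)) := by
      rw [norm_smul, mul_pow, norm_inv, inv_pow, Real.norm_eq_abs, sq_abs, Real.sq_sqrt h3.le]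
      field_simp
    have hπ := Real.pi_pos
    simp only [hk, sub_sub_cancel, neg_div, h4]
    field_simp
    ring

/-- the dissipation of the rescaled flow -/
def Flw.dis (F : Flw) (x₀ : E3) (t₀ τ : ℝ) : ℝ≥0∞ := ∫⁻ x, ENNReal.ofReal
  (Real.exp (-‖x‖ ^ 2 / 4) * (F.rsl x₀ t₀ τ).φ x ^ 2) ∂(F.rsl x₀ t₀ τ).μ

/-- the monotonicity formula for the rescaled flow, without a cut-off -/
theorem hur_lint (hur : HUR) (low : LOW) (rsc : RSC) {F : Flw} {a b Λ t₀ τ₁ τ₂ : ℝ} (x₀ : E3)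
    (h : F.OkA a b Λ) (h12 : τ₁ ≤ τ₂) (h1 : a < t₀ - Real.exp (-2 * τ₁))
    (h2 : t₀ - Real.exp (-2 * τ₂) < b) :
    AEMeasurable (F.dis x₀ t₀) (volume.restrict (Icc τ₁ τ₂)) ∧
    gs (F.rsl x₀ t₀ τ₂).μ 0 1 ≤ gs (F.rsl x₀ t₀ τ₁).μ 0 1 ∧
    ∫⁻ τ in Icc τ₁ τ₂, F.dis x₀ t₀ τ ≤ ENNReal.ofReal
      (2 * Real.pi * (gs (F.rsl x₀ t₀ τ₁).μ 0 1 - gs (F.rsl x₀ t₀ τ₂).μ 0 1)) := by
  let ψ : ℕ → E3 → ℝ := fun k x => ph (‖x‖ ^ 2 / ((k : ℝ) + 1))
  have hp := continuous_ph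
  have c1 : ∀ k, Continuous (ψ k) := fun k => by fun_prop
  have c2 : ∀ k : ℕ, ∀ x ∉ closedBall (0 : E3) √((k : ℝ) + 1), ψ k x = 0 := fun k x hx => by
    have h3 : √((k : ℝ) + 1) < ‖x‖ := by simpa using hx
    refine ph_zero ((le_div_iff₀ (by positivity)).2 ?_)
    nlinarith [Real.sq_sqrt (show (0 : ℝ) ≤ k + 1 by positivity), Real.sqrt_nonneg ((k : ℝ) + 1)]
  have c3 : ∀ k x, 0 ≤ ψ k x ∧ ψ k x ≤ 1 := fun k x => ⟨ph_nonneg _, ph_le_one (by positivity)⟩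
  let I : ℕ → ℝ → ℝ := fun k τ => ∫ x, ψ k x * Real.exp (-‖x‖ ^ 2 / 4) *
    (F.rsl x₀ t₀ τ).φ x ^ 2 ∂(F.rsl x₀ t₀ τ).μ
  have I0 : ∀ k τ, 0 ≤ I k τ := fun k τ => integral_nonneg fun x =>
    mul_nonneg (mul_nonneg (c3 k x).1 (Real.exp_pos _).le) (sq_nonneg _)
  have IC : ∀ k, ContinuousOn (I k) (Icc τ₁ τ₂) := fun k =>
    (hur F a b Λ t₀ τ₁ τ₂ x₀ (fun x => ψ k x * Real.exp (-‖x‖ ^ 2 / 4)) h h12 h1 h2 (by fun_prop)
      (HasCompactSupport.intro (isCompact_closedBall _ _) (c2 k)).mul_right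
      fun x => ⟨mul_nonneg (c3 k x).1 (Real.exp_pos _).le, mul_le_one₀ (c3 k x).2
        (Real.exp_pos _).le (Real.exp_le_one_iff.2 (by linarith [sq_nonneg ‖x‖]))⟩).1
  have hs : ∀ τ ∈ Icc τ₁ τ₂, Monotone (fun k => ENNReal.ofReal (I k τ)) ∧
      F.dis x₀ t₀ τ = ⨆ k, ENNReal.ofReal (I k τ) := fun τ hτ => by
    have ho : (F.rsl x₀ t₀ τ).Ok := by
      rw [rsl_eq]
      exact (rsc.2.1 _ x₀ _ (Real.exp_pos τ) (ok_sl h.toOk
        ⟨h1.trans_le (sub_le_sub_left (Real.exp_le_exp.2 (by linarith [hτ.1])) _),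
        lt_of_le_of_lt (sub_le_sub_left (Real.exp_le_exp.2 (by linarith [hτ.2])) _) h2⟩)).1
    have c4 : Continuous (F.rsl x₀ t₀ τ).φ :=
      (cont_H ho).sub ((continuous_id.inner ho.sn.continuous).div_const 2)
    have e : ∀ k, ENNReal.ofReal (I k τ) = ∫⁻ x, ENNReal.ofReal (ψ k x * Real.exp (-‖x‖ ^ 2 / 4) *
        (F.rsl x₀ t₀ τ).φ x ^ 2) ∂(F.rsl x₀ t₀ τ).μ := fun k => ofReal_integral_eq_lintegral_ofReal
      (intg low ho (by fun_prop) (isCompact_closedBall 0 √((k : ℝ) + 1)) fun x hx => by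
        simp [c2 k x hx])
      (Eventually.of_forall fun x =>
        mul_nonneg (mul_nonneg (c3 k x).1 (Real.exp_pos _).le) (sq_nonneg _))
    have m : ∀ x, Monotone fun k => ENNReal.ofReal (ψ k x * Real.exp (-‖x‖ ^ 2 / 4) *
        (F.rsl x₀ t₀ τ).φ x ^ 2) := fun x k k' hk => ENNReal.ofReal_le_ofReal (by
      gcongr
      exact ph_anti (by gcongr))
    simp only [e]
    refine ⟨fun k k' hk => lintegral_mono fun x => m x hk, ?_⟩
    rw [← lintegral_iSup (fun k => (by fun_prop : Continuous _).measurable.ennreal_ofReal)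
      fun k k' hk x => m x hk]
    refine lintegral_congr fun x => tendsto_nhds_unique ?_ (tendsto_atTop_iSup (m x))
    refine ENNReal.tendsto_ofReal ?_
    simpa using ((((ph_lim (‖x‖ ^ 2)).comp (tendsto_atTop_add_const_right _ 1
      tendsto_natCast_atTop_atTop)).mul_const _).mul_const _)
  have hm : ∀ k, AEMeasurable (fun τ => ENNReal.ofReal (I k τ)) (volume.restrict (Icc τ₁ τ₂)) :=
    fun k => ((IC k).aemeasurable measurableSet_Icc).ennreal_ofReal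
  have ha := (ae_restrict_mem (μ := volume) measurableSet_Icc).mono hs
  have hπ := Real.pi_pos
  have hk := fun k => (hur F a b Λ t₀ τ₁ τ₂ x₀ (ψ k) h h12 h1 h2 (c1 k)
    (HasCompactSupport.intro (isCompact_closedBall _ _) (c2 k)) (c3 k)).2
  refine ⟨(AEMeasurable.iSup hm).congr (ha.mono fun τ hτ => hτ.2.symm), le_trans
    (le_add_of_nonneg_right (mul_nonneg (by positivity)
      (intervalIntegral.integral_nonneg h12 fun τ _ => I0 0 τ))) (hk 0), ?_⟩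
  rw [lintegral_congr_ae (ha.mono fun τ hτ => hτ.2), lintegral_iSup' hm (ha.mono fun τ hτ => hτ.1)]
  refine iSup_le fun k => ?_
  rw [← ofReal_integral_eq_lintegral_ofReal (IC k).integrableOn_Icc (Eventually.of_forall (I0 k)),
    integral_Icc_eq_integral_Ioc, ← intervalIntegral.integral_of_le h12]
  refine ENNReal.ofReal_le_ofReal ?_
  rw [← inv_mul_le_iff₀ (by positivity), le_sub_iff_add_le']
  exact hk k

end Vale.Agent.P218R
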