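import Vale.Agent.P218R.Base

/-!
# P218R: slow variation of the rescaled slices, good times
-/

open MeasureTheory Metric Filter Topology Set
open scoped ContDiff RealInnerProductSpace NNReal
open Vale.Agent.P366.Stmt (E)
open Vale.Agent.P366W
open Vale.Agent.P218 (limitSet WeakTendsto Slow rescaled)
open Vale.Agent.P218.H552 (NN ext rescaled_eq integral_ext weakTendsto_ext)

noncomputable section

namespace Vale.Agent.P218R

variable {F : Flw} {a b Λ t₀ τ : ℝ} {x₀ : E3}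

theorem exp_m2 (τ : ℝ) : -1 / Real.exp τ ^ 2 = -Real.exp (-2 * τ) := by
  rw [← Real.exp_nat_mul, neg_div, one_div, ← Real.exp_neg]; congr 2; push_cast; ring

theorem rsl_μ (h : RSC) (F : Flw) (x₀ : E3) (t₀ τ : ℝ) : (F.rsl x₀ t₀ τ).μ = NN 2 F.μ x₀ t₀ τ :=
  (h.2.2 F 0 0 t₀ _ x₀ (Real.exp_pos τ)).1 (-1)

theorem rs_μ (h : RSC) (F : Flw) (x₀ : E3) (t₀ τ : ℝ) {s : ℝ} (hs : s < 0) :
    (F.rs x₀ t₀ (Real.exp τ)).μ s = ext 2 (NN 2 F.μ x₀ t₀ (τ - Real.log √(-s))) s := by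
  rw [(h.2.2 F 0 0 t₀ _ x₀ (Real.exp_pos τ)).1, rescaled_eq 2 _ x₀ t₀ (Real.exp_pos _) hs]
  unfold P218.H552.ext NN
  rw [Real.exp_sub, Real.exp_log (Real.sqrt_pos.2 (by linarith))]

theorem neg_one_mem (h1 : a < t₀ - Real.exp (-2 * τ)) (h2 : t₀ - Real.exp (-2 * τ) < b) :
    (-1 : ℝ) ∈ Ioo (Real.exp τ ^ 2 * (a - t₀)) (Real.exp τ ^ 2 * (b - t₀)) := by
  have h3 : Real.exp τ ^ 2 * Real.exp (-2 * τ) = 1 := by
    rw [← Real.exp_nat_mul, ← Real.exp_add]; norm_num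
  have h4 : 0 < Real.exp τ ^ 2 := by positivity
  constructor <;> nlinarith

theorem rsl_ok (hR : RSC) (h : F.Ok a b) (h1 : a < t₀ - Real.exp (-2 * τ))
    (h2 : t₀ - Real.exp (-2 * τ) < b) : (F.rsl x₀ t₀ τ).Ok :=
  ((hR.2.2 F a b t₀ _ x₀ (Real.exp_pos τ)).2.1 h).sl (neg_one_mem h1 h2)

theorem rsl_ar (hR : RSC) (h : F.OkA a b Λ) (h1 : a < t₀ - Real.exp (-2 * τ))
    (h2 : t₀ - Real.exp (-2 * τ) < b) : AR Λ (F.rsl x₀ t₀ τ).μ :=
  ((hR.2.2 F a b t₀ _ x₀ (Real.exp_pos τ)).2.2.1 Λ h).ar _ (neg_one_mem h1 h2)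

theorem rsl_gb (hR : RSC) {G : ℝ} (h : F.Good a b Λ G) (h1 : a < t₀ - Real.exp (-2 * τ))
    (h2 : t₀ - Real.exp (-2 * τ) < b) : (F.rsl x₀ t₀ τ).GBd G :=
  ((hR.2.2 F a b t₀ _ x₀ (Real.exp_pos τ)).2.2.2 Λ G h).gb _ (neg_one_mem h1 h2)

/-- the self-similar test function -/
theorem brk_ss (hB : BRK) (h : F.Ok a b) (h1 : (-1 : ℝ) ∈ Ioo a b) {g : E3 → ℝ}
    (hg : ContDiff ℝ 2 g) (hc : HasCompactSupport g) :
    HasDerivAt (fun s => ∫ x, (-s)⁻¹ * g ((√(-s))⁻¹ • x) ∂F.μ s)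
      (∫ x, (g x + ⟪gradient g x, x⟫ / 2 - (F.sl (-1)).H x * ⟪F.n (-1, x), gradient g x⟫ -
        (F.sl (-1)).H x ^ 2 * g x) ∂F.μ (-1)) (-1) := by
  obtain ⟨R, hR0, hR⟩ := hc.isCompact.isBounded.subset_closedBall_lt 0 (0 : E3)
  set c := max a (-4)
  set d := min b (-1 / 2)
  have hm : (-1 : ℝ) ∈ Ioo c d := ⟨max_lt h1.1 (by norm_num), lt_min h1.2 (by norm_num)⟩
  have hn : ∀ s ∈ Ioo c d, 0 < -s ∧ -s < 4 := fun s hs =>
    ⟨by have := hs.2.trans_le (min_le_right _ _); linarith,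
      by have := (le_max_right _ _).trans_lt hs.1; linarith⟩
  classical
  let f : ℝ × E3 → ℝ := fun p => if p.1 ∈ Ioo c d then (-p.1)⁻¹ * g ((√(-p.1))⁻¹ • p.2) else 0
  have hf : ContDiffOn ℝ 2 f (Ioo c d ×ˢ univ) := by
    refine ContDiffOn.congr (f := fun p : ℝ × E3 => (-p.1)⁻¹ * g ((√(-p.1))⁻¹ • p.2))
      (fun p hp => ContDiffAt.contDiffWithinAt ?_) fun p hp => if_pos hp.1
    have h0 := (hn _ hp.1).1
    have h2 : ContDiffAt ℝ 2 (fun p : ℝ × E3 => -p.1) p := contDiffAt_fst.neg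
    exact (h2.inv h0.ne').mul (hg.contDiffAt.comp p
      (((h2.sqrt h0.ne').inv (Real.sqrt_pos.2 h0).ne').smul contDiffAt_snd))
  have hK : ∀ t, ∀ x ∉ closedBall (0 : E3) (2 * R), f (t, x) = 0 := fun t x hx => by
    by_cases ht : t ∈ Ioo c d
    · simp only [f, if_pos ht]
      rw [image_eq_zero_of_notMem_tsupport (f := g) fun hh => hx ?_, mul_zero]
      have h0 := Real.sqrt_pos.2 (hn _ ht).1
      have h2 : √(-t) ≤ 2 := Real.sqrt_le_iff.2 ⟨by norm_num, by linarith [(hn _ ht).2]⟩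
      have h3 := mem_closedBall_zero_iff.1 (hR hh)
      rw [norm_smul, norm_inv, Real.norm_of_nonneg h0.le, inv_mul_le_iff₀ h0] at h3
      exact mem_closedBall_zero_iff.2 (h3.trans (by gcongr))
    · exact if_neg ht
  have h3 := hB F c d f _ (h.mono (le_max_left _ _) (min_le_left _ _)) hf
    (isCompact_closedBall _ _) hK _ hm
  have hv : ∀ᶠ s in 𝓝 (-1 : ℝ), ∀ x, f (s, x) = (-s)⁻¹ * g ((√(-s))⁻¹ • x) :=
    mem_of_superset (Ioo_mem_nhds hm.1 hm.2) fun s hs x => if_pos hs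
  have h4 : ∀ x, f (-1, x) = g x := fun x => by simp [hv.self_of_nhds x]
  have h5 : ∀ x, deriv (fun s => f (s, x)) (-1) = g x + ⟪gradient g x, x⟫ / 2 := fun x => by
    have e1 : HasDerivAt (fun s : ℝ => -s) (-1) (-1) := hasDerivAt_neg _
    have e2 := (e1.sqrt (by norm_num)).fun_inv (by norm_num)
    have e3 : HasFDerivAt g (fderiv ℝ g x) ((√(-(-1 : ℝ)))⁻¹ • x) := by
      simpa using (hg.differentiable two_ne_zero x).hasFDerivAt
    have e4 := (e1.fun_inv (by norm_num)).fun_mul (e3.comp_hasDerivAt _ (e2.smul_const x))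
    rw [(e4.congr_of_eventuallyEq (hv.mono fun s hs => hs x)).deriv, inner_grad]
    simp [div_eq_inv_mul]
  simp only [h4, h5] at h3
  exact h3.congr_of_eventuallyEq (hv.mono fun s hs => by simp only [hs])

/-- **Brakke's identity for the rescaled flow** -/
theorem brk_rsl (hB : BRK) (hF : FV) (hL : LOW) (hR : RSC) (h : F.Ok a b)
    (h1 : a < t₀ - Real.exp (-2 * τ)) (h2 : t₀ - Real.exp (-2 * τ) < b) {g : E3 → ℝ}
    (hg : ContDiff ℝ 2 g) (hc : HasCompactSupport g) :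
    HasDerivAt (fun σ => ∫ x, g x ∂(F.rsl x₀ t₀ σ).μ)
      (∫ x, -2 * ((F.rsl x₀ t₀ τ).φ x * (⟪(F.rsl x₀ t₀ τ).n x, gradient g x⟫ +
        (F.rsl x₀ t₀ τ).H x * g x)) ∂(F.rsl x₀ t₀ τ).μ) τ := by
  have h3 := brk_ss hB ((hR.2.2 F a b t₀ _ x₀ (Real.exp_pos τ)).2.1 h) (neg_one_mem h1 h2) hg hc
  have h4 : HasDerivAt (fun σ => -Real.exp (-2 * (σ - τ))) 2 τ := by
    simpa using (((hasDerivAt_id τ).sub_const τ).const_mul (-2)).exp.fun_neg
  have h5 := HasDerivAt.comp_of_eq τ h3 h4 (by simp)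
  have hS := rsl_ok (x₀ := x₀) hR h h1 h2
  set S := F.rsl x₀ t₀ τ
  have := (hL S hS).1
  have hg1 : ContDiff ℝ 1 g := hg.of_le (by norm_num)
  have cg : Continuous (gradient g) := (contDiff_gradient (k := 0) (by simpa using hg1)).continuous
  have hcg : HasCompactSupport (gradient g) := (hc.fderiv ℝ).comp_left
    (g := (InnerProductSpace.toDual ℝ E3).symm) (map_zero _)
  have h6 := hF S (fun y => g y • y) hS (hg1.smul contDiff_id) hc.smul_right
  have cH := hS.sH.continuous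
  have cn := hS.sn.continuous
  have cφ := hS.sφ.continuous
  have c0 := hg.continuous
  have i1 : Integrable (S.dv fun y => g y • y) S.μ :=
    (hS.cdv (hg1.smul contDiff_id)).integrable_of_hasCompactSupport (Srf.hcs_dv hc.smul_right)
  have z : ∀ {u : E3 → ℝ}, (∀ x, g x = 0 → gradient g x = 0 → u x = 0) → HasCompactSupport u :=
    fun hu => HasCompactSupport.intro (hc.union hcg) fun x hx => hu x
      (image_eq_zero_of_notMem_tsupport fun a => hx (.inl a))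
      (image_eq_zero_of_notMem_tsupport fun a => hx (.inr a))
  have i2 : Integrable (fun x => S.H x * ⟪S.n x, g x • x⟫) S.μ :=
    Continuous.integrable_of_hasCompactSupport (by fun_prop) (z fun x a _ => by simp [a])
  have i3 : Integrable (fun x => -2 * (S.φ x * (⟪S.n x, gradient g x⟫ + S.H x * g x))) S.μ :=
    Continuous.integrable_of_hasCompactSupport (by fun_prop) (z fun x a b => by simp [a, b])
  refine (h5.congr_deriv ?_).congr_of_eventuallyEq (Eventually.of_forall fun σ => ?_)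
  swap
  · have e : √(- -Real.exp (-2 * (σ - τ))) = Real.exp (τ - σ) := by
      rw [neg_neg, ← Real.sqrt_sq (Real.exp_pos (τ - σ)).le, ← Real.exp_nat_mul]
      congr 2; push_cast; ring
    have e' := Real.sq_sqrt (show 0 ≤ - -Real.exp (-2 * (σ - τ)) by
      rw [neg_neg]; exact (Real.exp_pos _).le)
    beta_reduce
    rw [Function.comp, rs_μ hR _ _ _ _ (neg_lt_zero.2 (Real.exp_pos _)),
      integral_ext _ _ (neg_lt_zero.2 (Real.exp_pos _)), e', e, Real.log_exp, sub_sub_cancel,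
      rsl_μ hR, integral_const_mul, mul_inv_cancel_left₀ (by simp)]
    simp only [inv_smul_smul₀ (Real.exp_pos _).ne']
  · have e0 := integral_add i3 (i1.sub i2)
    simp only [Pi.sub_apply] at e0
    rw [integral_sub i1 i2, h6, sub_self, add_zero] at e0
    rw [← integral_mul_const, ← e0]
    refine hS.int_congr fun x hx => ?_
    have e := hS.dv_id hx 0
    simp only [sub_zero] at e
    change (_ - S.H x * ⟪S.n x, _⟫ - S.H x ^ 2 * _) * 2 = _
    rw [Srf.dv_smul (hg1.differentiable one_ne_zero x) differentiableAt_fun_id, e, Srf.tg,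
      Srf.P_apply, inner_sub_left, real_inner_smul_left, real_inner_smul_right, Srf.φ,
      real_inner_comm (S.n x) x]
    ring

theorem ex_cut (R : ℝ) : ∃ ψ : E3 → ℝ, Continuous ψ ∧ HasCompactSupport ψ ∧
    (∀ x, 0 ≤ ψ x ∧ ψ x ≤ 1) ∧ ∀ x, ‖x‖ ≤ R → ψ x = 1 := by
  obtain ⟨χ, h1, h2⟩ := Vale.Agent.P218.exists_cutoff (E := E3) R
  exact ⟨χ, χ.continuous, χ.hasCompactSupport, h1, h2⟩

/-- the localised dissipation -/
def dis (F : Flw) (x₀ : E3) (t₀ : ℝ) (ψ : E3 → ℝ) (τ : ℝ) : ℝ :=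
  ∫ x, ψ x * Real.exp (-‖x‖ ^ 2 / 4) * (F.rsl x₀ t₀ τ).φ x ^ 2 ∂(F.rsl x₀ t₀ τ).μ

section

variable (hH : HUR) (h : F.OkA a b Λ) {τ₀ : ℝ} (h0 : a < b - Real.exp (-2 * τ₀))
include h0

theorem adm {τ : ℝ} (hτ : τ₀ ≤ τ) : a < b - Real.exp (-2 * τ) ∧ b - Real.exp (-2 * τ) < b :=
  ⟨h0.trans_le (sub_le_sub_left (Real.exp_le_exp.2 (by linarith)) _),
    sub_lt_self _ (Real.exp_pos _)⟩

include hH h

theorem dis_le {ψ : E3 → ℝ} (c : Continuous ψ) (hc : HasCompactSupport ψ)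
    (h1 : ∀ x, 0 ≤ ψ x ∧ ψ x ≤ 1) {σ τ : ℝ} (hσ : τ₀ ≤ σ) (hτ : σ ≤ τ) :
    ContinuousOn (dis F x₀ b ψ) (Icc σ τ) ∧ ∫ s in σ..τ, dis F x₀ b ψ s ≤
      2 * Real.pi * (gs (F.rsl x₀ b σ).μ 0 1 - gs (F.rsl x₀ b τ).μ 0 1) := by
  have e : ∀ x : E3, Real.exp (-‖x‖ ^ 2 / 4) ≤ 1 := fun x =>
    Real.exp_le_one_iff.2 (by nlinarith [sq_nonneg ‖x‖])
  refine ⟨(hH F a b Λ b σ τ x₀ (fun x => ψ x * Real.exp (-‖x‖ ^ 2 / 4)) h hτ (adm h0 hσ).1
    (adm h0 (hσ.trans hτ)).2 (by fun_prop) hc.mul_right fun x =>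
      ⟨mul_nonneg (h1 x).1 (Real.exp_pos _).le,
        mul_le_one₀ (h1 x).2 (Real.exp_pos _).le (e x)⟩).1, ?_⟩
  have := (hH F a b Λ b σ τ x₀ ψ h hτ (adm h0 hσ).1 (adm h0 (hσ.trans hτ)).2 c hc h1).2
  rw [← inv_mul_le_iff₀ (by positivity)]
  exact le_sub_iff_add_le'.2 this

theorem gs_anti {σ τ : ℝ} (hσ : τ₀ ≤ σ) (hτ : σ ≤ τ) :
    gs (F.rsl x₀ b τ).μ 0 1 ≤ gs (F.rsl x₀ b σ).μ 0 1 := by
  have := (dis_le (x₀ := x₀) hH h h0 (ψ := fun _ => 0) continuous_const HasCompactSupport.zero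
    (by simp) hσ hτ).2
  simp only [dis, zero_mul, integral_zero, intervalIntegral.integral_zero] at this
  exact sub_nonneg.1 (nonneg_of_mul_nonneg_right this (by positivity))

theorem drop {δ : ℝ} (hδ : 0 < δ) : ∃ T ≥ τ₀, ∀ σ τ, T ≤ σ → σ ≤ τ →
    gs (F.rsl x₀ b σ).μ 0 1 - gs (F.rsl x₀ b τ).μ 0 1 ≤ δ :=
  P218.H552.exists_drop_le (fun _ _ => gs_anti hH h h0) (fun _ => gs_nonneg _ _ _) hδ

theorem slow2 (hB : BRK) (hF : FV) (hL : LOW) (hR : RSC) {g : E3 → ℝ} (hg : ContDiff ℝ 2 g)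
    (hc : HasCompactSupport g) {l ε : ℝ} (hl : 0 < l) (hε : 0 < ε) : ∃ T ≥ τ₀, ∀ σ τ, T ≤ σ →
    σ ≤ τ → τ ≤ σ + l → |∫ x, g x ∂(F.rsl x₀ b τ).μ - ∫ x, g x ∂(F.rsl x₀ b σ).μ| ≤ ε := by
  obtain ⟨R, hR0, hR1⟩ := hc.isCompact.isBounded.subset_closedBall_lt 0 (0 : E3)
  obtain ⟨A, hA, A0, A1, -⟩ := P218.H552.exists_bounds (hg.of_le (by norm_num)) hc
  obtain ⟨ψ, c1, c2, c3, c4⟩ := ex_cut R
  obtain ⟨Q, hQ0, hQ⟩ := c2.isCompact.isBounded.subset_closedBall_lt 0 (0 : E3)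
  set M := max Λ 0 * Q ^ 2 + 1
  have hM : 0 < M := by positivity
  set η := ε / (2 * l * M)
  have hη : 0 < η := by positivity
  set B := ((A + A * R) ^ 2 / η + 2 * A) * Real.exp (R ^ 2 / 4) + 1
  have hB0 : 0 < B := by positivity
  obtain ⟨T, hT, hd⟩ := drop (x₀ := x₀) hH h h0 (δ := ε / (4 * Real.pi * B)) (by positivity)
  refine ⟨T, hT, fun σ τ h1 h2 h3 => ?_⟩
  have hD := dis_le (x₀ := x₀) hH h h0 c1 c2 c3 (hT.trans h1) h2
  have hder := fun s (hs : σ ≤ s) => brk_rsl (x₀ := x₀) hB hF hL hR h.toOk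
    (adm h0 ((hT.trans h1).trans hs)).1 (adm h0 ((hT.trans h1).trans hs)).2 hg hc
  have hbd : ∀ s, σ ≤ s → |∫ x, -2 * ((F.rsl x₀ b s).φ x * (⟪(F.rsl x₀ b s).n x, gradient g x⟫ +
      (F.rsl x₀ b s).H x * g x)) ∂(F.rsl x₀ b s).μ| ≤ η * M + B * dis F x₀ b ψ s := by
    intro s hs
    have ha := adm h0 ((hT.trans h1).trans hs)
    have hS := rsl_ok (x₀ := x₀) hR h.toOk ha.1 ha.2
    have hA' := (rsl_ar (x₀ := x₀) hR h ha.1 ha.2).mono (le_max_left Λ 0)
    unfold dis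
    set S := F.rsl x₀ b s
    have := hA'.fin
    have cφ := hS.sφ.continuous
    have i1 : Integrable ψ S.μ := c1.integrable_of_hasCompactSupport c2
    have i2 : Integrable (fun x => ψ x * Real.exp (-‖x‖ ^ 2 / 4) * S.φ x ^ 2) S.μ :=
      Continuous.integrable_of_hasCompactSupport (by fun_prop) c2.mul_right.mul_right
    have i3 : ∫ x, ψ x ∂S.μ ≤ M := by
      have := P218.abs_integral_le_of_support (μ := S.μ) (isCompact_closedBall (0 : E3) Q)
        (fun x => abs_le.2 ⟨by linarith [(c3 x).1], (c3 x).2⟩)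
        (fun x hx => image_eq_zero_of_notMem_tsupport fun a => hx (hQ a))
        (C := (max Λ 0 * Q ^ 2).toNNReal) (hA' 0 Q hQ0)
      rw [Real.coe_toNNReal _ (by positivity)] at this
      linarith [le_abs_self (∫ x, ψ x ∂S.μ)]
    refine (norm_integral_le_of_norm_le (G := ℝ) ((i1.const_mul η).add (i2.const_mul B))
      (hS.ae.mono fun x hx => ?_)).trans ?_
    · simp only [Pi.add_apply, Real.norm_eq_abs]
      by_cases hx' : x ∈ tsupport g
      · have r := mem_closedBall_zero_iff.1 (hR1 hx')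
        have n1 : |⟪S.n x, gradient g x⟫| ≤ A :=
          (abs_real_inner_le_norm _ _).trans (by rw [hS.norm_n hx, one_mul, norm_gradient]; exact A1 x)
        have n2 : |⟪x, S.n x⟫| ≤ R :=
          (abs_real_inner_le_norm _ _).trans (by rw [hS.norm_n hx, mul_one]; exact r)
        have n3 : |S.H x| ≤ |S.φ x| + R := by
          have : S.H x = S.φ x + ⟪x, S.n x⟫ / 2 := by rw [Srf.φ]; ring
          rw [this]
          refine (abs_add_le _ _).trans (add_le_add le_rfl ?_)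
          rw [abs_div, abs_two]; linarith
        have n4 : 1 ≤ Real.exp (R ^ 2 / 4) * Real.exp (-‖x‖ ^ 2 / 4) := by
          rw [← Real.exp_add]
          exact Real.one_le_exp (by nlinarith [norm_nonneg x])
        have n5 : |⟪S.n x, gradient g x⟫ + S.H x * g x| ≤ A + (|S.φ x| + R) * A :=
          (abs_add_le _ _).trans (add_le_add n1 (by rw [abs_mul]; gcongr; exact A0 x))
        have n6 : 2 * (|S.φ x| * (A + A * R)) ≤ η + (A + A * R) ^ 2 / η * |S.φ x| ^ 2 := by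
          rw [div_mul_eq_mul_div, add_div' _ _ _ hη.ne', le_div_iff₀ hη]
          nlinarith [sq_nonneg (η - |S.φ x| * (A + A * R))]
        have n7 : ((A + A * R) ^ 2 / η + 2 * A) * S.φ x ^ 2 ≤
            B * (Real.exp (-‖x‖ ^ 2 / 4) * S.φ x ^ 2) := by
          rw [← mul_assoc]
          gcongr
          have : 0 ≤ (A + A * R) ^ 2 / η + 2 * A := by positivity
          nlinarith [Real.exp_pos (-‖x‖ ^ 2 / 4)]
        rw [c4 x r, abs_mul, abs_mul, abs_neg, abs_two, mul_one, one_mul]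
        rw [sq_abs] at n6
        nlinarith [mul_le_mul_of_nonneg_left n5 (abs_nonneg (S.φ x)), sq_abs (S.φ x)]
      · have e : gradient g x = 0 := by
          rw [gradient, (notMem_tsupport_iff_eventuallyEq.1 hx').fderiv_eq]; simp
        have := (c3 x).1
        simp only [e, image_eq_zero_of_notMem_tsupport hx', inner_zero_right, mul_zero, add_zero,
          abs_zero]
        positivity
    · simp only [Pi.add_apply]
      rw [integral_add (i1.const_mul η) (i2.const_mul B), integral_const_mul, integral_const_mul]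
      gcongr
  have hi : IntegrableOn (fun s => η * M + B * dis F x₀ b ψ s) (Icc σ τ) :=
    (continuousOn_const.add (continuousOn_const.mul hD.1)).integrableOn_Icc
  have hI : ∫ s in σ..τ, (η * M + B * dis F x₀ b ψ s) ≤ ε := by
    have := (hD.1.mono (uIcc_of_le h2).le).intervalIntegrable (μ := volume)
    rw [intervalIntegral.integral_add intervalIntegrable_const (this.const_mul B),
      intervalIntegral.integral_const, intervalIntegral.integral_const_mul, smul_eq_mul]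
    have e1 : (τ - σ) * (η * M) ≤ ε / 2 :=
      (mul_le_mul_of_nonneg_right (by linarith : τ - σ ≤ l) (by positivity)).trans
        (le_of_eq (by simp only [η]; field_simp))
    have e2 : B * ∫ s in σ..τ, dis F x₀ b ψ s ≤ ε / 2 :=
      (mul_le_mul_of_nonneg_left (hD.2.trans (mul_le_mul_of_nonneg_left (hd σ τ h1 h2)
        (by positivity))) hB0.le).trans (le_of_eq (by field_simp; norm_num))
    linarith
  have k1 := intervalIntegral.sub_le_integral_of_hasDeriv_right_of_le h2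
    (fun s hs => (hder s hs.1).continuousAt.continuousWithinAt)
    (fun s hs => (hder s hs.1.le).hasDerivWithinAt) hi fun s hs => (abs_le.1 (hbd s hs.1.le)).2
  have k2 := intervalIntegral.sub_le_integral_of_hasDeriv_right_of_le h2
    (fun s hs => (hder s hs.1).fun_neg.continuousAt.continuousWithinAt)
    (fun s hs => (hder s hs.1.le).fun_neg.hasDerivWithinAt) hi
    fun s hs => neg_le.1 (abs_le.1 (hbd s hs.1.le)).1
  exact abs_le.2 ⟨by linarith, by linarith⟩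

theorem slow_NN (hB : BRK) (hF : FV) (hL : LOW) (hR : RSC) : Slow (NN 2 F.μ x₀ b) τ₀ := by
  have har : ∀ τ, τ₀ ≤ τ → AR Λ (NN 2 F.μ x₀ b τ) := fun τ hτ =>
    rsl_μ hR F x₀ b τ ▸ rsl_ar hR h (adm h0 hτ).1 (adm h0 hτ).2
  refine ⟨fun K hK => ?_, fun φ hφ hφs l hl ε hε => ?_⟩
  · obtain ⟨R, hR0, hR1⟩ := hK.isBounded.subset_closedBall_lt 0 (0 : E3)
    exact ⟨(Λ * R ^ 2).toNNReal, fun τ hτ => (measure_mono hR1).trans (har τ hτ 0 R hR0)⟩
  obtain ⟨R, hR0, hR1⟩ := hφs.isCompact.isBounded.subset_closedBall_lt 0 (0 : E3)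
  have hR2 : ∀ x, R < ‖x‖ → φ x = 0 := fun x hx => image_eq_zero_of_notMem_tsupport fun a =>
    hx.not_ge (mem_closedBall_zero_iff.1 (hR1 a))
  set C := (Λ * R ^ 2).toNNReal
  have hM : 0 < ε / (3 * (C + 1)) := by positivity
  obtain ⟨g, g1, g2, g3⟩ := hφ.continuous.exists_contDiff_approx 2 continuous_const fun _ => hM
  have g4 : ∀ x, R < ‖x‖ → g x = 0 := fun x hx => by_contra fun a => g3 a (hR2 x hx)
  obtain ⟨T, hT, hs⟩ := slow2 (x₀ := x₀) hH h h0 hB hF hL hR g1 (HasCompactSupport.intro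
    (isCompact_closedBall (0 : E3) R) fun x hx => g4 x (by simpa using hx)) hl
    (show 0 < ε / 3 by positivity)
  refine ⟨T, hT, fun τ τ' h1 h2 h3 => ?_⟩
  have ap : ∀ τ, τ₀ ≤ τ → |∫ x, φ x ∂NN 2 F.μ x₀ b τ - ∫ x, g x ∂NN 2 F.μ x₀ b τ| ≤ ε / 3 := by
    intro τ hτ
    have := (har τ hτ).fin
    refine (P218.abs_integral_sub_le hφ.continuous g1.continuous hR2 g4 (fun x _ => ?_) hM.le
      (C := C) (har τ hτ 0 R hR0)).trans ?_
    · rw [abs_sub_comm]; exact (g2 x).le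
    · rw [div_mul_eq_mul_div, div_le_div_iff₀ (by positivity) (by positivity)]
      nlinarith [C.coe_nonneg]
  have a1 := abs_le.1 (ap τ (hT.trans h1))
  have a2 := abs_le.1 (ap τ' (hT.trans (h1.trans h2)))
  have a3 := abs_le.1 (hs τ τ' h1 h2 h3)
  rw [rsl_μ hR, rsl_μ hR] at a3
  exact abs_le.2 ⟨by linarith, by linarith⟩

theorem good_times (hR : RSC) {τ : ℕ → ℝ} (hτ : Tendsto τ atTop atTop) :
    ∃ σ : ℕ → ℝ, (∀ i, σ i ∈ Icc (τ i) (τ i + 1)) ∧ ∀ R, Tendsto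
      (fun i => ∫ x in closedBall 0 R, (F.rsl x₀ b (σ i)).φ x ^ 2 ∂(F.rsl x₀ b (σ i)).μ)
      atTop (𝓝 0) := by
  choose ψ c1 c2 c3 c4 using ex_cut
  have : ∀ i : ℕ, ∃ s ∈ Icc (τ i) (τ i + 1), τ₀ ≤ τ i → dis F x₀ b (ψ i) s ≤
      2 * Real.pi * (gs (F.rsl x₀ b (τ i)).μ 0 1 - gs (F.rsl x₀ b (τ i + 1)).μ 0 1) := by
    intro i
    have l : τ i ≤ τ i + 1 := by linarith
    by_cases hi : τ₀ ≤ τ i
    · have hD := dis_le (x₀ := x₀) hH h h0 (c1 i) (c2 i) (c3 i) hi l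
      obtain ⟨s, hs, hm⟩ := isCompact_Icc.exists_isMinOn (nonempty_Icc.2 l) hD.1
      refine ⟨s, hs, fun _ => le_trans ?_ hD.2⟩
      simpa using intervalIntegral.integral_mono_on l intervalIntegrable_const
        ((hD.1.mono (uIcc_of_le l).le).intervalIntegrable (μ := volume)) hm
    · exact ⟨τ i, left_mem_Icc.2 l, fun a => absurd a hi⟩
  choose σ hσ hd using this
  refine ⟨σ, hσ, fun R => tendsto_order.2 ⟨fun c hc => Eventually.of_forall fun i =>
    hc.trans_le (by positivity), fun c hc => ?_⟩⟩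
  obtain ⟨T, hT, hp⟩ := drop (x₀ := x₀) hH h h0
    (δ := c / (4 * Real.pi * Real.exp (R ^ 2 / 4))) (by positivity)
  filter_upwards [hτ.eventually_ge_atTop T,
    (tendsto_natCast_atTop_atTop (R := ℝ)).eventually_ge_atTop R] with i h1 h2
  have ha := adm h0 ((hT.trans h1).trans (hσ i).1)
  have hS := rsl_ok (x₀ := x₀) hR h.toOk ha.1 ha.2
  have := (rsl_ar (x₀ := x₀) hR h ha.1 ha.2).fin
  have h3 := (hd i (hT.trans h1)).trans
    (mul_le_mul_of_nonneg_left (hp _ _ h1 (by linarith)) (by positivity))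
  unfold dis at h3
  set S := F.rsl x₀ b (σ i)
  have cφ := hS.sφ.continuous
  have c1 := c1 i
  have i2 : Integrable (fun x => Real.exp (R ^ 2 / 4) *
      (ψ i x * Real.exp (-‖x‖ ^ 2 / 4) * S.φ x ^ 2)) S.μ := (Continuous.integrable_of_hasCompactSupport
    (by fun_prop) (c2 i).mul_right.mul_right).const_mul _
  calc _ ≤ ∫ x in closedBall 0 R, Real.exp (R ^ 2 / 4) *
        (ψ i x * Real.exp (-‖x‖ ^ 2 / 4) * S.φ x ^ 2) ∂S.μ := by
        refine setIntegral_mono_on ((cφ.pow 2).continuousOn.integrableOn_compact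
          (isCompact_closedBall _ _)) i2.integrableOn measurableSet_closedBall fun x hx => ?_
        have r := mem_closedBall_zero_iff.1 hx
        rw [c4 i x (r.trans h2), one_mul, ← mul_assoc, ← Real.exp_add]
        exact le_mul_of_one_le_left (sq_nonneg _)
          (Real.one_le_exp (by nlinarith [norm_nonneg x]))
    _ ≤ _ := setIntegral_le_integral i2 (Eventually.of_forall fun x => by
        have := (c3 i x).1; positivity)
    _ ≤ c / 2 := by
        rw [integral_const_mul]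
        exact (mul_le_mul_of_nonneg_left h3 (by positivity)).trans
          (le_of_eq (by field_simp; norm_num))
    _ < c := half_lt_self hc

end

theorem ex_tau0 (h : a < b) : ∃ τ₀, a < b - Real.exp (-2 * τ₀) := by
  refine ⟨-Real.log ((b - a) / 2) / 2, ?_⟩
  rw [show -2 * (-Real.log ((b - a) / 2) / 2) = Real.log ((b - a) / 2) by ring,
    Real.exp_log (by linarith)]
  linarith

theorem slw (hB : BRK) (hF : FV) (hL : LOW) (hR : RSC) (hH : HUR) : SLW := by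
  intro F a b Λ x₀ hab h
  obtain ⟨τ₀, h0⟩ := ex_tau0 hab
  have hS := slow_NN (x₀ := x₀) hH h h0 hB hF hL hR
  refine ⟨⟨τ₀, hS⟩, fun τ κ hτ hκ => ⟨fun s hs => ?_, ?_⟩⟩
  · simp only [rs_μ hR _ _ _ _ hs]
    exact weakTendsto_ext (hS.weakTendsto_shift hτ (h := |Real.log √(-s)| + 1) (by positivity)
      (Eventually.of_forall fun i => by simp) hκ) 2 hs
  · obtain ⟨σ, h1, h2⟩ := good_times (x₀ := x₀) hH h h0 hR hτ
    refine ⟨σ, h1, ?_, h2⟩
    simp only [rsl_μ hR]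
    exact hS.weakTendsto_shift hτ one_pos (Eventually.of_forall fun i =>
      abs_le.2 ⟨by linarith [(h1 i).1], by linarith [(h1 i).2]⟩) hκ

end Vale.Agent.P218R
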