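import Vale.Agent.P218R.Stm

/-!
# P218R: Gaussian ratios of measures with bounded area ratios
-/

open MeasureTheory Metric Filter Topology Set
open scoped ContDiff ENNReal RealInnerProductSpace

noncomputable section

namespace Vale.Agent.P218R

namespace Gs

/-- the constant of the Gaussian bound -/
def C0 : ℝ := ∑' k : ℕ, ((k : ℝ) + 1) * Real.exp (-1) ^ k

theorem sumC : Summable fun k : ℕ => ((k : ℝ) + 1) * Real.exp (-1) ^ k := by
  have h : ‖Real.exp (-1)‖ < 1 := by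
    rw [Real.norm_eq_abs, Real.abs_exp]; exact Real.exp_lt_one_iff.2 (by norm_num)
  simpa [add_mul] using (summable_pow_mul_geometric_of_norm_lt_one 1 h).add
    (summable_geometric_of_norm_lt_one h)

theorem C0_pos : 0 < C0 := sumC.tsum_pos (fun k => by positivity) 0 (by simp)

variable {Λ a ρ R : ℝ} {μ : Measure E3} {x : E3}

theorem lint (hΛ : 0 ≤ Λ) (h : AR Λ μ) (x : E3) (ha : 0 < a) :
    ∫⁻ y, ENNReal.ofReal (Real.exp (-‖y - x‖ ^ 2 / a)) ∂μ ≤ ENNReal.ofReal (C0 * Λ * a) := by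
  calc _ ≤ ∫⁻ y, ∑' k : ℕ, (closedBall x √((k + 1) * a)).indicator
          (fun _ => ENNReal.ofReal (Real.exp (-1) ^ k)) y ∂μ := by
        refine lintegral_mono fun y => le_trans ?_ (ENNReal.le_tsum ⌊‖y - x‖ ^ 2 / a⌋₊)
        have h1 := Nat.floor_le (show 0 ≤ ‖y - x‖ ^ 2 / a by positivity)
        have h2 := Nat.lt_floor_add_one (‖y - x‖ ^ 2 / a)
        rw [indicator_of_mem, ← Real.exp_nat_mul, neg_div]
        · exact ENNReal.ofReal_le_ofReal (Real.exp_le_exp.2 (by linarith))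
        · rw [mem_closedBall_iff_norm]
          exact Real.le_sqrt_of_sq_le ((div_le_iff₀ ha).1 h2.le)
    _ ≤ ∑' k : ℕ, ENNReal.ofReal (((k : ℝ) + 1) * Real.exp (-1) ^ k * Λ * a) := by
        rw [lintegral_tsum fun k =>
          (measurable_const.indicator measurableSet_closedBall).aemeasurable]
        refine ENNReal.tsum_le_tsum fun k => ?_
        rw [lintegral_indicator_const measurableSet_closedBall]
        refine (mul_le_mul_right (h x _ (by positivity)) _).trans (le_of_eq ?_)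
        rw [← ENNReal.ofReal_mul (by positivity), Real.sq_sqrt (by positivity)]
        congr 1; ring
    _ = _ := by
        rw [← ENNReal.ofReal_tsum_of_nonneg (fun k => by positivity)
          ((sumC.mul_right Λ).mul_right a), tsum_mul_right, tsum_mul_right, C0]

theorem intg (hΛ : 0 ≤ Λ) (h : AR Λ μ) (x : E3) (ha : 0 < a) :
    Integrable (fun y => Real.exp (-‖y - x‖ ^ 2 / a)) μ :=
  ⟨Continuous.aestronglyMeasurable (by fun_prop), (hasFiniteIntegral_iff_ofReal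
    (Eventually.of_forall fun _ => (Real.exp_pos _).le)).2
      ((lint hΛ h x ha).trans_lt ENNReal.ofReal_lt_top)⟩

theorem int_le (hΛ : 0 ≤ Λ) (h : AR Λ μ) (x : E3) (ha : 0 < a) :
    ∫ y, Real.exp (-‖y - x‖ ^ 2 / a) ∂μ ≤ C0 * Λ * a := by
  rw [integral_eq_lintegral_of_nonneg_ae (Eventually.of_forall fun _ => (Real.exp_pos _).le)
    (intg hΛ h x ha).1]
  exact ENNReal.toReal_le_of_le_ofReal (by have := C0_pos; positivity) (lint hΛ h x ha)

theorem exp_tail {s : ℝ} (ha : 0 < a) (hR : 0 ≤ R) (h : R ≤ s) :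
    Real.exp (-s ^ 2 / a) ≤ Real.exp (-R ^ 2 / (2 * a)) * Real.exp (-s ^ 2 / (2 * a)) := by
  rw [← Real.exp_add, Real.exp_le_exp, ← add_div, div_le_div_iff₀ ha (by positivity)]
  nlinarith [pow_le_pow_left₀ hR h 2]

/-- the Gaussian tail -/
theorem tail (hΛ : 0 ≤ Λ) (h : AR Λ μ) (ha : 0 < a) (hR : 0 ≤ R) {f : E3 → ℝ}
    (hf : ∀ᵐ y ∂μ, |f y| ≤ Real.exp (-‖y - x‖ ^ 2 / a) ∧ (‖y - x‖ < R → f y = 0)) :
    |∫ y, f y ∂μ| ≤ Real.exp (-R ^ 2 / (2 * a)) * (C0 * Λ * (2 * a)) := by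
  have h2 : 0 < 2 * a := by positivity
  rw [← Real.norm_eq_abs]
  refine le_trans (norm_integral_le_of_norm_le ((intg hΛ h x h2).const_mul
    (Real.exp (-R ^ 2 / (2 * a)))) (hf.mono fun y hy => ?_)) ?_
  · rcases lt_or_ge ‖y - x‖ R with h1 | h1
    · rw [hy.2 h1, norm_zero]; positivity
    · exact hy.1.trans (exp_tail ha hR h1)
  · rw [integral_const_mul]
    gcongr
    exact int_le hΛ h x h2

theorem exp_lip {A B m : ℝ} (hA : m ≤ A) (hB : m ≤ B) :
    |Real.exp (-A) - Real.exp (-B)| ≤ |A - B| * Real.exp (-m) := by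
  wlog h : A ≤ B generalizing A B
  · rw [abs_sub_comm, abs_sub_comm A]; exact this hB hA (not_le.1 h).le
  have h1 : Real.exp (-B) = Real.exp (-A) * Real.exp (A - B) := by
    rw [← Real.exp_add]; congr 1; ring
  have h2 := Real.add_one_le_exp (A - B)
  have h3 := Real.exp_le_exp.2 (neg_le_neg hA)
  have h4 := Real.exp_pos (-A)
  rw [abs_of_nonneg (sub_nonneg.2 (Real.exp_le_exp.2 (neg_le_neg h))),
    abs_of_nonpos (sub_nonpos.2 h), h1]
  nlinarith

theorem lip_real {u u' t d : ℝ} (hu : 0 ≤ u) (hu' : 0 ≤ u') (h : |u' - u| ≤ d) (hd : d ≤ 1)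
    (t1 : 1 / 2 ≤ t) (t2 : t ≤ 2) :
    |(t ^ 2)⁻¹ * Real.exp (-(u' ^ 2 / (4 * t ^ 2))) - Real.exp (-(u ^ 2 / 4))| ≤
      768 * (d + |t - 1|) * Real.exp (-(u ^ 2 / 64)) := by
  have t0 : 0 < t := by linarith
  have d0 : 0 ≤ d := (abs_nonneg _).trans h
  obtain ⟨h1, h2⟩ := abs_le.1 h
  set w := (t ^ 2)⁻¹ with hw
  have w1 : 1 / 4 ≤ w := by rw [hw, le_inv_comm₀ (by norm_num) (by positivity)]; nlinarith
  have w2 : w ≤ 4 := by rw [hw, inv_le_comm₀ (by positivity) (by norm_num)]; nlinarith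
  have w3 : |w - 1| ≤ 12 * |t - 1| := by
    have : w - 1 = -(w * (t + 1)) * (t - 1) := by rw [hw]; field_simp; ring
    rw [this, abs_mul, abs_neg, abs_of_nonneg (by positivity)]
    gcongr; nlinarith
  have e : u' ^ 2 / (4 * t ^ 2) = w * u' ^ 2 / 4 := by rw [hw]; field_simp
  set m := u ^ 2 / 32 - 1 / 16
  have hA : m ≤ w * u' ^ 2 / 4 := by
    have : u ^ 2 ≤ 2 * u' ^ 2 + 2 := by
      nlinarith [sq_nonneg (u' - 1), pow_le_pow_left₀ hu (show u ≤ u' + 1 by linarith) 2]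
    simp only [m]; nlinarith [sq_nonneg u']
  have hB : m ≤ u ^ 2 / 4 := by simp only [m]; nlinarith
  have k1 := exp_lip hA hB
  have k2 : |w * u' ^ 2 / 4 - u ^ 2 / 4| ≤ d * (2 * u + 1) + u ^ 2 / 4 * (12 * |t - 1|) := by
    rw [show w * u' ^ 2 / 4 - u ^ 2 / 4 = w / 4 * ((u' - u) * (u' + u)) + u ^ 2 / 4 * (w - 1) by
      ring]
    refine (abs_add_le _ _).trans (add_le_add ?_ ?_)
    · rw [abs_mul, abs_mul, abs_of_nonneg (by positivity : 0 ≤ w / 4),
        abs_of_nonneg (by positivity : 0 ≤ u' + u)]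
      calc _ ≤ 1 * (d * (2 * u + 1)) := mul_le_mul (by linarith)
            (mul_le_mul h (by linarith) (by positivity) d0) (by positivity) zero_le_one
        _ = _ := one_mul _
    · rw [abs_mul, abs_of_nonneg (by positivity : 0 ≤ u ^ 2 / 4)]; gcongr
  have k3 : Real.exp (-(w * u' ^ 2 / 4)) ≤ Real.exp (-m) := Real.exp_le_exp.2 (neg_le_neg hA)
  have k4 : (13 + 4 * u ^ 2) * Real.exp (-m) ≤ 768 * Real.exp (-(u ^ 2 / 64)) := by
    have a1 : Real.exp (-m) = Real.exp (1 / 16) * (Real.exp (u ^ 2 / 64))⁻¹ *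
        Real.exp (-(u ^ 2 / 64)) := by
      rw [← Real.exp_neg, ← Real.exp_add, ← Real.exp_add]; congr 1; simp only [m]; ring
    have a2 : Real.exp (1 / 16) ≤ 3 :=
      (Real.exp_le_exp.2 (by norm_num)).trans (Real.exp_one_lt_d9.le.trans (by norm_num))
    have a3 := Real.add_one_le_exp (u ^ 2 / 64)
    rw [a1, ← mul_assoc]
    gcongr
    rw [← mul_assoc, ← div_eq_mul_inv, div_le_iff₀ (Real.exp_pos _)]
    nlinarith [Real.exp_pos (1 / 16)]
  rw [e, show w * Real.exp (-(w * u' ^ 2 / 4)) - Real.exp (-(u ^ 2 / 4)) =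
    (w - 1) * Real.exp (-(w * u' ^ 2 / 4)) +
      (Real.exp (-(w * u' ^ 2 / 4)) - Real.exp (-(u ^ 2 / 4))) by ring]
  refine (abs_add_le _ _).trans ?_
  rw [abs_mul, Real.abs_exp]
  have p := abs_nonneg (t - 1)
  calc _ ≤ 12 * |t - 1| * Real.exp (-m) +
        (d * (2 * u + 1) + u ^ 2 / 4 * (12 * |t - 1|)) * Real.exp (-m) :=
        add_le_add (by gcongr) (k1.trans (by gcongr))
    _ ≤ (d + |t - 1|) * ((13 + 4 * u ^ 2) * Real.exp (-m)) := by
        rw [← add_mul, ← mul_assoc (d + |t - 1|)]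
        refine mul_le_mul_of_nonneg_right ?_ (Real.exp_pos _).le
        nlinarith [mul_nonneg d0 (sq_nonneg (u - 1)), mul_nonneg d0 (sq_nonneg u),
          mul_nonneg p (sq_nonneg u)]
    _ ≤ (d + |t - 1|) * (768 * Real.exp (-(u ^ 2 / 64))) := by gcongr
    _ = _ := by ring

theorem gs_le (hΛ : 0 ≤ Λ) (h : AR Λ μ) (x : E3) (hρ : 0 < ρ) : gs μ x ρ ≤ C0 * Λ := by
  have := C0_pos
  calc _ ≤ (4 * Real.pi * ρ ^ 2)⁻¹ * (C0 * Λ * (4 * ρ ^ 2)) :=
        mul_le_mul_of_nonneg_left (int_le hΛ h x (by positivity)) (by positivity)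
    _ = C0 * Λ / Real.pi := by field_simp
    _ ≤ _ := div_le_self (by positivity) (by linarith [Real.pi_gt_three])

theorem gs_lip (hΛ : 0 ≤ Λ) (h : AR Λ μ) (hρ : 0 < ρ) {x' : E3} {ρ' : ℝ} (h1 : ρ ≤ 2 * ρ')
    (h2 : ρ' ≤ 2 * ρ) (h3 : ‖x' - x‖ ≤ ρ) :
    |gs μ x' ρ' - gs μ x ρ| ≤ 12288 * C0 * Λ * (‖x' - x‖ + |ρ' - ρ|) / ρ := by
  have hρ' : 0 < ρ' := by linarith
  have := C0_pos
  rw [gs, gs, ← integral_const_mul, ← integral_const_mul, ← integral_sub
    ((intg hΛ h x' (by positivity)).const_mul _) ((intg hΛ h x (by positivity)).const_mul _),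
    ← Real.norm_eq_abs]
  refine le_trans (norm_integral_le_of_norm_le ((intg hΛ h x (a := 64 * ρ ^ 2)
    (by positivity)).const_mul ((4 * Real.pi * ρ ^ 2)⁻¹ * (768 * ((‖x' - x‖ + |ρ' - ρ|) / ρ))))
    (Eventually.of_forall fun y => ?_)) ?_
  · have k := lip_real (u := ‖y - x‖ / ρ) (u' := ‖y - x'‖ / ρ) (t := ρ' / ρ) (d := ‖x' - x‖ / ρ)
      (by positivity) (by positivity) (by
        rw [← sub_div, abs_div, abs_of_pos hρ]
        gcongr
        simpa [norm_sub_rev x x'] using abs_norm_sub_norm_le (y - x') (y - x))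
      ((div_le_one hρ).2 h3) (by rw [le_div_iff₀ hρ]; linarith) (by rwa [div_le_iff₀ hρ])
    have e1 : -((‖y - x'‖ / ρ) ^ 2 / (4 * (ρ' / ρ) ^ 2)) = -‖y - x'‖ ^ 2 / (4 * ρ' ^ 2) := by
      field_simp
    have e2 : -((‖y - x‖ / ρ) ^ 2 / 4) = -‖y - x‖ ^ 2 / (4 * ρ ^ 2) := by field_simp
    have e3 : -((‖y - x‖ / ρ) ^ 2 / 64) = -‖y - x‖ ^ 2 / (64 * ρ ^ 2) := by field_simp
    have e4 : |ρ' / ρ - 1| = |ρ' - ρ| / ρ := by rw [div_sub_one hρ.ne', abs_div, abs_of_pos hρ]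
    have e5 : (4 * Real.pi * ρ' ^ 2)⁻¹ = (4 * Real.pi * ρ ^ 2)⁻¹ * ((ρ' / ρ) ^ 2)⁻¹ := by
      field_simp
    rw [e1, e2, e3, e4, ← add_div] at k
    rw [e5, mul_assoc, ← mul_sub, norm_mul, Real.norm_of_nonneg (by positivity),
      mul_assoc _ (768 * _)]
    exact mul_le_mul_of_nonneg_left k (by positivity)
  · rw [integral_const_mul]
    calc _ ≤ (4 * Real.pi * ρ ^ 2)⁻¹ * (768 * ((‖x' - x‖ + |ρ' - ρ|) / ρ)) *
          (C0 * Λ * (64 * ρ ^ 2)) := by gcongr; exact int_le hΛ h x (by positivity)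
      _ = 12288 * C0 * Λ * (‖x' - x‖ + |ρ' - ρ|) / ρ / Real.pi := by field_simp; ring
      _ ≤ _ := div_le_self (by positivity) (by linarith [Real.pi_gt_three])

theorem ar_max (h : AR Λ μ) : AR (max Λ 0) μ := fun x r hr =>
  (h x r hr).trans (ENNReal.ofReal_le_ofReal (by gcongr; exact le_max_left _ _))

section lim
variable {ι : Type} {l : Filter ι} [l.NeBot] {ν : ι → Measure E3} {κ : Measure E3}
  [IsLocallyFiniteMeasure κ] (hν : ∀ᶠ i in l, AR Λ (ν i))
  (hl : ∀ f : E3 → ℝ, Continuous f → HasCompactSupport f →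
    Tendsto (fun i => ∫ x, f x ∂ν i) l (𝓝 (∫ x, f x ∂κ)))
include hν hl

theorem ar_lim : AR Λ κ := fun x r hr => by
  have key : ∀ r' ∈ Ioi r, κ (closedBall x r) ≤ ENNReal.ofReal (Λ * r' ^ 2) := fun r' hr' => by
    obtain ⟨f, f1, f0, fc, fb⟩ := exists_continuous_one_zero_of_isCompact (isCompact_closedBall x r)
      (isOpen_ball (x := x) (ε := r')).isClosed_compl
      (disjoint_compl_right_iff_subset.2 (closedBall_subset_ball hr'))
    refine le_trans ?_ (le_of_tendsto (ENNReal.tendsto_ofReal (hl f f.continuous fc))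
      (hν.mono fun i hi => le_trans ?_ (hi x r' (hr.trans hr'))))
    · rw [ofReal_integral_eq_lintegral_ofReal (f.continuous.integrable_of_hasCompactSupport fc)
        (Eventually.of_forall fun y => (fb y).1), ← lintegral_indicator_one measurableSet_closedBall]
      refine lintegral_mono (indicator_le fun y hy => ?_)
      simp [f1 hy]
    · refine (Real.ofReal_le_enorm _).trans ((enorm_integral_le_lintegral_enorm _).trans ?_)
      rw [← lintegral_indicator_one measurableSet_closedBall]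
      refine lintegral_mono fun y => ?_
      by_cases hy : y ∈ closedBall x r'
      · rw [indicator_of_mem hy, Real.enorm_eq_ofReal (fb y).1]
        exact ENNReal.ofReal_le_one.2 (fb y).2
      · simp [f0 fun h => hy (ball_subset_closedBall h)]
  have c : Continuous fun r' : ℝ => ENNReal.ofReal (Λ * r' ^ 2) :=
    ENNReal.continuous_ofReal.comp (by fun_prop)
  exact ge_of_tendsto ((c.tendsto r).mono_left nhdsWithin_le_nhds)
    (eventually_mem_nhdsWithin.mono key)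

theorem gs_lim (x : E3) (hρ : 0 < ρ) : Tendsto (fun i => gs (ν i) x ρ) l (𝓝 (gs κ x ρ)) := by
  refine Tendsto.const_mul _ (Metric.tendsto_nhds.2 fun ε hε => ?_)
  have ha : 0 < 4 * ρ ^ 2 := by positivity
  have t1 : Tendsto (fun R : ℝ => Real.exp (-R ^ 2 / (2 * (4 * ρ ^ 2))) *
      (C0 * max Λ 0 * (2 * (4 * ρ ^ 2)))) atTop (𝓝 0) := by
    simpa using (Real.tendsto_exp_atBot.comp ((tendsto_neg_atTop_atBot.comp
      (tendsto_pow_atTop two_ne_zero)).atBot_div_const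
        (show 0 < 2 * (4 * ρ ^ 2) by positivity))).mul_const (C0 * max Λ 0 * (2 * (4 * ρ ^ 2)))
  obtain ⟨R, hR, R0⟩ := ((t1.eventually (gt_mem_nhds (show 0 < ε / 3 by positivity))).and
    (eventually_ge_atTop 0)).exists
  obtain ⟨f, f1, -, fc, fb⟩ := exists_continuous_one_zero_of_isCompact (isCompact_closedBall x R)
    isClosed_empty (disjoint_empty _)
  have k : ∀ μ, AR Λ μ → |(∫ y, Real.exp (-‖y - x‖ ^ 2 / (4 * ρ ^ 2)) ∂μ) -
      ∫ y, f y * Real.exp (-‖y - x‖ ^ 2 / (4 * ρ ^ 2)) ∂μ| < ε / 3 := fun μ h => by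
    have i := intg (le_max_right _ _) (ar_max h) x ha
    rw [← integral_sub i (i.bdd_mul (c := 1) f.continuous.aestronglyMeasurable
      (Eventually.of_forall fun y => abs_le.2 ⟨by linarith [(fb y).1], (fb y).2⟩))]
    refine (tail (x := x) (le_max_right _ _) (ar_max h) ha R0 (Eventually.of_forall fun y =>
      ⟨?_, fun hy => by simp [f1 (mem_closedBall_iff_norm.2 hy.le)]⟩)).trans_lt hR
    have := Real.exp_pos (-‖y - x‖ ^ 2 / (4 * ρ ^ 2))
    exact abs_le.2 ⟨by nlinarith [(fb y).1, (fb y).2], by nlinarith [(fb y).1]⟩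
  filter_upwards [hν, Metric.tendsto_nhds.1 (hl (fun y => f y * Real.exp (-‖y - x‖ ^ 2 /
    (4 * ρ ^ 2))) (by fun_prop) fc.mul_right) (ε / 3) (by positivity)] with i h1 h2
  have a := abs_lt.1 (k _ h1)
  have b := abs_lt.1 (k _ (ar_lim hν hl))
  rw [Real.dist_eq, abs_lt] at h2 ⊢
  constructor <;> linarith [a.1, a.2, b.1, b.2, h2.1, h2.2]

/-- **GSC**: moving centres and scales -/
theorem gsc {y : ι → E3} {r : ι → ℝ} (hy : Tendsto y l (𝓝 x)) (hr : Tendsto r l (𝓝 ρ))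
    (hρ : 0 < ρ) : Tendsto (fun i => gs (ν i) (y i) (r i)) l (𝓝 (gs κ x ρ)) := by
  have t1 : Tendsto (fun i => ‖y i - x‖) l (𝓝 0) := tendsto_iff_norm_sub_tendsto_zero.1 hy
  have t2 : Tendsto (fun i => |r i - ρ|) l (𝓝 0) := tendsto_iff_norm_sub_tendsto_zero.1 hr
  refine (gs_lim hν hl x hρ).congr_dist (squeeze_zero' (Eventually.of_forall fun _ => dist_nonneg)
    ?_ (by simpa using ((t1.add t2).const_mul (12288 * C0 * max Λ 0)).div_const ρ))
  filter_upwards [hν, t1.eventually (ge_mem_nhds hρ), t2.eventually (ge_mem_nhds (half_pos hρ))]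
    with i h1 h2 h3
  obtain ⟨h4, h5⟩ := abs_le.1 h3
  rw [dist_comm, Real.dist_eq]
  exact gs_lip (le_max_right _ _) (ar_max h1) hρ (by linarith) (by linarith) h2

end lim

end Gs

open Gs in
theorem gsl : GSL := by
  have := C0_pos
  refine ⟨⟨12288 * C0, by positivity, fun Λ μ hΛ h x ρ hρ => ⟨intg hΛ h x (by positivity),
    (gs_le hΛ h x hρ).trans (by nlinarith [mul_nonneg this.le hΛ]), fun x' ρ' h1 h2 h3 =>
      gs_lip hΛ h hρ h1 h2 h3⟩⟩, fun ι l _ Λ ν κ _ hν hl =>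
    ⟨ar_lim hν hl, fun x ρ hρ => gs_lim hν hl x hρ⟩⟩

end Vale.Agent.P218R
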