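import Vale.Agent.P218R.Gsl
import Vale.Agent.P366W.Gdiv

/-!
# P218R: Gaussian ratios of smooth surfaces at small scales
-/

open MeasureTheory Metric Filter Topology Set
open scoped ContDiff ENNReal RealInnerProductSpace
open Vale.Agent.P366.Stmt (E)
open Vale.Agent.P366W (Fr adj norm_gradient contDiff_gradient)

noncomputable section

namespace Vale.Agent.P218R

namespace Gs

variable {p e y : E3} {L : E 2 →ₗᵢ[ℝ] E3} {r h c ρ σ Λ : ℝ} {S : Srf} {v : E 2 → ℝ}

theorem ex_fr (he : ‖e‖ = 1) : ∃ L : E 2 →ₗᵢ[ℝ] E3, Fr e L := by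
  have : Fact (Module.finrank ℝ E3 = 2 + 1) := ⟨by simp⟩
  have h0 : e ≠ 0 := by rintro rfl; simp at he
  let b := OrthonormalBasis.fromOrthogonalSpanSingleton (𝕜 := ℝ) 2 h0
  refine ⟨(ℝ ∙ e)ᗮ.subtypeₗᵢ.comp b.repr.symm.toLinearIsometry, he, fun y => ?_⟩
  exact Submodule.mem_orthogonal_singleton_iff_inner_right.1 (b.repr.symm y).2

theorem pl (hc : 0 < c) (a : E 2) : ∫ z : E 2, Real.exp (-‖z - a‖ ^ 2 / c) = Real.pi * c := by
  rw [integral_sub_right_eq_self (fun z : E 2 => Real.exp (-‖z‖ ^ 2 / c)) a]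
  have := GaussianFourier.integral_rexp_neg_mul_sq_norm (V := E 2) (inv_pos.2 hc)
  simp only [finrank_euclideanSpace, Fintype.card_fin, Nat.cast_ofNat, div_inv_eq_mul] at this
  rw [div_self two_ne_zero, Real.rpow_one] at this
  rw [← this]
  exact integral_congr_ae (Eventually.of_forall fun z => by simp only; congr 1; ring)

theorem pl_int (hc : 0 < c) (a : E 2) : Integrable fun z : E 2 => Real.exp (-‖z - a‖ ^ 2 / c) :=
  Integrable.of_integral_ne_zero (by rw [pl hc]; positivity)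

theorem exp_le {x : ℝ} (hx : 0 < x) : Real.exp (-x) ≤ x⁻¹ := by
  rw [Real.exp_neg]
  exact inv_anti₀ hx (by linarith [Real.add_one_le_exp x])

theorem nsq (hF : Fr e L) (p y : E3) (z : E 2) (s : ℝ) : ‖p + L z + s • e - y‖ ^ 2 =
    ‖z - adj L (y - p)‖ ^ 2 + (s - ⟪e, y - p⟫) ^ 2 := by
  rw [← hF.norm_sq, map_sub, sub_smul]
  congr 2
  have := hF.dec (y - p)
  rw [show p + L z + s • e - y = L z + s • e - (y - p) by abel]
  conv_lhs => rw [← this]
  abel

theorem cyl_eq (hF : Fr e L) :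
    cyl p e L r h = {x | ‖adj L (x - p)‖ < r ∧ |⟪e, x - p⟫| < h} := by
  ext x
  constructor
  · rintro ⟨z, s, h1, h2, rfl⟩
    rw [mem_ofPred_eq, add_assoc, add_sub_cancel_left, hF.adj_pt, hF.e_pt]
    exact ⟨h1, h2⟩
  · exact fun hx => ⟨_, _, hx.1, hx.2, by rw [add_assoc, hF.dec, add_sub_cancel]⟩

theorem open_cyl (hF : Fr e L) : IsOpen (cyl p e L r h) := by
  rw [cyl_eq hF]
  exact (isOpen_lt (f := fun x => ‖adj L (x - p)‖) (by fun_prop) continuous_const).inter
    (isOpen_lt (f := fun x => |⟪e, x - p⟫|) (by fun_prop) continuous_const)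

theorem ball_cyl (hF : Fr e L) : ball p r ⊆ cyl p e L r r := fun x hx => by
  rw [mem_ball_iff_norm] at hx
  rw [cyl_eq hF]
  refine ⟨(hF.norm_adj _).trans_lt hx, (abs_real_inner_le_norm _ _).trans_lt ?_⟩
  rwa [hF.one, one_mul]

theorem plane (he : ‖e‖ = 1) (hρ : 0 < ρ) : gs (H2.restrict {x | ⟪e, x - p⟫ = 0}) y ρ =
    Real.exp (-⟪e, y - p⟫ ^ 2 / (4 * ρ ^ 2)) := by
  obtain ⟨L, hF⟩ := ex_fr he
  have iso : Isometry fun z => p + L z := (isometry_add_left p).comp L.isometry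
  have e1 : {x | ⟪e, x - p⟫ = 0} = range fun z => p + L z := by
    ext x
    constructor
    · intro hx
      have := hF.dec (x - p)
      rw [show ⟪e, x - p⟫ = 0 from hx, zero_smul, add_zero] at this
      exact ⟨adj L (x - p), by simp only [this, add_sub_cancel]⟩
    · rintro ⟨z, rfl⟩; simp [hF.ort]
  have e2 : ∀ z, Real.exp (-‖p + L z - y‖ ^ 2 / (4 * ρ ^ 2)) = Real.exp (-⟪e, y - p⟫ ^ 2 /
      (4 * ρ ^ 2)) * Real.exp (-‖z - adj L (y - p)‖ ^ 2 / (4 * ρ ^ 2)) := fun z => by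
    have := nsq hF p y z 0
    rw [zero_smul, add_zero] at this
    rw [this, ← Real.exp_add]; congr 1; ring
  rw [gs, e1, ← iso.map_euclideanHausdorffMeasure, iso.isClosedEmbedding.integral_map,
    EuclideanSpace.euclideanHausdorffMeasure_eq_volume]
  simp only [e2]
  rw [integral_const_mul, pl (by positivity)]
  field_simp

theorem area_low (hF : Fr e L) (hG : S.Gr p e L r h v) (hr : 0 ≤ r) :
    ENNReal.ofReal (Real.pi * r ^ 2) ≤ S.μ (cyl p e L r h) := by
  have lip : LipschitzWith 1 fun x : E3 => adj L (x - p) := LipschitzWith.of_dist_le_mul fun x y => by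
    rw [dist_eq_norm, dist_eq_norm, ← map_sub, sub_sub_sub_cancel_right, NNReal.coe_one, one_mul]
    exact hF.norm_adj _
  have sub : ball (0 : E 2) r ⊆ (fun x : E3 => adj L (x - p)) '' (cyl p e L r h ∩ S.G) := by
    intro z hz
    obtain ⟨h1, h2⟩ := hG z (mem_ball_zero_iff.1 hz)
    refine ⟨p + L z + v z • e, ⟨⟨z, v z, mem_ball_zero_iff.1 hz, h1, rfl⟩, (h2 _ h1).2.2 rfl⟩, ?_⟩
    simp only [add_assoc, add_sub_cancel_left, hF.adj_pt]
  refine le_trans ?_ (Measure.le_restrict_apply _ _)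
  calc _ = (μHE[2] : Measure (E 2)) (ball 0 r) := by
        rw [EuclideanSpace.euclideanHausdorffMeasure_eq_volume, EuclideanSpace.volume_ball_fin_two,
          ← ENNReal.ofReal_pow hr, ← ENNReal.ofReal_mul (by positivity), mul_comm]
    _ ≤ _ := measure_mono sub
    _ ≤ _ := by
        simp only [H2, Measure.euclideanHausdorffMeasure_def, Measure.smul_apply,
          ENNReal.smul_def, smul_eq_mul]
        gcongr
        simpa using lip.hausdorffMeasure_image_le (d := 2) (by norm_num) (cyl p e L r h ∩ S.G)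

theorem tail_gs (hΛ : 0 ≤ Λ) {μ : Measure E3} (h : AR Λ μ) (hρ : 0 < ρ) (hr : 0 < r) {A : Set E3}
    (mA : MeasurableSet A) (hA : ∀ᵐ x ∂μ, x ∈ A → r ≤ ‖x - y‖) :
    (4 * Real.pi * ρ ^ 2)⁻¹ * ∫ x in A, Real.exp (-‖x - y‖ ^ 2 / (4 * ρ ^ 2)) ∂μ ≤
      C0 * Λ * (8 * ρ ^ 2 / r ^ 2) := by
  have := C0_pos
  have k := tail (x := y) hΛ h (a := 4 * ρ ^ 2) (by positivity) hr.le
    (f := A.indicator fun x => Real.exp (-‖x - y‖ ^ 2 / (4 * ρ ^ 2))) (hA.mono fun x hx => by
      by_cases h : x ∈ A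
      · exact ⟨by simp [h], fun h' => absurd (hx h) h'.not_ge⟩
      · exact ⟨by simp [h, (Real.exp_pos _).le], fun _ => by simp [h]⟩)
  rw [integral_indicator mA, neg_div] at k
  have k2 := exp_le (x := r ^ 2 / (2 * (4 * ρ ^ 2))) (by positivity)
  calc _ ≤ (4 * Real.pi * ρ ^ 2)⁻¹ * ((r ^ 2 / (2 * (4 * ρ ^ 2)))⁻¹ *
        (C0 * Λ * (2 * (4 * ρ ^ 2)))) := by
        gcongr; exact (le_abs_self _).trans (k.trans (by gcongr))
    _ = C0 * Λ * (8 * ρ ^ 2 / r ^ 2) * (2 / Real.pi) := by field_simp; ring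
    _ ≤ _ := mul_le_of_le_one_right (by positivity)
        ((div_le_one Real.pi_pos).2 (by linarith [Real.pi_gt_three]))

theorem small (K : ℝ) {ε : ℝ} (hε : 0 < ε) : ∀ᶠ ρ in 𝓝[>] (0 : ℝ), K * (8 * ρ ^ 2 / r ^ 2) ≤ ε := by
  have : Continuous fun ρ : ℝ => K * (8 * ρ ^ 2 / r ^ 2) := by fun_prop
  exact ((this.tendsto' 0 0 (by simp)).mono_left nhdsWithin_le_nhds).eventually (ge_mem_nhds hε)

theorem chart (hA : AREA) (hF : Fr e L) (hG : S.Gr p e L r r v) (hv : ContDiff ℝ ∞ v)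
    (y : E3) (c : ℝ) : ∫ x in cyl p e L r r, Real.exp (-‖x - y‖ ^ 2 / c) ∂S.μ =
      ∫ z in ball (0 : E 2) r, Real.exp (-‖gX p e L v z - y‖ ^ 2 / c) *
        √(1 + ‖gradient v z‖ ^ 2) ∧ IntegrableOn (fun z => Real.exp (-‖gX p e L v z - y‖ ^ 2 / c) *
        √(1 + ‖gradient v z‖ ^ 2)) (ball (0 : E 2) r) := by
  refine ⟨?_, (ContinuousOn.integrableOn_compact (isCompact_closedBall 0 r)
    (Continuous.continuousOn ?_)).mono_set ball_subset_closedBall⟩
  · rw [Srf.μ, Measure.restrict_restrict (open_cyl hF).measurableSet]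
    exact (hA S p e L r r v hF hG (hv.of_le (by simp)).contDiffOn).2 _ (by fun_prop)
  · have := hv.continuous
    have := (P366W.smooth_gradient hv).continuous
    unfold gX; fun_prop

theorem loc_up (h1 : GRF) (h2 : AREA) (hS : S.Ok) (h : AR Λ S.μ) (p : E3) {ε : ℝ} (hε : 0 < ε) :
    ∃ δ > 0, ∀ᶠ ρ in 𝓝[>] (0 : ℝ), ∀ y ∈ ball p δ, gs S.μ y ρ ≤ 1 + ε := by
  have h' := ar_max h
  have cG : IsClosed S.G := isClosed_eq hS.sw.continuous continuous_const
  by_cases hp : S.w p = 0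
  · obtain ⟨L, hF, v, hv, -, -, r, r0, hσ, hG⟩ := h1 S p _ hS hp (half_pos hε)
    refine ⟨r / 2, half_pos r0, ?_⟩
    filter_upwards [small (r := r / 2) (C0 * max Λ 0) (half_pos hε), self_mem_nhdsWithin]
      with ρ hρ ρ0 y hy
    have ρ0 : 0 < ρ := ρ0
    have m := (open_cyl (p := p) (r := r) (h := r) hF).measurableSet
    obtain ⟨e1, i1⟩ := chart h2 hF (hG r r r0 le_rfl le_rfl) hv y (4 * ρ ^ 2)
    rw [gs, ← integral_add_compl m (intg (le_max_right _ _) h' y (by positivity)), mul_add, e1]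
    have k1 := tail_gs (y := y) (le_max_right _ _) h' ρ0 (half_pos r0) m.compl
      (Eventually.of_forall fun x hx => by
        have : ¬ ‖x - p‖ < r := fun h => hx (ball_cyl hF (mem_ball_iff_norm.2 h))
        have a := mem_ball_iff_norm.1 hy
        linarith [norm_sub_le_norm_sub_add_norm_sub x y p])
    have i2 := (pl_int (c := 4 * ρ ^ 2) (by positivity) (adj L (y - p))).mul_const (1 + ε / 2)
    have k2 := (setIntegral_mono_on i1 i2.integrableOn measurableSet_ball fun z hz => by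
      refine mul_le_mul (Real.exp_le_exp.2 ?_) (Real.sqrt_le_iff.2 ⟨by positivity, ?_⟩)
        (Real.sqrt_nonneg _) (Real.exp_pos _).le
      · rw [gX, nsq hF]
        gcongr
        exact le_add_of_nonneg_right (sq_nonneg _)
      · nlinarith [pow_le_pow_left₀ (norm_nonneg _) (hσ z (mem_ball_zero_iff.1 hz)) 2]).trans
      (setIntegral_le_integral i2 (Eventually.of_forall fun z => by positivity))
    rw [integral_mul_const, pl (by positivity)] at k2
    have k3 := mul_le_mul_of_nonneg_left k2 (show 0 ≤ (4 * Real.pi * ρ ^ 2)⁻¹ by positivity)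
    rw [show (4 * Real.pi * ρ ^ 2)⁻¹ * (Real.pi * (4 * ρ ^ 2) * (1 + ε / 2)) = 1 + ε / 2 by
      field_simp] at k3
    linarith
  · obtain ⟨r, r0, hr⟩ := Metric.isOpen_iff.1 cG.isOpen_compl p hp
    refine ⟨r / 2, half_pos r0, ?_⟩
    filter_upwards [small (r := r / 2) (C0 * max Λ 0) one_pos, self_mem_nhdsWithin]
      with ρ hρ ρ0 y hy
    have k1 := tail_gs (y := y) (le_max_right _ _) h' ρ0 (half_pos r0) MeasurableSet.univ
      ((ae_restrict_mem cG.measurableSet).mono fun x hx _ => by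
        have : ¬ ‖x - p‖ < r := fun h => hr (mem_ball_iff_norm.2 h) hx
        have a := mem_ball_iff_norm.1 hy
        linarith [norm_sub_le_norm_sub_add_norm_sub x y p])
    rw [Measure.restrict_univ] at k1
    exact k1.trans (by linarith)

theorem loc_low (h1 : GRF) (h2 : AREA) (hS : S.Ok) (h : AR Λ S.μ) (hp : S.w p = 0) (σ0 : 0 < σ) :
    ∀ᶠ ρ in 𝓝[>] (0 : ℝ), (1 + σ ^ 2)⁻¹ * (1 - σ) ≤ gs S.μ p ρ := by
  obtain ⟨L, hF, v, hv, v0, -, r, r0, hσ, hG⟩ := h1 S p _ hS hp σ0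
  filter_upwards [small (r := r) 2 σ0, self_mem_nhdsWithin] with ρ hρ ρ0
  have ρ0 : 0 < ρ := ρ0
  obtain ⟨e1, i1⟩ := chart h2 hF (hG r r r0 le_rfl le_rfl) hv p (4 * ρ ^ 2)
  set c := 4 * ρ ^ 2 / (1 + σ ^ 2) with hc
  have c0 : 0 < c := by positivity
  have c1 : c ≤ 4 * ρ ^ 2 := div_le_self (by positivity) (by nlinarith)
  have i2 := pl_int c0 0
  have k1 := setIntegral_le_integral (s := cyl p (S.n p) L r r)
    (intg (le_max_right _ _) (ar_max h) p (a := 4 * ρ ^ 2) (by positivity))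
    (Eventually.of_forall fun z => (Real.exp_pos _).le)
  have k2 := setIntegral_mono_on i2.integrableOn i1 measurableSet_ball fun z hz => by
    refine le_trans (Real.exp_le_exp.2 ?_) (le_mul_of_one_le_right (Real.exp_pos _).le
      (Real.one_le_sqrt.2 (le_add_of_nonneg_right (sq_nonneg _))))
    have := (convex_ball (0 : E 2) r).norm_image_sub_le_of_norm_fderiv_le (C := σ)
      (fun x _ => hv.differentiable (by simp) x) (fun x hx => by
        rw [← norm_gradient]; exact hσ x (mem_ball_zero_iff.1 hx)) (mem_ball_self r0) hz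
    rw [v0, sub_zero, sub_zero, Real.norm_eq_abs] at this
    have h3 := pow_le_pow_left₀ (abs_nonneg _) this 2
    rw [sq_abs] at h3
    rw [gX, nsq hF, hc, div_div_eq_mul_div]
    simp only [sub_self, map_zero, sub_zero, inner_zero_right]
    gcongr
    nlinarith
  have k3 := integral_add_compl (measurableSet_ball (x := (0 : E 2)) (ε := r)) i2
  have i3 := (pl_int (c := 2 * c) (by positivity) 0).const_mul (Real.exp (-r ^ 2 / (2 * c)))
  have k4 := (setIntegral_mono_on i2.integrableOn i3.integrableOn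
    (measurableSet_ball (x := (0 : E 2)) (ε := r)).compl fun z hz =>
      exp_tail c0 r0.le (by simpa using hz)).trans
    (setIntegral_le_integral i3 (Eventually.of_forall fun z => by positivity))
  rw [integral_const_mul, pl (by positivity), neg_div] at k4
  rw [pl c0] at k3
  have k5 : Real.exp (-(r ^ 2 / (2 * c))) ≤ σ / 2 := by
    refine (exp_le (by positivity)).trans ?_
    rw [inv_div]
    calc 2 * c / r ^ 2 ≤ 8 * ρ ^ 2 / r ^ 2 :=
          div_le_div_of_nonneg_right (by linarith) (by positivity)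
      _ ≤ _ := by linarith
  have k6 : Real.pi * c * (1 - σ) ≤ ∫ y, Real.exp (-‖y - p‖ ^ 2 / (4 * ρ ^ 2)) ∂S.μ := by
    nlinarith [mul_le_mul_of_nonneg_right k5 (show 0 ≤ Real.pi * (2 * c) by positivity)]
  refine le_trans (le_of_eq ?_) (mul_le_mul_of_nonneg_left k6 (by positivity))
  rw [hc]; field_simp

end Gs

open Gs in
theorem sml (h1 : GRF) (h2 : AREA) : SML := by
  refine ⟨fun S Λ R hS h ε hε => ?_, fun S Λ y hS h hy => tendsto_order.2 ⟨fun a ha => ?_,
    fun a ha => ?_⟩, fun p e y ρ he hρ => plane he hρ, fun S p e L r h v hF hG hr =>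
      area_low hF hG hr⟩
  · have : ∀ᶠ ρ in 𝓝[>] (0 : ℝ), ∀ y ∈ closedBall (0 : E3) R, gs S.μ y ρ ≤ 1 + ε := by
      refine (isCompact_closedBall (0 : E3) R).induction_on
        (p := fun s => ∀ᶠ ρ in 𝓝[>] (0 : ℝ), ∀ y ∈ s, gs S.μ y ρ ≤ 1 + ε) (by simp)
        (fun s t hst ht => ht.mono fun ρ hρ y hy => hρ y (hst hy))
        (fun s t hs ht => (hs.and ht).mono fun ρ hρ y hy => hy.elim (hρ.1 y) (hρ.2 y))
        fun p _ => ?_
      obtain ⟨δ, δ0, hδ⟩ := loc_up h1 h2 hS h p hε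
      exact ⟨_, mem_nhdsWithin_of_mem_nhds (ball_mem_nhds p δ0), hδ⟩
    obtain ⟨ρ₀, ρ0, hρ⟩ := mem_nhdsGT_iff_exists_Ioc_subset.1 this
    exact ⟨ρ₀, ρ0, fun y ρ hy a b => hρ ⟨a, b⟩ y (mem_closedBall_zero_iff.2 hy)⟩
  · have c : Continuous fun σ : ℝ => (1 + σ ^ 2)⁻¹ * (1 - σ) :=
      (Continuous.inv₀ (by fun_prop) fun σ => by positivity).mul (by fun_prop)
    obtain ⟨σ, hσ, σ0⟩ := ((((c.tendsto' 0 1 (by simp)).mono_left nhdsWithin_le_nhds).eventually
      (lt_mem_nhds ha)).and (self_mem_nhdsWithin (s := Ioi (0 : ℝ)))).exists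
    exact (loc_low h1 h2 hS h hy σ0).mono fun ρ hρ => hσ.trans_le hρ
  · obtain ⟨δ, δ0, hδ⟩ := loc_up h1 h2 hS h y (half_pos (sub_pos.2 ha))
    exact hδ.mono fun ρ hρ => (hρ y (mem_ball_self δ0)).trans_lt (by linarith)

end Vale.Agent.P218R
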