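import Vale.Agent.P218R.Stm
import Vale.Agent.P366W.Graph1

/-!
# P218R: a surface with small tilt is a graph (rows GRC, GRF)
-/

open MeasureTheory Metric Filter Topology Set
open scoped ContDiff ENNReal RealInnerProductSpace
open Vale.Agent.P366.Stmt (E)
open Vale.Agent.P366W (trc dvg Fr)

noncomputable section

namespace Vale.Agent.P218R

namespace Grc

variable {S : Srf} {p e x : E3} {L : E 2 →ₗᵢ[ℝ] E3} {r h σ : ℝ}

theorem exists_fr (he : ‖e‖ = 1) : ∃ L : E 2 →ₗᵢ[ℝ] E3, Fr e L := by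
  have : Fact (Module.finrank ℝ E3 = 2 + 1) := ⟨by simp⟩
  have h0 : e ≠ 0 := by rintro rfl; simp at he
  let b := OrthonormalBasis.fromOrthogonalSpanSingleton (𝕜 := ℝ) 2 h0
  refine ⟨(ℝ ∙ e)ᗮ.subtypeₗᵢ.comp b.repr.symm.toLinearIsometry, he, fun y => ?_⟩
  exact Submodule.mem_orthogonal_singleton_iff_inner_right.1 (b.repr.symm y).2

theorem W_pos (hS : S.Ok) (h0 : S.w x = 0) : 0 < ‖gradient S.w x‖ := norm_pos_iff.2 (hS.reg x h0)

theorem fderiv_eq (hS : S.Ok) (h0 : S.w x = 0) (z : E3) :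
    fderiv ℝ S.w x z = ‖gradient S.w x‖ * ⟪S.n x, z⟫ := by
  rw [(hS.nrm x h0).self_of_nhds, real_inner_smul_left, P366W.inner_grad,
    mul_inv_cancel_left₀ (W_pos hS h0).ne']

theorem norm_n (hS : S.Ok) (h0 : S.w x = 0) : ‖S.n x‖ = 1 := by
  rw [(hS.nrm x h0).self_of_nhds, norm_smul, norm_inv, norm_norm, inv_mul_cancel₀ (W_pos hS h0).ne']

theorem dw (hS : S.Ok) (x : E3) : HasFDerivAt S.w (fderiv ℝ S.w x) x :=
  (hS.sw.differentiable (by simp) x).hasFDerivAt

/-- the signs in the cones above and below a point of the surface -/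
theorem cone (hS : S.Ok) (hL : Fr e L) (h0 : 0 ≤ σ) (hσ : σ ≤ 1 / 4)
    (ht : ∀ x ∈ cyl p e L r h, S.w x = 0 → ‖S.n x - e‖ ≤ σ) {y y' : E 2} {s s' c : ℝ}
    (hy : ‖y‖ < r) (hy' : ‖y'‖ < r) (hs : |s| < h) (hs' : |s'| < h)
    (hw : S.w (p + L y' + s' • e) = 0) (hc : |c| = 1) (k : 2 * σ * ‖y - y'‖ < c * (s - s')) :
    0 < c * S.w (p + L y + s • e) := by
  have e1 : ∀ t : ℝ, p + L y' + s' • e + t • (L (y - y') + (s - s') • e) =
      p + L (y' + t • (y - y')) + (s' + t • (s - s')) • e := fun t => by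
    simp only [map_add, map_smul, smul_eq_mul]
    module
  have h1 := P366W.pos_of_cross (fun t => ((dw hS _).comp_hasDerivAt t
    (((hasDerivAt_id' t).smul_const (L (y - y') + (s - s') • e)).const_add
      (p + L y' + s' • e))).const_mul c) (by simp [hw]) fun t m z => ?_
  · rw [Function.comp, e1] at h1
    simpa only [one_smul, add_sub_cancel] using h1
  have c0 : c ≠ 0 := fun z => by simp [z] at hc
  have z' := (mul_eq_zero.1 z).resolve_left c0
  have h2 := abs_le.1 (hL.tilt (ht _ ⟨_, _, mem_ball_zero_iff.1 ((convex_ball 0 r).add_smul_sub_mem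
    (mem_ball_zero_iff.2 hy') (mem_ball_zero_iff.2 hy) m), mem_ball_zero_iff.1
    ((convex_ball (0 : ℝ) h).add_smul_sub_mem (mem_ball_zero_iff.2 hs') (mem_ball_zero_iff.2 hs) m),
    e1 t⟩ z') (y - y') (s - s'))
  rw [one_smul, fderiv_eq hS z', mul_left_comm]
  refine mul_pos (W_pos hS z') ?_
  have h3 := mul_nonneg h0 (norm_nonneg (y - y'))
  rcases eq_or_eq_neg_of_abs_eq hc with rfl | rfl
  · rw [abs_of_pos (by linarith)] at h2
    nlinarith
  · rw [abs_of_neg (by linarith)] at h2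
    nlinarith

theorem graph (hS : S.Ok) (hL : Fr e L) (hp : S.w p = 0) (h0 : 0 ≤ σ) (hσ : σ ≤ 1 / 4) (hh : 0 < h)
    (hr : 2 * σ * r ≤ h) (ht : ∀ x ∈ cyl p e L r h, S.w x = 0 → ‖S.n x - e‖ ≤ σ) :
    ∃ v : E 2 → ℝ, S.Gr p e L r h v ∧ (∀ y, |v y| ≤ 2 * σ * ‖y‖) ∧
      ∀ y, ‖y‖ < r → ContDiffAt ℝ ∞ v y ∧ ‖gradient v y‖ ≤ 2 * σ := by
  have lt : ∀ y : E 2, ‖y‖ < r → 2 * σ * ‖y‖ < h := fun y hy => by
    rcases h0.eq_or_lt with rfl | k
    · simpa using hh
    · nlinarith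
  have ex : ∀ y : E 2, ∃ s, |s| ≤ 2 * σ * ‖y‖ ∧ (‖y‖ < r → S.w (p + L y + s • e) = 0) := fun y => by
    have n0 : 0 ≤ 2 * σ * ‖y‖ := by positivity
    by_cases hy : ‖y‖ < r
    swap
    · exact ⟨0, by simpa using n0, fun z => (hy z).elim⟩
    have k := fun s (hs : |s| < h) c => cone hS hL h0 hσ ht (y' := 0) (s' := 0) (c := c) hy
      (by simpa using (norm_nonneg y).trans_lt hy) hs (by simpa using hh) (by simpa using hp)
    simp only [sub_zero] at k
    obtain ⟨a, a1, a2⟩ := exists_between (lt y hy)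
    have a0 := n0.trans_lt a1
    have hc : Continuous fun s : ℝ => S.w (p + L y + s • e) := hS.sw.continuous.comp (by fun_prop)
    obtain ⟨s, hs, h5⟩ := intermediate_value_Icc (show -a ≤ a by linarith) hc.continuousOn
      (⟨by linarith [k (-a) (by rwa [abs_neg, abs_of_pos a0]) (-1) (by simp) (by linarith)],
        by linarith [k a (by rwa [abs_of_pos a0]) 1 (by simp) (by linarith)]⟩ : (0 : ℝ) ∈ Icc _ _)
    have := k s ((abs_le.2 hs).trans_lt a2)
    simp only [h5, mul_zero, lt_irrefl, imp_false, not_lt] at this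
    exact ⟨s, abs_le.2 ⟨by linarith [this (-1) (by simp)], by linarith [this 1 (by simp)]⟩,
      fun _ => h5⟩
  choose v v1 v2 using ex
  have v3 := fun y hy => (v1 y).trans_lt (lt y hy)
  have key := fun y y' s c (h1 : ‖y‖ < r) (h2 : ‖y'‖ < r) (h3 : |s| < h) =>
    cone hS hL h0 hσ ht (c := c) h1 h2 h3 (v3 y' h2) (v2 y' h2)
  have hl : ∀ y y', ‖y‖ < r → ‖y'‖ < r → |v y - v y'| ≤ 2 * σ * ‖y - y'‖ := fun y y' h1 h2 => by
    have := fun c => key y y' _ c h1 h2 (v3 y h1)
    simp only [v2 y h1, mul_zero, lt_irrefl, imp_false, not_lt] at this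
    exact abs_le.2 ⟨by linarith [this (-1) (by simp)], by linarith [this 1 (by simp)]⟩
  refine ⟨v, fun y h1 => ⟨v3 y h1, fun s h2 => ?_⟩, v1, fun y hy => ?_⟩
  · have h3 := fun c => key y y s c h1 h1 h2
    simp only [sub_self, norm_zero, mul_zero] at h3
    rcases lt_trichotomy s (v y) with h4 | rfl | h4
    · have := h3 (-1) (by simp) (by linarith)
      exact ⟨iff_of_true (by linarith) h4, iff_of_false (by linarith [show _ ≠ _ from this.ne']) h4.ne⟩
    · exact ⟨iff_of_false (v2 y h1).not_lt (lt_irrefl _), iff_of_true (v2 y h1) rfl⟩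
    · have := h3 1 (by simp) (by linarith)
      rw [one_mul] at this
      exact ⟨iff_of_false this.not_gt h4.not_gt, iff_of_false this.ne' h4.ne'⟩
  have hev : ∀ᶠ z in 𝓝 y, ‖z‖ < r := continuous_norm.continuousAt.eventually (gt_mem_nhds hy)
  refine ⟨?_, (P366W.norm_gradient v y).trans_le
    (norm_fderiv_le_of_lip' ℝ (by positivity) (hev.mono fun z hz => hl z y hz hy))⟩
  have hF : ContDiffAt ℝ ∞ (fun z : E 2 × ℝ => S.w (p + L z.1 + z.2 • e)) (y, v y) :=
    (hS.sw.comp ((contDiff_const.add (L.contDiff.comp contDiff_fst)).add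
      (contDiff_snd.smul contDiff_const))).contDiffAt
  have hd : HasFDerivAt (fun z : E 2 × ℝ => p + L z.1 + z.2 • e)
      (L.toContinuousLinearMap ∘L .fst ℝ _ _ + (ContinuousLinearMap.snd ℝ _ _).smulRight e)
      (y, v y) := ((L.toContinuousLinearMap.hasFDerivAt.comp _ hasFDerivAt_fst).const_add p).add
        (hasFDerivAt_snd.smul_const e)
  have hi : (fderiv ℝ (fun z : E 2 × ℝ => S.w (p + L z.1 + z.2 • e)) (y, v y) ∘L
      .inr ℝ (E 2) ℝ).IsInvertible := by
    have h1 := (abs_le.1 (hL.tilt (ht _ ⟨_, _, hy, v3 y hy, rfl⟩ (v2 y hy)) 0 1)).1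
    simp only [map_zero, one_smul, zero_add, norm_zero, abs_one, mul_one] at h1
    refine ⟨ContinuousLinearEquiv.unitsEquivAut ℝ (Units.mk0 (‖gradient S.w (p + L y + v y • e)‖ *
      ⟪S.n (p + L y + v y • e), e⟫) (mul_pos (W_pos hS (v2 y hy)) (by linarith)).ne'), ?_⟩
    erw [((dw hS _).comp _ hd).fderiv]
    ext
    simp [fderiv_eq hS (v2 y hy)]
  have hc : Tendsto (fun z => (z, v z)) (𝓝 y) (𝓝 (y, v y)) := by
    refine tendsto_id.prodMk_nhds (tendsto_iff_norm_sub_tendsto_zero.2 ?_)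
    refine squeeze_zero' (Eventually.of_forall fun _ => norm_nonneg _)
      (hev.mono fun z hz => hl z y hz hy) ?_
    have : Continuous fun z : E 2 => 2 * σ * ‖z - y‖ := by fun_prop
    simpa using this.tendsto y
  refine (hF.contDiffAt_implicitFunction (by simp) hi).congr_of_eventuallyEq ?_
  filter_upwards [hc.eventually (hF.eventually_apply_eq_iff_implicitFunction (by simp) hi), hev]
    with z h1 h2
  exact (h1.1 (by simp only [v2 z h2, v2 y hy])).symm

end Grc

open Grc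

theorem grc : GRC := fun _ _ _ _ _ _ _ hS hL hp h0 hσ hh hr ht => by
  obtain ⟨v, h1, h2, h3⟩ := graph hS hL hp h0 hσ hh hr ht
  exact ⟨v, fun y hy => (h3 y (mem_ball_zero_iff.1 hy)).1.contDiffWithinAt, h1,
    by simpa using h2 0, fun y hy => (h3 y hy).2⟩

theorem grf : GRF := fun S p σ hS hp hσ => by
  obtain ⟨L, hL⟩ := exists_fr (norm_n hS hp)
  obtain ⟨τ, t0, t1, t2⟩ : ∃ τ : ℝ, 0 < τ ∧ 2 * τ ≤ σ ∧ τ ≤ 1 / 4 :=
    ⟨min (σ / 2) (1 / 4), by positivity, by linarith [min_le_left (σ / 2) (1 / 4)], min_le_right _ _⟩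
  obtain ⟨δ, d0, hd⟩ := continuousAt_iff.1 (hS.sn.continuous.continuousAt (x := p)) τ t0
  obtain ⟨u, h1, h2, h3⟩ := graph (r := δ / 2) (h := δ / 2) hS hL hp t0.le t2 (by positivity)
    (by nlinarith) fun x ⟨y, s, hy, hs, e⟩ _ => ((dist_eq_norm _ _).symm.trans_lt (hd (by
      have := mem_ball.1 (hL.mem_ball (p := p) hy hs.le)
      rw [e]
      linarith))).le
  let b : ContDiffBump (0 : E 2) := ⟨δ / 8, δ / 4, by positivity, by linarith⟩
  have ev : ∀ y : E 2, ‖y‖ < δ / 8 → (fun y => b y * u y) =ᶠ[𝓝 y] u := fun y hy =>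
    (b.eventuallyEq_one_of_mem_ball (mem_ball_zero_iff.2 hy)).mono fun z hz => by simp [hz]
  have u0 : u 0 = 0 := by simpa using h2 0
  have z0 : ‖(0 : E 2)‖ < δ / 8 := by simpa using d0
  refine ⟨L, hL, fun y => b y * u y, contDiff_iff_contDiffAt.2 fun y => ?_, by simp [u0], ?_, δ / 8,
    by positivity, fun y hy => ?_, fun r h r0 rh hh y hy => ?_⟩
  · by_cases hy : ‖y‖ < δ / 2
    · exact b.contDiff.contDiffAt.mul (h3 y hy).1
    · have : y ∉ tsupport b := fun z => by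
        rw [b.tsupport_eq, mem_closedBall_zero_iff] at z
        exact hy (z.trans_lt (by show δ / 4 < δ / 2; linarith))
      exact (contDiffAt_const (c := 0)).congr_of_eventuallyEq
        ((notMem_tsupport_iff_eventuallyEq.1 this).mono fun z hz => by simp [hz])
  · have k := ((h3 0 (by linarith)).1.differentiableAt (by simp)).hasFDerivAt
    have k1 := (dw hS _).comp 0
      ((L.toContinuousLinearMap.hasFDerivAt.const_add p).fun_add (k.smul_const (S.n p)))
    have k2 := k1.unique ((hasFDerivAt_const (0 : ℝ) 0).congr_of_eventuallyEq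
      ((continuous_norm.continuousAt.eventually (gt_mem_nhds (by linarith : ‖(0 : E 2)‖ < δ / 2))).mono
        fun z hz => ((h1 z hz).2 _ (h1 z hz).1).2.2 rfl))
    rw [(ev 0 z0).gradient_eq, gradient, LinearIsometryEquiv.map_eq_zero_iff]
    ext a
    have k3 := DFunLike.congr_fun k2 a
    simp only [u0, map_zero, add_zero, zero_smul, ContinuousLinearMap.comp_apply, fderiv_eq hS hp,
      add_apply, ContinuousLinearMap.smulRight_apply,
      LinearIsometry.coe_toContinuousLinearMap, hL.e_pt, zero_apply] at k3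
    exact (mul_eq_zero.1 k3).resolve_left (W_pos hS hp).ne'
  · rw [(ev y hy).gradient_eq]
    exact (h3 y (by linarith)).2.trans t1
  · rw [(ev y (by linarith)).self_of_nhds]
    exact ⟨by nlinarith [h2 y, norm_nonneg y], fun s hs => (h1 y (by linarith)).2 s (by linarith)⟩

end Vale.Agent.P218R
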