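import Vale.Agent.P218R.Stm
import Vale.Agent.P366W.Gdiv
import Vale.Agent.P218B.Jac

/-!
# P218R: normal, shape operator and area of a graph
-/

open MeasureTheory Metric Filter Topology Set
open scoped ContDiff ENNReal RealInnerProductSpace
open Vale.Agent.P366.Stmt (E)
open Vale.Agent.P366W (trc dvg Fr adj inner_adj adj_L inner_grad trc_eq_trace trc_smul trc_sub
  trc_smulRight)

noncomputable section

namespace Vale.Agent.P218R

namespace Grn

variable {S : Srf} {p e : E3} {L : E 2 →ₗᵢ[ℝ] E3} {r h : ℝ} {v : E 2 → ℝ} {y : E 2}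

/-- the differential of the graph map -/
def dX (e : E3) (L : E 2 →ₗᵢ[ℝ] E3) (g : E 2) : E 2 →L[ℝ] E3 :=
  L.toContinuousLinearMap + (innerSL ℝ g).smulRight e

theorem dX_apply (g a : E 2) : dX e L g a = L a + ⟪g, a⟫ • e := rfl

theorem fderiv_eq_inner (v : E 2 → ℝ) (y : E 2) : fderiv ℝ v y = innerSL ℝ (gradient v y) := by
  ext1 a
  rw [innerSL_apply_apply, inner_grad]

theorem hasFDerivAt_gX (hv : DifferentiableAt ℝ v y) :
    HasFDerivAt (gX p e L v) (dX e L (gradient v y)) y := by
  have := (L.toContinuousLinearMap.hasFDerivAt.const_add p).add (hv.hasFDerivAt.smul_const e)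
  rw [fderiv_eq_inner] at this
  exact this

theorem hasStrictFDerivAt_gX (hv : ContDiffAt ℝ 1 v y) :
    HasStrictFDerivAt (gX p e L v) (dX e L (gradient v y)) y := by
  have := (L.toContinuousLinearMap.hasStrictFDerivAt.const_add p).add
    ((hv.hasStrictFDerivAt one_ne_zero).smul_const e)
  rw [fderiv_eq_inner] at this
  exact this

theorem adj_gX (hF : Fr e L) (y : E 2) : adj L (gX p e L v y - p) = y := by
  rw [gX, add_assoc, add_sub_cancel_left, hF.adj_pt]

theorem gX_inj (hF : Fr e L) : Function.Injective (gX p e L v) := fun a b hab => by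
  rw [← adj_gX (p := p) (v := v) hF a, hab, adj_gX hF]

theorem nrm_sq (hF : Fr e L) (g : E 2) : ‖e - L g‖ ^ 2 = 1 + ‖g‖ ^ 2 := by
  have := hF.norm_sq (-g) 1
  rw [map_neg, one_smul, norm_neg, neg_add_eq_sub] at this
  rw [this]; ring

theorem nrm_eq (hF : Fr e L) (g : E 2) : ‖e - L g‖ = √(1 + ‖g‖ ^ 2) := by
  rw [← nrm_sq hF, Real.sqrt_sq (norm_nonneg _)]

theorem nrm_dX (hF : Fr e L) (g a : E 2) : ⟪e - L g, dX e L g a⟫ = 0 := by
  rw [dX_apply, inner_sub_left, hF.e_pt, ← inner_adj, hF.adj_pt, sub_self]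

theorem zero (hG : S.Gr p e L r h v) (hy : ‖y‖ < r) : S.w (gX p e L v y) = 0 :=
  ((hG y hy).2 _ (hG y hy).1).2.2 rfl

theorem cyl_inter (hG : S.Gr p e L r h v) : cyl p e L r h ∩ S.G = gX p e L v '' ball 0 r := by
  ext x
  constructor
  · rintro ⟨⟨y, s, h1, h2, rfl⟩, h3⟩
    refine ⟨y, mem_ball_zero_iff.2 h1, ?_⟩
    rw [((hG y h1).2 s h2).2.1 h3, gX]
  · rintro ⟨y, h1, rfl⟩
    rw [mem_ball_zero_iff] at h1
    exact ⟨⟨y, v y, h1, (hG y h1).1, rfl⟩, zero hG h1⟩

/-- the normal of a graph -/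
theorem n_eq (hG : S.Gr p e L r h v) (hS : S.Ok) (hF : Fr e L) (hy : ‖y‖ < r)
    (hv : DifferentiableAt ℝ v y) :
    S.n (gX p e L v y) = (√(1 + ‖gradient v y‖ ^ 2))⁻¹ • (e - L (gradient v y)) := by
  set x := gX p e L v y with hx
  have hw : DifferentiableAt ℝ S.w x := hS.sw.differentiable (by simp) x
  have h1 : (fun y' => S.w (gX p e L v y')) =ᶠ[𝓝 y] fun _ => 0 := by
    filter_upwards [continuous_norm.continuousAt.eventually (gt_mem_nhds hy)] with z h1
    exact zero hG h1
  have h2 := (hw.hasFDerivAt.comp y (hasFDerivAt_gX hv)).unique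
    ((hasFDerivAt_const (0 : ℝ) y).congr_of_eventuallyEq h1)
  set l := ⟪gradient S.w x, e⟫ with hl
  have h3 : gradient S.w x = l • (e - L (gradient v y)) := by
    refine ext_inner_right ℝ fun u => ?_
    have h5 := congrArg (fun M => M (adj L u)) h2
    simp only [ContinuousLinearMap.comp_apply, dX_apply, map_add, map_smul, zero_apply,
      ← inner_grad, smul_eq_mul] at h5
    conv_lhs => rw [← hF.dec u]
    rw [inner_add_right, real_inner_smul_right, real_inner_smul_left, inner_sub_left, ← inner_adj]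
    rw [← hl] at h5 ⊢
    linarith
  have h0 : S.w x = 0 := zero hG hy
  have hl0 : 0 < l := by
    have h5 : HasDerivAt (fun s : ℝ => S.w (p + L y + s • e)) l (v y) := by
      have h6 : HasDerivAt (fun s : ℝ => p + L y + s • e) e (v y) := by
        simpa using ((hasDerivAt_id (v y)).smul_const e).const_add (p + L y)
      rw [hl, inner_grad]
      exact hw.hasFDerivAt.comp_hasDerivAt (v y) h6
    have h7 : l ≠ 0 := fun h0' => hS.reg x h0 (by rw [h3, h0', zero_smul])
    refine lt_of_le_of_ne ?_ h7.symm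
    refine ge_of_tendsto (h5.tendsto_slope.mono_left (nhdsLT_le_nhdsNE _)) ?_
    filter_upwards [self_mem_nhdsWithin, nhdsWithin_le_nhds
      (continuous_abs.continuousAt.eventually (gt_mem_nhds (hG y hy).1))] with s hs1 hs2
    rw [slope_def_field, show S.w (p + L y + v y • e) = 0 from h0, sub_zero]
    exact div_nonneg_of_nonpos (((hG y hy).2 s hs2).1.2 hs1).le (sub_neg.2 hs1).le
  rw [(hS.nrm x h0).self_of_nhds, h3, norm_smul, nrm_eq hF, smul_smul, Real.norm_eq_abs,
    abs_of_pos hl0]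
  congr 1
  have : 0 < √(1 + ‖gradient v y‖ ^ 2) := by positivity
  field_simp

theorem trc_comm' (M : E 2 →L[ℝ] E3) (N : E3 →L[ℝ] E 2) : trc (M ∘L N) = trc (N ∘L M) := by
  rw [trc_eq_trace, trc_eq_trace, ContinuousLinearMap.toLinearMap_comp,
    ContinuousLinearMap.toLinearMap_comp, LinearMap.trace_comp_comm']

/-- the derivative of the normal along a graph -/
theorem dn_eq (hG : S.Gr p e L r h v) (hS : S.Ok) (hF : Fr e L) (hy : ‖y‖ < r)
    (hv : ContDiffAt ℝ 2 v y) : ∃ c : E 2 →L[ℝ] ℝ, ∀ a,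
      fderiv ℝ S.n (gX p e L v y) (dX e L (gradient v y) a) =
        -(√(1 + ‖gradient v y‖ ^ 2))⁻¹ • L (fderiv ℝ (gradient v) y a) +
          c a • (e - L (gradient v y)) := by
  have hn : DifferentiableAt ℝ S.n (gX p e L v y) := hS.sn.differentiable (by simp) _
  have hd : DifferentiableAt ℝ (gradient v) y := by
    have h1 : DifferentiableAt ℝ (fderiv ℝ v) y :=
      (hv.fderiv_right (m := 1) le_rfl).differentiableAt one_ne_zero
    exact (InnerProductSpace.toDual ℝ (E 2)).symm.toContinuousLinearEquiv.differentiableAt.comp y h1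
  have h1 : (fun z => S.n (gX p e L v z)) =ᶠ[𝓝 y]
      fun z => (√(1 + ‖gradient v z‖ ^ 2))⁻¹ • (e - L (gradient v z)) := by
    filter_upwards [continuous_norm.continuousAt.eventually (gt_mem_nhds hy),
      hv.eventually (by simp)] with z h1 h2
    exact n_eq hG hS hF h1 (h2.differentiableAt (by simp))
  have h2 : DifferentiableAt ℝ (fun z => (√(1 + ‖gradient v z‖ ^ 2))⁻¹) y :=
    (((hd.norm_sq ℝ).const_add 1).sqrt (by positivity)).inv (by positivity)
  have h3 := h2.hasFDerivAt.smul
    ((L.toContinuousLinearMap.hasFDerivAt.comp y hd.hasFDerivAt).const_sub e)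
  have h4 := (hn.hasFDerivAt.comp y (hasFDerivAt_gX (hv.differentiableAt (by simp)))).unique
    (h3.congr_of_eventuallyEq h1)
  refine ⟨fderiv ℝ (fun z => (√(1 + ‖gradient v z‖ ^ 2))⁻¹) y, fun a => ?_⟩
  have h5 := congrArg (fun M => M a) h4
  simpa using h5

theorem P_app (S : Srf) (x u : E3) : S.P x u = u - ⟪S.n x, u⟫ • S.n x := rfl

theorem jac_dX (hF : Fr e L) (g : E 2) : P218B.jacT (dX e L g) ⊤ = √(1 + ‖g‖ ^ 2) := by
  set B := dX e L g
  have h1 : P218B.jacT B ⊤ = B.toLinearMap.normDet := by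
    rw [P218B.jacT, LinearMap.normDet_comp_of_finrank_eq _ _ (finrank_top ℝ _),
      LinearMap.normDet_subtype, mul_one]
  have h2 : B.toLinearMap.normDet ^ 2 = _ :=
    B.toLinearMap.normDet_sq_eq_det_gram (EuclideanSpace.basisFun (Fin 2) ℝ)
  have h3 : ∀ a b, ⟪B.toLinearMap a, B.toLinearMap b⟫ = ⟪a, b⟫ + ⟪g, a⟫ * ⟪g, b⟫ := fun a b => by
    change ⟪L a + ⟪g, a⟫ • e, L b + ⟪g, b⟫ • e⟫ = _
    rw [inner_add_left, real_inner_smul_left, hF.e_pt, ← inner_adj, hF.adj_pt]
  rw [Matrix.det_fin_two] at h2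
  simp only [Matrix.gram_apply, h3] at h2
  rw [h1, ← Real.sqrt_sq B.toLinearMap.normDet_nonneg, h2, EuclideanSpace.real_norm_sq_eq]
  congr 1
  simp [EuclideanSpace.inner_single_right]
  ring

theorem imm_gX (hF : Fr e L) (hv : ContDiffOn ℝ 1 v (ball 0 r)) :
    P218B.Imm 2 (ball 0 r) (fun _ => ⊤) (gX p e L v) fun y => dX e L (gradient v y) := by
  have h1 : ContinuousOn (gradient v) (ball 0 r) :=
    (InnerProductSpace.toDual ℝ (E 2)).symm.continuous.comp_continuousOn
      (hv.continuousOn_fderiv_of_isOpen isOpen_ball le_rfl)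
  have := P218B.imm_top (S := ball 0 r) (Ψ := gX p e L v) (A := fun y => dX e L (gradient v y))
    (fun y hy => hasStrictFDerivAt_gX (hv.contDiffAt (isOpen_ball.mem_nhds hy)))
    (fun y _ a ha => by rw [← hF.adj_pt a ⟪gradient v y, a⟫, ← dX_apply, ha, map_zero])
    (continuousOn_const.add ((((ContinuousLinearMap.smulRightL ℝ (E 2) E3).continuous.comp
      (innerSL ℝ).continuous).comp_continuousOn h1).clm_apply continuousOn_const))
  rwa [finrank_euclideanSpace_fin] at this

end Grn

open Grn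

theorem grn : GRN := by
  intro S p e L r h v y hS hF hG hy hv
  have h1 := n_eq hG hS hF hy (hv.differentiableAt (by simp))
  obtain ⟨c, hc⟩ := dn_eq hG hS hF hy hv
  set x := gX p e L v y
  set g := gradient v y
  set D := fderiv ℝ (gradient v) y
  set W := √(1 + ‖g‖ ^ 2) with hW
  have W0 : 0 < W := by positivity
  have W2 : W ^ 2 = 1 + ‖g‖ ^ 2 := Real.sq_sqrt (by positivity)
  have hP : ∀ a, S.P x (dX e L g a) = dX e L g a := fun a => by
    rw [P_app, h1, real_inner_smul_left, nrm_dX hF, mul_zero, zero_smul, sub_zero]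
  refine ⟨h1, fun a b => ?_, ?_⟩
  · rw [← dX_apply, ← dX_apply, Srf.A, ContinuousLinearMap.comp_apply, hP, hc, inner_add_left,
      real_inner_smul_left, real_inner_smul_left, nrm_dX hF, mul_zero, add_zero, ← inner_adj,
      dX_apply, hF.adj_pt]
  · have hN : ⟪e - L g, e - L g⟫ = W ^ 2 := by rw [real_inner_self_eq_norm_sq, nrm_eq hF]
    have h2 : ∀ u, dX e L g (adj L (S.P x u)) = S.P x u := fun u => by
      have h3 : ⟪e - L g, S.P x u⟫ = 0 := by
        rw [P_app, h1, inner_sub_right, real_inner_smul_right, real_inner_smul_right,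
          real_inner_smul_left, hN]
        field_simp
        ring
      rw [inner_sub_left, ← inner_adj, sub_eq_zero] at h3
      rw [dX_apply, ← h3, hF.dec]
    have h3 : S.A x = (fderiv ℝ S.n x ∘L dX e L g) ∘L (adj L ∘L S.P x) := by
      ext1 u
      simp only [Srf.A, ContinuousLinearMap.comp_apply, h2]
    have h4 : (adj L ∘L S.P x) ∘L (fderiv ℝ S.n x ∘L dX e L g) =
        -W⁻¹ • (D - (W ^ 2)⁻¹ • (innerSL ℝ g ∘L D).smulRight g) := by
      ext1 a
      have k1 : S.P x (e - L g) = 0 := by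
        rw [P_app, h1, real_inner_smul_left, hN, smul_smul]
        have : W⁻¹ * W ^ 2 * W⁻¹ = 1 := by field_simp
        rw [this, one_smul, sub_self]
      have k2 : ∀ b, adj L (S.P x (L b)) = b - (W ^ 2)⁻¹ • ⟪g, b⟫ • g := fun b => by
        rw [P_app, h1, real_inner_smul_left, inner_sub_left, hF.ort, L.inner_map_map]
        simp only [map_sub, map_smul, adj_L, hF.adj_e, smul_smul, zero_sub, smul_neg]
        rw [← neg_smul]
        congr 2
        field_simp
      simp only [ContinuousLinearMap.comp_apply, hc, map_add, map_smul, k1, k2, map_zero, smul_zero,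
        add_zero]
      simp
    rw [Srf.H, h3, trc_comm', h4, trc_smul, trc_sub, trc_smul, trc_smulRight, W2,
      real_inner_comm g, div_eq_inv_mul]
    rfl

theorem area : AREA := by
  intro S p e L r h v hF hG hv
  have hi := imm_gX (p := p) hF hv
  rw [cyl_inter hG, ← EuclideanSpace.euclideanHausdorffMeasure_eq_volume 2, H2,
    Measure.euclideanHausdorffMeasure_def, Measure.euclideanHausdorffMeasure_def,
    Measure.restrict_smul, Measure.restrict_smul]
  refine ⟨fun f hf => ?_, fun f hf => ?_⟩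
  · rw [lintegral_smul_measure, lintegral_smul_measure,
      hi.lintegral_eq measurableSet_ball Subset.rfl (gX_inj hF).injOn hf]
    simp only [jac_dX hF]
  · rw [integral_smul_nnreal_measure, integral_smul_nnreal_measure,
      hi.integral_eq measurableSet_ball Subset.rfl (gX_inj hF).injOn hf.aestronglyMeasurable]
    simp only [jac_dX hF, smul_eq_mul, mul_comm]

end Vale.Agent.P218R
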