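import Vale.Agent.P366W.Basic

/-!
# P218R: graphical mean curvature flow in the plane; the statement of the interior estimates
-/

open Metric Filter Topology Set
open scoped ContDiff
open Vale.Agent.P366.Stmt (E)

noncomputable section

namespace Vale.Agent.P218R

/-- space-time over the plane -/
abbrev Z2 := ℝ × E 2

/-- the derivative in the direction `ξ` -/
def dd (ξ : Z2) (f : Z2 → ℝ) (z : Z2) : ℝ := fderiv ℝ f z ξ

/-- the spatial derivatives -/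
def dx (i : Fin 2) (f : Z2 → ℝ) : Z2 → ℝ := dd (0, EuclideanSpace.single i 1) f

/-- the time derivative -/
def dT (f : Z2 → ℝ) : Z2 → ℝ := dd (1, 0) f

/-- the spatial gradient -/
def gx (f : Z2 → ℝ) (z : Z2) : E 2 := WithLp.toLp 2 fun i => dx i f z

/-- the inverse of the metric of the graph of `v` -/
def ga (v : Z2 → ℝ) (i j : Fin 2) (z : Z2) : ℝ :=
  (if i = j then 1 else 0) - dx i v z * dx j v z * (1 + ∑ k, dx k v z ^ 2)⁻¹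

/-- the heat operator of the graph of `v` -/
def ht (v f : Z2 → ℝ) (z : Z2) : ℝ := dT f z - ∑ i, ∑ j, ga v i j z * dx i (dx j f) z

/-- a graphical mean curvature flow on `(t₁, t₂) × B_r` with slope at most `σ` -/
structure Sol (v : Z2 → ℝ) (t₁ t₂ r σ : ℝ) : Prop where
  sm : ContDiffOn ℝ ∞ v (Ioo t₁ t₂ ×ˢ ball 0 r)
  gr : ∀ z ∈ Ioo t₁ t₂ ×ˢ ball (0 : E 2) r, ∑ k, dx k v z ^ 2 ≤ σ ^ 2
  eq : ∀ z ∈ Ioo t₁ t₂ ×ˢ ball (0 : E 2) r, ht v v z = 0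

/-- **BERN**: interior estimates of all orders -/
def BERN : Prop := ∃ σ > (0 : ℝ), ∃ C : ℕ → ℝ, (∀ k, 0 ≤ C k) ∧ ∀ (v : Z2 → ℝ) (t₁ t₂ r : ℝ), 0 < r →
  Sol v t₁ t₂ r σ → (∀ t ∈ Ico (t₁ + r ^ 2) t₂, ∀ y : E 2, ‖y‖ < r / 2 → ∀ k, 1 ≤ k →
    ‖iteratedFDeriv ℝ k (fun y => v (t, y)) y‖ ≤ C k * r / r ^ k) ∧
  ∀ t ∈ Ico (t₁ + r ^ 2) t₂, ∀ s ∈ Ico (t₁ + r ^ 2) t₂, ∀ y y' : E 2, ‖y‖ < r / 2 → ‖y'‖ < r / 2 →
    |v (t, y) - v (s, y)| ≤ C 0 * |t - s| / r ∧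
    ‖gx v (t, y) - gx v (s, y')‖ ≤ C 0 * (‖y - y'‖ / r + |t - s| / r ^ 2)

end Vale.Agent.P218R
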