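import Vale.Agent.P218R.Defs
import Vale.Agent.P218R.WDefs

/-!
# P218R: the steps of the proof of White's theorem
-/

open MeasureTheory Metric Filter Topology Set
open scoped ContDiff ENNReal RealInnerProductSpace
open Vale.Agent.P366.Stmt (E)
open Vale.Agent.P366W (trc dvg Fr)

noncomputable section

namespace Vale.Agent.P218R

/-- the tilt with respect to the normal at `(s, y)` is at most `σ` in the backward cylinder -/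
def Flw.TL (F : Flw) (s : ℝ) (y : E3) (ρ σ : ℝ) : Prop :=
  ∀ t ∈ Ioc (s - ρ ^ 2) s, ∀ z ∈ ball y ρ, F.u (t, z) = 0 → ‖F.n (t, z) - F.n (s, y)‖ ≤ σ

/-- **FGR**: a flow with small tilt is a graphical flow -/
def FGR : Prop := ∀ (F : Flw) (a b t₁ t₂ ρ σ : ℝ) (p e : E3) (L : E 2 →ₗᵢ[ℝ] E3), F.Ok a b →
  Fr e L → a ≤ t₁ → t₂ ≤ b → 0 < ρ → σ ≤ 1 / 8 →
  (∀ t ∈ Ioo t₁ t₂, (∃ q ∈ ball p (ρ / 8), F.u (t, q) = 0) ∧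
    ∀ q ∈ ball p (3 * ρ), F.u (t, q) = 0 → ‖F.n (t, q) - e‖ ≤ σ) →
  ∃ v : Z2 → ℝ, Sol v t₁ t₂ ρ (2 * σ) ∧ ∀ t ∈ Ioo t₁ t₂,
    (F.sl t).Gr p e L ρ ρ (fun y => v (t, y)) ∧ ∀ y, ‖y‖ < ρ →
      F.n (t, p + L y + v (t, y) • e) = (√(1 + ‖gx v (t, y)‖ ^ 2))⁻¹ • (e - L (gx v (t, y)))

/-- **LD**: the lower density bound -/
def LD : Prop := ∀ (F : Flw) (a b Λ s t : ℝ) (y : E3), F.OkA a b Λ → a < t → t < s → s < b →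
  F.u (s, y) = 0 → 1 ≤ gs (F.μ t) y √(s - t)

/-- **PT**: ancestors, and the use of two centres -/
def PT : Prop := ∀ Λ : ℝ, ∃ R ≥ (1 : ℝ),
  (∀ (F : Flw) (a b s t : ℝ) (y : E3), F.OkA a b Λ → a < t → t < s → s < b → F.u (s, y) = 0 →
    ∃ z, F.u (t, z) = 0 ∧ ‖z - y‖ ≤ R * √(s - t)) ∧
  ∀ K δ η : ℝ, 0 < δ → 0 < η → ∃ ε > (0 : ℝ), ∀ (F : Flw) (a b s s' t₀ ρ : ℝ) (y₁ y₂ y : E3),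
    F.OkA a b Λ → 0 < ρ → a < t₀ → t₀ ≤ s' - 2 * (δ * ρ) ^ 2 → s' ≤ s → s ≤ s' + (K * ρ) ^ 2 →
    s < b → F.u (s, y₁) = 0 → F.u (s, y₂) = 0 → F.u (s', y) = 0 → ‖y₁ - y‖ ≤ K * ρ →
    ‖y₂ - y‖ ≤ K * ρ → gs (F.μ t₀) y₁ √(s - t₀) ≤ 1 + ε → gs (F.μ t₀) y₂ √(s - t₀) ≤ 1 + ε →
    ∃ t ∈ Ioo (s' - 2 * (δ * ρ) ^ 2) (s' - (δ * ρ) ^ 2), ∃ z, F.u (t, z) = 0 ∧
      ‖z - y‖ ≤ 2 * R * δ * ρ ∧ |⟪y₁ - y₂, F.n (t, z)⟫| ≤ η * ρ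

/-- **WLOC**: small tilt gives a graph over the tangent plane with all bounds -/
def WLOC : Prop := ∃ σ > (0 : ℝ), σ ≤ 1 / 16 ∧ ∀ Λ : ℝ, ∃ c > (0 : ℝ), c ≤ 1 / 4 ∧ ∃ C : ℕ → ℝ,
  (∀ k, 0 ≤ C k) ∧ ∀ (F : Flw) (a b s ρ : ℝ) (y : E3), F.OkA a b Λ → 0 < ρ → a ≤ s - ρ ^ 2 →
    s < b → F.u (s, y) = 0 → F.TL s y ρ σ → ∃ L, Fr (F.n (s, y)) L ∧ ∃ v : Z2 → ℝ,
      ∀ t ∈ Ioc (s - (c * ρ) ^ 2) s, ContDiffOn ℝ ∞ (fun x => v (t, x)) (ball 0 (c * ρ)) ∧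
        (F.sl t).Gr y (F.n (s, y)) L (c * ρ) (c * ρ) (fun x => v (t, x)) ∧
        (∀ x, ‖x‖ < c * ρ → |v (t, x)| ≤ C 0 * (‖x‖ ^ 2 + (s - t)) / ρ ∧
          ‖fderiv ℝ (fun x => v (t, x)) x‖ ≤ C 0 * (‖x‖ / ρ + (s - t) / ρ ^ 2) ∧
          ∀ k, 1 ≤ k → ‖iteratedFDeriv ℝ k (fun x => v (t, x)) x‖ ≤ C k * ρ / ρ ^ k) ∧
        ∀ z ∈ ball y (c * ρ), F.u (t, z) = 0 →
          ‖F.n (t, z) - F.n (s, y)‖ ≤ C 0 * (‖z - y‖ / ρ + (s - t) / ρ ^ 2)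

/-- **KEY**: improvement of the tilt scale -/
def KEY (σ : ℝ) : Prop := ∀ Λ : ℝ, ∃ K ≥ (2 : ℝ), ∃ ε > (0 : ℝ),
  ∀ (F : Flw) (a b s t₀ ρ : ℝ) (y : E3), F.OkA a b Λ → 0 < ρ → a < t₀ → t₀ ≤ s - 5 * ρ ^ 2 →
    s < b → F.u (s, y) = 0 →
    (∀ t ∈ Ioc (s - 4 * ρ ^ 2) s, ∀ z ∈ ball y (K * ρ), F.u (t, z) = 0 →
      gs (F.μ t₀) z √(t - t₀) ≤ 1 + ε ∧ F.TL t z (ρ / 2) σ) → F.TL s y (2 * ρ) σ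

end Vale.Agent.P218R
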