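import Vale.Agent.P218R.Base
import Vale.Agent.P218R.Grc
import Vale.Agent.P218R.Grn
import Vale.Agent.P218R.WSpec

/-!
# P218R: a flow with small tilt is a graphical flow
-/

open MeasureTheory Metric Filter Topology Set
open scoped ContDiff ENNReal RealInnerProductSpace
open Vale.Agent.P366.Stmt (E)
open Vale.Agent.P366W (trc dvg Fr adj)

noncomputable section

namespace Vale.Agent.P218R

namespace Fgr

variable {S : Srf} {p e q : E3} {L : E 2 →ₗᵢ[ℝ] E3} {ρ σ t : ℝ} {f : Z2 → ℝ} {y : E 2}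

theorem graph (hS : S.Ok) (hL : Fr e L) (hσ : σ ≤ 1 / 8) (hq : q ∈ ball p (ρ / 8)) (h0 : S.w q = 0)
    (ht : ∀ x ∈ ball p (3 * ρ), S.w x = 0 → ‖S.n x - e‖ ≤ σ) : ∃ v : E 2 → ℝ, S.Gr p e L ρ ρ v ∧
      ∀ y, ‖y‖ < ρ → ContDiffAt ℝ ∞ v y ∧ ‖gradient v y‖ ≤ 2 * σ := by
  rw [mem_ball_iff_norm] at hq
  have r0 := (norm_nonneg _).trans_lt hq
  have s0 := (norm_nonneg _).trans (ht q (mem_ball_iff_norm.2 (by linarith)) h0)
  obtain ⟨u, h1, h2, h3⟩ := Grc.graph (p := q) (r := 5 / 4 * ρ) (h := 5 / 4 * ρ) hS hL h0 s0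
    (by linarith) (by linarith) (by nlinarith) fun x ⟨y, s, hy, hs, k⟩ => ht x (by
      have := mem_ball.1 (hL.mem_ball (p := q) hy hs.le)
      rw [k, mem_ball]
      linarith [dist_triangle (q + L y + s • e) q p, dist_eq_norm q p])
  have a1 := (hL.norm_adj (q - p)).trans_lt hq
  have c1 : |⟪e, q - p⟫| < ρ / 8 := by
    have := abs_real_inner_le_norm e (q - p)
    rw [hL.one] at this
    linarith
  have d := hL.dec (q - p)
  generalize adj L (q - p) = a at a1 d
  generalize ⟪e, q - p⟫ = c at c1 d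
  have n1 : ∀ y : E 2, ‖y‖ < ρ → ‖y - a‖ < 9 / 8 * ρ := fun y hy => by linarith [norm_sub_le y a]
  refine ⟨fun y => c + u (y - a), fun y hy => ⟨?_, fun s hs => ?_⟩, fun y hy => ?_⟩
  · nlinarith [abs_add_le c (u (y - a)), h2 (y - a), n1 y hy, norm_nonneg (y - a)]
  · rw [show p + L y + s • e = q + L (y - a) + (s - c) • e by
      rw [map_sub, sub_smul, eq_add_of_sub_eq d.symm]; abel, ← sub_lt_iff_lt_add', ← sub_eq_iff_eq_add']
    exact (h1 _ (by linarith [n1 y hy])).2 _ (by linarith [abs_sub s c])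
  · obtain ⟨k1, k2⟩ := h3 (y - a) (by linarith [n1 y hy])
    refine ⟨contDiffAt_const.add (k1.comp y (contDiffAt_id.sub contDiffAt_const)), ?_⟩
    rwa [P366W.norm_gradient, fderiv_const_add, fderiv_comp_sub, ← P366W.norm_gradient]

theorem dx_eq (hf : DifferentiableAt ℝ f (t, y)) (i : Fin 2) :
    dx i f (t, y) = fderiv ℝ (fun y => f (t, y)) y (EuclideanSpace.single i 1) :=
  (DFunLike.congr_fun (hf.hasFDerivAt.comp y (hasFDerivAt_prodMk_right t y)).fderiv _).symm

theorem gx_eq (hf : DifferentiableAt ℝ f (t, y)) : gx f (t, y) = gradient (fun y => f (t, y)) y := by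
  ext i
  rw [gx, PiLp.toLp_apply, dx_eq hf, ← P366W.inner_grad, EuclideanSpace.inner_single_right]
  simp

theorem dxx (hf : ContDiffAt ℝ 2 f (t, y)) (i j : Fin 2) : dx i (dx j f) (t, y) =
    fderiv ℝ (gradient fun y => f (t, y)) y (EuclideanSpace.single i 1) j := by
  have h1 : DifferentiableAt ℝ (dx j f) (t, y) :=
    ((hf.fderiv_right (m := 1) le_rfl).differentiableAt one_ne_zero).clm_apply (differentiableAt_const _)
  have h2 : DifferentiableAt ℝ (gradient fun y => f (t, y)) y :=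
    (InnerProductSpace.toDual ℝ (E 2)).symm.differentiableAt.comp y
      (((hf.comp y (contDiff_prodMk_right t).contDiffAt).fderiv_right (m := 1) le_rfl).differentiableAt
        one_ne_zero)
  have h3 : (fun y => dx j f (t, y)) =ᶠ[𝓝 y] fun y => gradient (fun y => f (t, y)) y j :=
    ((Continuous.prodMk_right t).continuousAt.eventually (hf.eventually (by simp))).mono fun z hz =>
      congrArg (· j) (gx_eq (hz.differentiableAt two_ne_zero))
  rw [dx_eq h1, h3.fderiv_eq]
  exact DFunLike.congr_fun (((EuclideanSpace.proj j).hasFDerivAt.comp y h2.hasFDerivAt).fderiv) _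

theorem ht_eq (hf : ContDiffAt ℝ 2 f (t, y)) : ht f f (t, y) = dT f (t, y) -
    (trc (fderiv ℝ (gradient fun y => f (t, y)) y) -
      ⟪fderiv ℝ (gradient fun y => f (t, y)) y (gx f (t, y)), gx f (t, y)⟫ / (1 + ‖gx f (t, y)‖ ^ 2)) := by
  rw [P366W.map_eq_sum, P366W.inner_eq_sum, EuclideanSpace.real_norm_sq_eq]
  simp [ht, ga, trc, gx, dxx hf]
  ring

theorem n_e (hL : Fr e L) (g : E 2) (c : ℝ) : ⟪c • (e - L g), e⟫ = c := by
  rw [real_inner_smul_left, inner_sub_left, hL.ee, hL.ort', sub_zero, mul_one]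

end Fgr

open Fgr in
theorem fgr : FGR := fun F a b t₁ t₂ ρ σ p e L hF hL ha hb _ hσ h => by
  replace hF := hF.mono ha hb
  choose! V V1 V2 using fun t (m : t ∈ Ioo t₁ t₂) =>
    (h t m).1.elim fun q k => graph (hF.sl m) hL hσ k.1 k.2 (h t m).2
  have z := fun t m y hy => Grn.zero (V1 t m) (y := y) hy
  have ne := fun t m y hy => Grn.n_eq (V1 t m) (hF.sl m) hL (y := y) hy
    ((V2 t m y hy).1.differentiableAt (by simp))
  have su := fun t m x => hF.su.contDiffAt (Flw.mem_dom (t := t) m x)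
  have q0 : ∀ g : E 2, 0 < (√(1 + ‖g‖ ^ 2))⁻¹ := fun g => by positivity
  have sm : ∀ t ∈ Ioo t₁ t₂, ∀ y, ‖y‖ < ρ → ContDiffAt ℝ ∞ (fun z : Z2 => V z.1 z.2) (t, y) := by
    intro t m y hy
    have hG : ContDiffAt ℝ ∞ (fun z : Z2 × ℝ => F.u (z.1.1, p + L z.1.2 + z.2 • e)) ((t, y), V t y) :=
      (su t m _).comp ((t, y), V t y) (contDiff_fst.fst.prodMk ((contDiff_const.add
        (L.contDiff.comp contDiff_fst.snd)).add (contDiff_snd.smul contDiff_const))).contDiffAt
    have k1 := (hG.differentiableAt (by simp)).hasFDerivAt.comp_hasDerivAt (V t y)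
      (hasFDerivAt_prodMk_right (𝕜 := ℝ) (t, y) (V t y)).hasDerivAt
    have k0 := ((hF.sl m).dw (gX p e L (V t) y)).hasFDerivAt.comp_hasDerivAt (V t y)
      (((hasDerivAt_id' (V t y)).smul_const e).const_add (p + L y))
    have k2 := k1.unique k0
    rw [one_smul, (hF.sl m).fderiv_w (z t m y hy), ne t m y hy, n_e hL] at k2
    have hi : (fderiv ℝ (fun z : Z2 × ℝ => F.u (z.1.1, p + L z.1.2 + z.2 • e)) ((t, y), V t y) ∘L
        .inr ℝ Z2 ℝ).IsInvertible := ⟨ContinuousLinearEquiv.unitsEquivAut ℝ (Units.mk0 _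
      (mul_pos ((hF.sl m).gpos (z t m y hy)) (q0 _)).ne'), by ext; simpa using k2.symm⟩
    have k3 := hG.contDiffAt_implicitFunction (by simp) hi
    refine k3.congr_of_eventuallyEq ?_
    filter_upwards [hG.eventually_apply_implicitFunction (by simp) hi,
      continuous_fst.continuousAt.eventually (isOpen_Ioo.mem_nhds m),
      continuous_snd.norm.continuousAt.eventually (gt_mem_nhds hy),
      k3.continuousAt.abs.eventually (gt_mem_nhds
        (by simpa only [hG.implicitFunction_apply_self] using (V1 t m y hy).1))] with w k4 k5 k6 k7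
    exact (((V1 _ k5 _ k6).2 _ k7).2.1 (k4.trans (z t m y hy))).symm
  have ge := fun t m y hy => gx_eq ((sm t m y hy).differentiableAt (by simp))
  refine ⟨fun z => V z.1 z.2, ⟨fun w k => (sm _ k.1 _ (mem_ball_zero_iff.1 k.2)).contDiffWithinAt,
    fun ⟨t, y⟩ ⟨m, hy⟩ => ?_, fun ⟨t, y⟩ ⟨m, hy⟩ => ?_⟩, fun t m => ⟨V1 t m, fun y hy => ?_⟩⟩
  · replace hy := mem_ball_zero_iff.1 hy
    have := pow_le_pow_left₀ (norm_nonneg _) (V2 t m y hy).2 2
    rwa [← ge t m y hy, EuclideanSpace.real_norm_sq_eq] at this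
  · replace hy := mem_ball_zero_iff.1 hy
    have du := (su t m (gX p e L (V t) y)).differentiableAt (by simp)
    have k1 : HasDerivAt (fun s => V s y) (dT (fun z => V z.1 z.2) (t, y)) t := by
      simpa using! (((sm t m y hy).differentiableAt (by simp)).hasFDerivAt.comp t
        (hasFDerivAt_prodMk_left t y)).hasDerivAt
    have k2 := (du.hasFDerivAt.comp_hasDerivAt t ((hasDerivAt_id' t).prodMk
      ((k1.smul_const e).const_add (p + L y)))).unique ((hasDerivAt_const t 0).congr_of_eventuallyEq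
        (eventually_of_mem (isOpen_Ioo.mem_nhds m) fun s k => z s k y hy))
    have k3 := hF.eq t m _ (z t m y hy)
    have k4 := (hF.sl m).fderiv_w (z t m y hy) e
    rw [(Flw.deriv_slice du).deriv, (grn _ p e L ρ ρ _ y (hF.sl m) hL (V1 t m) hy
      ((V2 t m y hy).1.of_le two_le)).2.2] at k3
    rw [ne t m y hy, n_e hL] at k4
    erw [Flw.fderiv_slice du] at k4
    rw [show ∀ c : ℝ, ((1 : ℝ), c • e) = (1, 0) + c • ContinuousLinearMap.inr ℝ ℝ E3 e by simp,
      map_add, map_smul, k3, ← ContinuousLinearMap.comp_apply, k4, smul_eq_mul] at k2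
    rw [ht_eq ((sm t m y hy).of_le two_le), ge t m y hy]
    refine mul_left_cancel₀ (mul_pos ((hF.sl m).gpos (z t m y hy)) (q0 (gradient (V t) y))).ne' ?_
    linear_combination k2
  · rw [ge t m y hy]
    exact ne t m y hy

end Vale.Agent.P218R
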