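import Vale.Agent.P218R.WKey

/-!
# P218R: White's regularity theorem for smooth flows
-/

open MeasureTheory Metric Filter Topology Set
open scoped ContDiff ENNReal RealInnerProductSpace
open Vale.Agent.P366.Stmt (E)
open Vale.Agent.P366W (trc dvg Fr adj)

noncomputable section

namespace Vale.Agent.P218R

namespace Wh

variable {F : Flw} {a b s t r ρ σ K ε Λ : ℝ} {x y : E3}

/-- small tilt at the scale `ρ` for all points of a region which depends on `ρ` -/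
def TLs (F : Flw) (t s r K σ : ℝ) (x : E3) (ρ : ℝ) : Prop :=
  ∀ s' ∈ Ioc (t - 2 * r ^ 2 + 5 * ρ ^ 2) s, ∀ y ∈ ball x (3 * r / 2 - 2 * K * ρ),
    F.u (s', y) = 0 → F.TL s' y (2 * ρ) σ

theorem tls_small (hF : F.Ok a b) (hr : 0 < r) (ha : a < t - 4 * r ^ 2) (hb : s < b)
    (hσ : 0 < σ) (hK : 0 ≤ K) : ∃ δ > (0 : ℝ), ∀ ρ, 0 < ρ → ρ ≤ δ → TLs F t s r K σ x ρ := by
  have r2 : 0 < r ^ 2 := by positivity
  have hc : ContinuousOn F.n (Icc (t - 3 * r ^ 2) s ×ˢ closedBall x (2 * r)) := fun p hp =>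
    (cn hF ⟨by linarith [hp.1.1], hp.1.2.trans_lt hb⟩ p.2).continuousWithinAt
  obtain ⟨δ, d0, d1⟩ := Metric.uniformContinuousOn_iff_le.1
    ((isCompact_Icc.prod (isCompact_closedBall x (2 * r))).uniformContinuousOn_of_continuous hc)
    σ hσ
  refine ⟨min (min (δ / 2) (1 / 2)) (r / 4), by positivity, fun ρ h0 h1 s' hs y hy _ t' ht z hz _ =>
    ?_⟩
  have h2 : ρ ≤ δ / 2 := h1.trans ((min_le_left _ _).trans (min_le_left _ _))
  have h3 : ρ ≤ 1 / 2 := h1.trans ((min_le_left _ _).trans (min_le_right _ _))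
  have h4 : ρ ≤ r / 4 := h1.trans (min_le_right _ _)
  have h5 : 0 ≤ K * ρ := by positivity
  have h6 := mem_ball.1 hy
  have h7 := mem_ball.1 hz
  rw [← dist_eq_norm]
  refine d1 _ ⟨⟨by nlinarith [ht.1, hs.1], ht.2.trans hs.2⟩, mem_closedBall.2 ?_⟩ _
    ⟨⟨by nlinarith [hs.1], hs.2⟩, mem_closedBall.2 (by linarith)⟩ ?_
  · linarith [dist_triangle z y x]
  · rw [Prod.dist_eq, max_le_iff, Real.dist_eq, abs_sub_comm, abs_of_nonneg (sub_nonneg.2 ht.2)]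
    exact ⟨by nlinarith [ht.1], by linarith⟩

theorem tls_all (hF : F.OkA a b Λ) (hr : 0 < r) (ha : a < t - 4 * r ^ 2) (hs : s < t) (hb : t ≤ b)
    (hσ : 0 < σ) (hK : 2 ≤ K)
    (hd : ∀ y ∈ ball x (2 * r), ∀ ρ ∈ Icc r (2 * r), gs (F.μ (t - 4 * r ^ 2)) y ρ ≤ 1 + ε)
    (key : ∀ (F : Flw) (a b s t₀ ρ : ℝ) (y : E3), F.OkA a b Λ → 0 < ρ → a < t₀ →
      t₀ ≤ s - 5 * ρ ^ 2 → s < b → F.u (s, y) = 0 →
      (∀ t ∈ Ioc (s - 4 * ρ ^ 2) s, ∀ z ∈ ball y (K * ρ), F.u (t, z) = 0 →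
        gs (F.μ t₀) z √(t - t₀) ≤ 1 + ε ∧ F.TL t z (ρ / 2) σ) → F.TL s y (2 * ρ) σ)
    (h0 : 0 < ρ) (h1 : 4 * K * ρ ≤ r) : TLs F t s r K σ x ρ := by
  obtain ⟨δ, d0, d1⟩ := tls_small (x := x) hF.toOk hr ha (hs.trans_le hb) hσ (by linarith : 0 ≤ K)
  obtain ⟨n, hn⟩ := pow_unbounded_of_one_lt (ρ / δ) (show (1 : ℝ) < 4 by norm_num)
  replace hn := ((div_lt_iff₀ d0).1 hn).le
  induction n generalizing ρ with
  | zero => exact d1 ρ h0 (by simpa using hn)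
  | succ n ih =>
    have k := ih (ρ := ρ / 4) (by positivity) (by nlinarith) (by rw [pow_succ] at hn; linarith)
    intro s' hs' y hy y0
    have r1 : 8 * ρ ≤ r := by nlinarith
    have r2 : 0 < ρ ^ 2 := by positivity
    have r3 : 64 * ρ ^ 2 ≤ r ^ 2 := by nlinarith
    have r4 : 0 < K * ρ := by positivity
    refine key F a b s' (t - 4 * r ^ 2) ρ y hF h0 ha (by linarith [hs'.1])
      ((hs'.2.trans_lt hs).trans_le hb) y0 fun t' ht z hz z0 => ?_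
    have h2 := dist_triangle z y x
    have h3 := mem_ball.1 hy
    have h4 := mem_ball.1 hz
    refine ⟨hd z (mem_ball.2 (by linarith)) _ ⟨Real.le_sqrt_of_sq_le (by linarith [ht.1, hs'.1]),
      Real.sqrt_le_iff.2 ⟨by positivity, by linarith [ht.2, hs'.2]⟩⟩, ?_⟩
    have := k t' ⟨by linarith [ht.1, hs'.1], ht.2.trans hs'.2⟩ z (mem_ball.2 (by linarith)) z0
    rwa [show 2 * (ρ / 4) = ρ / 2 by ring] at this

end Wh

open Wh in
/-- White's theorem -/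
theorem wh_of (fgr : FGR) (pt : PT) : WH := fun Λ => by
  obtain ⟨σ, s0, s1, hl⟩ := wloc fgr pt
  obtain ⟨K, K2, ε, ε0, hk⟩ := key pt s0 s1 hl Λ
  obtain ⟨c, c0, c1, C, C0, hl⟩ := hl Λ
  refine ⟨ε, ε0, fun σ₁ h1 => ?_⟩
  obtain ⟨τ, τ0, τ1, τ2⟩ : ∃ τ > (0 : ℝ), τ ≤ σ₁ ∧ τ ≤ 1 / 2 :=
    ⟨min σ₁ (1 / 2), by positivity, min_le_left _ _, min_le_right _ _⟩
  have A0 := C0 0
  obtain ⟨d, d0, d1, d2⟩ : ∃ d > (0 : ℝ), d ≤ c ∧ d * (2 * C 0 + 1) ≤ τ :=
    ⟨min c (τ / (2 * C 0 + 1)), by positivity, min_le_left _ _,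
      (le_div_iff₀ (by positivity)).1 (min_le_right _ _)⟩
  refine ⟨d / (2 * K), by positivity, fun k => if k ≤ 1 then τ else C k, by simpa, by simpa,
    fun F a b t r x hF hr ha hb hd s hs y hy y0 => ?_⟩
  obtain ⟨ρ, ρ0, ρ1⟩ : ∃ ρ > (0 : ℝ), 4 * K * ρ = r := ⟨r / (4 * K), by positivity, by field_simp⟩
  have r1 : 8 * ρ ≤ r := by nlinarith
  have r3 : 64 * ρ ^ 2 ≤ r ^ 2 := by nlinarith
  have r2 : 0 < ρ ^ 2 := by positivity
  have hT := tls_all hF hr ha hs.2 hb s0 K2 hd hk ρ0 ρ1.le s ⟨by linarith [hs.1], le_rfl⟩ y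
    (ball_subset_ball (by linarith) hy) y0
  obtain ⟨L, hL, v, hv⟩ := hl F a b s (2 * ρ) y hF (by positivity) (by linarith [hs.1])
    (hs.2.trans_le hb) y0 hT
  rw [show d / (2 * K) * r = d * (2 * ρ) by rw [← ρ1]; field_simp; norm_num]
  have q0 : 0 < 2 * ρ := by positivity
  generalize 2 * ρ = q at *
  have q1 : d * q ≤ c * q := by gcongr
  have q2 : 0 < d * q := by positivity
  refine ⟨L, hL, fun s' hs' => ?_⟩
  obtain ⟨v1, v2, v3, -⟩ := hv s' ⟨by nlinarith [hs'.1], hs'.2⟩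
  have v4 : ∀ z : E 2, ‖z‖ < d * q → |v (s', z)| ≤ τ * (d * q) := fun z hz => by
    refine (v3 z (hz.trans_le q1)).1.trans ?_
    rw [div_le_iff₀ q0]
    have h2 : ‖z‖ ^ 2 ≤ (d * q) ^ 2 := pow_le_pow_left₀ (norm_nonneg _) hz.le 2
    have h3 : C 0 * (‖z‖ ^ 2 + (s - s')) ≤ C 0 * (2 * (d * q) ^ 2) :=
      mul_le_mul_of_nonneg_left (by linarith [hs'.1]) A0
    have h4 : 0 < d * q ^ 2 := by positivity
    nlinarith [mul_le_mul_of_nonneg_right d2 h4.le, mul_pos d0 h4]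
  refine ⟨_, v1.mono (ball_subset_ball q1), Gr_mono v2 q1 fun z hz =>
    (v4 z hz).trans_lt (by nlinarith), fun k z hz => ?_⟩
  rcases k with _ | _ | k
  · simpa using v4 z hz
  · rw [norm_iteratedFDeriv_one]
    refine (v3 z (hz.trans_le q1)).2.1.trans ?_
    have h2 : ‖z‖ / q ≤ d := by rw [div_le_iff₀ q0]; exact hz.le
    have h3 : (s - s') / q ^ 2 ≤ d := by
      rw [div_le_iff₀ (by positivity)]
      have : d * q ^ 2 * d ≤ d * q ^ 2 := mul_le_of_le_one_right (by positivity) (by linarith)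
      nlinarith [hs'.1]
    have h4 := mul_le_mul_of_nonneg_left (add_le_add h2 h3) A0
    simp only [zero_add, le_refl, if_true, pow_one, mul_div_assoc, div_self q2.ne', mul_one]
    linarith
  · refine ((v3 z (hz.trans_le q1)).2.2 _ (by omega)).trans ?_
    beta_reduce
    rw [if_neg (by omega), mul_div_assoc, mul_div_assoc]
    refine mul_le_mul_of_nonneg_left ?_ (C0 _)
    rw [pow_succ' q, pow_succ' (d * q), div_mul_cancel_left₀ q0.ne', div_mul_cancel_left₀ q2.ne']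
    exact inv_anti₀ (by positivity)
      (pow_le_pow_left₀ q2.le (mul_le_of_le_one_left q0.le (by linarith)) _)

end Vale.Agent.P218R
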