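import Vale.Agent.P218R.WSpec
import Vale.Agent.P218R.Base

/-!
# P218R: the lower density bound, ancestors, and the use of two centres (rows LD, PT)
-/

open MeasureTheory Metric Filter Topology Set
open scoped ContDiff ENNReal RealInnerProductSpace
open Vale.Agent.P366.Stmt (E)

noncomputable section

namespace Vale.Agent.P218R

namespace Pt

variable {F : Flw} {a b Λ : ℝ}

theorem gs_cont (gsl : GSL) {μ : Measure E3} (h : AR Λ μ) (x : E3) {ρ : ℝ} (hρ : 0 < ρ) :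
    ContinuousAt (gs μ x) ρ := by
  obtain ⟨⟨C, -, hC⟩, -⟩ := gsl
  have h1 := (hC (max Λ 0) μ (le_max_right _ _) (h.mono (le_max_left _ _)) x ρ hρ).2.2 x
  rw [ContinuousAt, tendsto_iff_norm_sub_tendsto_zero]
  have h2 : Continuous fun r : ℝ => C * max Λ 0 * (‖x - x‖ + |r - ρ|) / ρ := by fun_prop
  refine squeeze_zero' (Eventually.of_forall fun _ => norm_nonneg _) ?_ (by simpa using h2.tendsto ρ)
  filter_upwards [Icc_mem_nhds (half_lt_self hρ) (show ρ < 2 * ρ by linarith)] with r hr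
  simpa using h1 r (by linarith [hr.1]) hr.2 (by simpa using hρ.le)

theorem grow (hF : F.OkA a b Λ) {s₁ s₂ : ℝ} (h1 : a < s₁) (h2 : s₂ < b) (x : E3) :
    ∀ t ∈ Icc s₁ s₂, ∀ R ≥ (1 : ℝ), F.μ t (closedBall x R) ≤ ENNReal.ofReal (Λ * R ^ 2) :=
  fun t ht R hR => hF.ar t ⟨h1.trans_le ht.1, ht.2.trans_lt h2⟩ x R (by linarith)

theorem mono (hui : HUI) (hF : F.OkA a b Λ) {s₁ s₂ t₀ : ℝ} (h1 : a < s₁) (h12 : s₁ ≤ s₂)
    (h2 : s₂ < b) (h3 : s₂ < t₀) (x : E3) :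
    gs (F.μ s₂) x √(t₀ - s₂) ≤ gs (F.μ s₁) x √(t₀ - s₁) := by
  simpa using hui F a b t₀ s₁ s₂ Λ x 0 hF.toOk h1 h12 h2 h3 (grow hF h1 h2 x) continuous_zero
    HasCompactSupport.zero (fun _ => by simp)

end Pt

open Pt

/-- row LD -/
theorem ld (hui : HUI) (gsl : GSL) (sml : SML) : LD := by
  intro F a b Λ s t y hF h1 h2 h3 h4
  have hs : s ∈ Ioo a b := ⟨h1.trans h2, h3⟩
  have h5 : Tendsto (fun d : ℝ => √d) (𝓝[>] 0) (𝓝[>] 0) := by
    refine tendsto_nhdsWithin_iff.2 ⟨?_, eventually_mem_nhdsWithin.mono fun d hd => ?_⟩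
    · simpa using (Real.continuous_sqrt.tendsto 0).mono_left nhdsWithin_le_nhds
    · exact Real.sqrt_pos.2 hd
  have h6 := (sml.2.1 (F.sl s) Λ y (hF.toOk.sl hs) (hF.ar s hs) h4).comp h5
  have h7 : Tendsto (fun d : ℝ => √(s + d - t)) (𝓝[>] 0) (𝓝 √(s - t)) := by
    have : Continuous fun d : ℝ => √(s + d - t) := by fun_prop
    simpa using (this.tendsto 0).mono_left nhdsWithin_le_nhds
  have h8 := (gs_cont gsl (hF.ar t ⟨h1, h2.trans h3⟩) y (Real.sqrt_pos.2 (sub_pos.2 h2))).tendsto.comp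
    h7
  refine le_of_tendsto_of_tendsto h6 h8 (eventually_mem_nhdsWithin.mono fun d hd => ?_)
  simpa [Flw.μ] using mono hui hF h1 h2.le h3 (lt_add_of_pos_right s hd) y

namespace Pt

variable {F : Flw} {a b Λ : ℝ}

theorem tail (gsl : GSL) (Λ : ℝ) : ∃ R ≥ (1 : ℝ), ∀ μ : Measure E3, AR Λ μ → ∀ (y : E3) (r : ℝ),
    0 < r → 1 ≤ gs μ y r → 2 * Real.pi * r ^ 2 ≤ μ.real (closedBall y (R * r)) := by
  obtain ⟨⟨C, hC0, hC⟩, -⟩ := gsl
  obtain ⟨M, hM⟩ : ∃ M, M = C * max Λ 0 := ⟨_, rfl⟩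
  have hM0 : 0 ≤ M := hM ▸ mul_nonneg hC0.le (le_max_right _ _)
  refine ⟨1 + 43 * M, by linarith, fun μ h y r hr h1 => ?_⟩
  obtain ⟨R, hR⟩ : ∃ R, R = 1 + 43 * M := ⟨_, rfl⟩
  rw [← hR]
  have hR1 : 1 ≤ R := by linarith
  have h' := h.mono (le_max_left Λ 0)
  obtain ⟨i1, -, -⟩ := hC _ μ (le_max_right _ _) h' y r hr
  obtain ⟨i2, g2, -⟩ := hC _ μ (le_max_right _ _) h' y (2 * r) (by linarith)
  have := h.fin
  have i3 : Integrable ((closedBall y (R * r)).indicator fun _ => (1 : ℝ)) μ :=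
    (integrable_indicator_iff measurableSet_closedBall).2
      (integrableOn_const (isCompact_closedBall _ _).measure_lt_top.ne)
  have h2 : ∀ z, Real.exp (-‖z - y‖ ^ 2 / (4 * r ^ 2)) ≤
      (closedBall y (R * r)).indicator (fun _ => (1 : ℝ)) z +
        Real.exp (-(3 * R ^ 2 / 16)) * Real.exp (-‖z - y‖ ^ 2 / (4 * (2 * r) ^ 2)) := fun z => by
    by_cases hz : z ∈ closedBall y (R * r)
    · rw [indicator_of_mem hz]
      refine le_add_of_le_of_nonneg (Real.exp_le_one_iff.2 ?_) (by positivity)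
      exact div_nonpos_of_nonpos_of_nonneg (neg_nonpos.2 (sq_nonneg _)) (by positivity)
    · rw [indicator_of_notMem hz, zero_add, ← Real.exp_add, Real.exp_le_exp]
      rw [mem_closedBall_iff_norm, not_le] at hz
      have h3 : (R * r) ^ 2 ≤ ‖z - y‖ ^ 2 := pow_le_pow_left₀ (by positivity) hz.le 2
      have h4 : -(3 * R ^ 2 / 16) + -‖z - y‖ ^ 2 / (4 * (2 * r) ^ 2) - -‖z - y‖ ^ 2 / (4 * r ^ 2) =
          3 * (‖z - y‖ ^ 2 - (R * r) ^ 2) / (16 * r ^ 2) := by field_simp; ring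
      have h5 : 0 ≤ 3 * (‖z - y‖ ^ 2 - (R * r) ^ 2) / (16 * r ^ 2) :=
        div_nonneg (by linarith) (by positivity)
      linarith
  have h3 := integral_mono i1 (i3.add (i2.const_mul _)) h2
  rw [integral_add' i3 (i2.const_mul _), integral_indicator_const _ measurableSet_closedBall,
    integral_const_mul, smul_eq_mul, mul_one] at h3
  have hp := Real.pi_pos
  rw [gs, le_inv_mul_iff₀ (by positivity), mul_one] at h1
  rw [gs, inv_mul_le_iff₀ (by positivity), ← hM] at g2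
  have h4 : Real.exp (-(3 * R ^ 2 / 16)) * (8 * M) ≤ 1 := by
    have h5 := Real.add_one_le_exp (3 * R ^ 2 / 16)
    rw [Real.exp_neg, inv_mul_le_iff₀ (Real.exp_pos _)]
    nlinarith
  have h5 := mul_le_mul_of_nonneg_left g2 (Real.exp_pos (-(3 * R ^ 2 / 16))).le
  have h6 := mul_le_mul_of_nonneg_left h4 (show 0 ≤ 2 * Real.pi * r ^ 2 by positivity)
  nlinarith

/-- the integrand of the dissipation -/
def dis (F : Flw) (ψ : E3 → ℝ) (y : E3) (s t : ℝ) (x : E3) : ℝ :=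
  ψ x * hk y s t x * ((F.sl t).H x - ⟪x - y, F.n (t, x)⟫ / (2 * (s - t))) ^ 2

theorem dis_cont (hF : F.Ok a b) {ψ : E3 → ℝ} (hψ : Continuous ψ) (y : E3) :
    ContinuousOn (fun p : ℝ × E3 => dis F ψ y b p.1 p.2) (Ioo a b ×ˢ univ) := by
  have h1 := hF.sH.continuousOn
  have h2 := hF.sn.continuousOn
  have h3 : ∀ p ∈ Ioo a b ×ˢ (univ : Set E3), b - p.1 ≠ 0 := fun p hp => (sub_pos.2 hp.1.2).ne'
  have hp := Real.pi_pos
  unfold dis hk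
  refine ContinuousOn.mul (ContinuousOn.mul (by fun_prop) (ContinuousOn.mul
    (ContinuousOn.inv₀ (by fun_prop) fun p hp' => mul_ne_zero (by positivity) (h3 p hp'))
    (Real.continuous_exp.comp_continuousOn (ContinuousOn.div (by fun_prop) (by fun_prop)
      fun p hp' => mul_ne_zero (by positivity) (h3 p hp'))))) (ContinuousOn.pow (h1.sub
    (ContinuousOn.div (ContinuousOn.inner (by fun_prop) h2) (by fun_prop)
      fun p hp' => mul_ne_zero (by positivity) (h3 p hp'))) 2)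

theorem dis_nonneg {ψ : E3 → ℝ} (hψ : ∀ x, 0 ≤ ψ x) (y : E3) {s t : ℝ} (h : t < s) (x : E3) :
    0 ≤ dis F ψ y s t x := by
  have := hψ x
  have := sub_pos.2 h
  have := Real.pi_pos
  unfold dis hk
  positivity

theorem dis_int (hF : F.OkA a b Λ) {ψ : E3 → ℝ} (hψ : Continuous ψ) (hc : HasCompactSupport ψ)
    (y : E3) {t : ℝ} (ht : t ∈ Ioo a b) : Integrable (dis F ψ y b t) (F.μ t) := by
  have := (hF.ar t ht).fin
  have h1 : Continuous (dis F ψ y b t) :=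
    (dis_cont hF.toOk hψ y).comp_continuous (f := fun x => (t, x)) (by fun_prop)
      fun x => ⟨ht, trivial⟩
  exact h1.integrable_of_hasCompactSupport (hc.mul_right.mul_right)

theorem dis_ii (cnt : CNT) (hF : F.Ok a b) {ψ : E3 → ℝ} (hψ : Continuous ψ)
    (hc : HasCompactSupport ψ) (y : E3) {s₁ s₂ : ℝ} (h1 : a < s₁) (h12 : s₁ ≤ s₂) (h2 : s₂ < b) :
    IntervalIntegrable (fun t => ∫ x, dis F ψ y b t x ∂F.μ t) volume s₁ s₂ := by
  have h3 := cnt F a b (fun p => dis F ψ y b p.1 p.2) (tsupport ψ) hF (dis_cont hF hψ y) hc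
    fun t x hx => by simp [dis, image_eq_zero_of_notMem_tsupport hx]
  refine (h3.mono ?_).intervalIntegrable
  rw [uIcc_of_le h12]
  exact fun t ht => ⟨h1.trans_le ht.1, ht.2.trans_lt h2⟩

theorem dis_small (hui : HUI) (hld : LD) (hF : F.OkA a b Λ) {ψ : E3 → ℝ} (hψ : Continuous ψ)
    (hc : HasCompactSupport ψ) (h01 : ∀ x, 0 ≤ ψ x ∧ ψ x ≤ 1) {y : E3} {s t₀ s₁ s₂ ε : ℝ}
    (h0 : a < t₀) (h1 : t₀ ≤ s₁) (h12 : s₁ ≤ s₂) (h2 : s₂ < s) (h3 : s < b) (hy : F.u (s, y) = 0)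
    (hg : gs (F.μ t₀) y √(s - t₀) ≤ 1 + ε) :
    ∫ t in s₁..s₂, ∫ x, dis F ψ y s t x ∂F.μ t ≤ ε := by
  have h4 := hui F a b s s₁ s₂ Λ y ψ hF.toOk (h0.trans_le h1) h12 (h2.trans h3) h2
    (grow hF (h0.trans_le h1) (h2.trans h3) y) hψ hc h01
  have h5 := mono hui hF h0 h1 ((h12.trans_lt h2).trans h3) (h12.trans_lt h2) y
  have h6 := hld F a b Λ s s₂ y hF ((h0.trans_le h1).trans_le h12) h2 h3 hy
  unfold dis
  linarith

theorem hk_ge {y x : E3} {s t M N d ρ : ℝ} (hρ : 0 < ρ) (hd : 0 < d) (h1 : (d * ρ) ^ 2 ≤ s - t)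
    (h2 : s - t ≤ M * ρ ^ 2) (h3 : ‖x - y‖ ≤ N * ρ) :
    (4 * Real.pi * M)⁻¹ * Real.exp (-(N ^ 2 / (4 * d ^ 2))) / ρ ^ 2 ≤ hk y s t x := by
  have h4 : 0 < s - t := lt_of_lt_of_le (by positivity) h1
  have hp := Real.pi_pos
  have h5 : (4 * Real.pi * M)⁻¹ / ρ ^ 2 ≤ (4 * Real.pi * (s - t))⁻¹ := by
    rw [div_eq_mul_inv, ← mul_inv]
    refine inv_anti₀ (by positivity) ?_
    rw [mul_assoc _ M]
    gcongr
  have h6 : -(N ^ 2 / (4 * d ^ 2)) ≤ -‖x - y‖ ^ 2 / (4 * (s - t)) := by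
    rw [neg_div, neg_le_neg_iff]
    calc ‖x - y‖ ^ 2 / (4 * (s - t)) ≤ (N * ρ) ^ 2 / (4 * (d * ρ) ^ 2) := by gcongr
      _ = N ^ 2 / (4 * d ^ 2) := by field_simp
  rw [mul_div_right_comm, hk]
  exact mul_le_mul h5 (Real.exp_le_exp.2 h6) (Real.exp_pos _).le (by positivity)

theorem two_ge {H u₁ u₂ τ M η ρ k k₁ k₂ : ℝ} (hτ : 0 < τ) (hρ : 0 < ρ) (hη : 0 < η)
    (hM : τ ≤ M * ρ ^ 2) (h : η * ρ < |u₂ - u₁|) (hk : 0 ≤ k) (h1 : k ≤ k₁) (h2 : k ≤ k₂) :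
    k * (η ^ 2 / (8 * M ^ 2 * ρ ^ 2)) ≤ k₁ * (H - u₁ / (2 * τ)) ^ 2 + k₂ * (H - u₂ / (2 * τ)) ^ 2 := by
  have hM0 : 0 < M := by
    by_contra h0
    nlinarith [sq_nonneg ρ]
  have h3 : (η * ρ) ^ 2 ≤ (u₂ - u₁) ^ 2 := by
    rw [← sq_abs (u₂ - u₁)]
    exact pow_le_pow_left₀ (by positivity) h.le 2
  have h4 : η ^ 2 / (8 * M ^ 2 * ρ ^ 2) ≤ ((u₂ - u₁) / (2 * τ)) ^ 2 / 2 := by
    calc η ^ 2 / (8 * M ^ 2 * ρ ^ 2) = (η * ρ) ^ 2 / (2 * (M * ρ ^ 2)) ^ 2 / 2 := by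
          field_simp; norm_num
      _ ≤ (u₂ - u₁) ^ 2 / (2 * τ) ^ 2 / 2 := by gcongr
      _ = ((u₂ - u₁) / (2 * τ)) ^ 2 / 2 := by rw [div_pow]
  rw [sub_div] at h4
  generalize u₁ / (2 * τ) = c₁ at h4 ⊢
  generalize u₂ / (2 * τ) = c₂ at h4 ⊢
  have h5 : (c₂ - c₁) ^ 2 / 2 ≤ (H - c₁) ^ 2 + (H - c₂) ^ 2 := by
    nlinarith [sq_nonneg (H - c₁ + (H - c₂))]
  have h6 := mul_le_mul_of_nonneg_left (h4.trans h5) hk
  nlinarith [mul_le_mul_of_nonneg_right h1 (sq_nonneg (H - c₁)),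
    mul_le_mul_of_nonneg_right h2 (sq_nonneg (H - c₂))]

theorem low (hF : F.OkA a b Λ) {ψ : E3 → ℝ} (hψ : Continuous ψ) (hc : HasCompactSupport ψ)
    (h0 : ∀ x, 0 ≤ ψ x) {t ρ δ η M K N r : ℝ} {y y₁ y₂ : E3} (ht : t ∈ Ioo a b) (hρ : 0 < ρ)
    (hδ : 0 < δ) (hη : 0 < η) (hM : 0 < M) (h1 : (δ * ρ) ^ 2 ≤ b - t) (h2 : b - t ≤ M * ρ ^ 2)
    (hn₁ : ‖y₁ - y‖ ≤ K * ρ) (hn₂ : ‖y₂ - y‖ ≤ K * ρ) (hr : r ≤ N * ρ)
    (h : ∀ x, ‖x - y‖ ≤ N * ρ → ψ x = 1 ∧ (F.u (t, x) = 0 → η * ρ < |⟪y₁ - y₂, F.n (t, x)⟫|)) :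
    (F.μ t).real (closedBall y r) * ((4 * Real.pi * M)⁻¹ * Real.exp (-((K + N) ^ 2 / (4 * δ ^ 2))) /
      ρ ^ 2 * (η ^ 2 / (8 * M ^ 2 * ρ ^ 2))) ≤
      ∫ x, dis F ψ y₁ b t x ∂F.μ t + ∫ x, dis F ψ y₂ b t x ∂F.μ t := by
  have j1 := dis_int hF hψ hc y₁ ht
  have j2 := dis_int hF hψ hc y₂ ht
  have := (hF.ar t ht).fin
  have n3 : ∀ x z : E3, ‖x - y‖ ≤ N * ρ → ‖z - y‖ ≤ K * ρ → (4 * Real.pi * M)⁻¹ *
      Real.exp (-((K + N) ^ 2 / (4 * δ ^ 2))) / ρ ^ 2 ≤ hk z b t x := fun x z hx hz => by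
    refine hk_ge hρ hδ h1 h2 ?_
    have h3 := norm_sub_le_norm_sub_add_norm_sub x y z
    rw [norm_sub_rev y z] at h3
    linarith
  have hk0 : 0 ≤ (4 * Real.pi * M)⁻¹ * Real.exp (-((K + N) ^ 2 / (4 * δ ^ 2))) / ρ ^ 2 := by
    have := Real.pi_pos
    positivity
  generalize (4 * Real.pi * M)⁻¹ * Real.exp (-((K + N) ^ 2 / (4 * δ ^ 2))) / ρ ^ 2 = k at n3 hk0 ⊢
  rw [← integral_add' j1 j2, ← smul_eq_mul, ← integral_indicator_const _ measurableSet_closedBall]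
  refine integral_mono_ae ((integrable_indicator_iff measurableSet_closedBall).2
    (integrableOn_const (isCompact_closedBall _ _).measure_lt_top.ne)) (j1.add j2)
    (((hF.toOk.sl ht).ae).mono fun x hx => ?_)
  by_cases hz : x ∈ closedBall y r
  · have n1 : ‖x - y‖ ≤ N * ρ := (mem_closedBall_iff_norm.1 hz).trans hr
    have n4 := (h x n1).2 hx
    have n5 : ⟪y₁ - y₂, F.n (t, x)⟫ = ⟪x - y₂, F.n (t, x)⟫ - ⟪x - y₁, F.n (t, x)⟫ := by
      rw [← inner_sub_left, sub_sub_sub_cancel_left]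
    rw [n5] at n4
    rw [indicator_of_mem hz, Pi.add_apply, dis, dis, (h x n1).1, one_mul, one_mul]
    exact two_ge (sub_pos.2 ht.2) hρ hη h2 n4 hk0 (n3 _ _ n1 hn₁) (n3 _ _ n1 hn₂)
  · rw [indicator_of_notMem hz]
    exact add_nonneg (dis_nonneg h0 _ ht.2 x) (dis_nonneg h0 _ ht.2 x)

end Pt

/-- row PT -/
theorem pt (hui : HUI) (cnt : CNT) (gsl : GSL) (sml : SML) : PT := by
  have hld := ld hui gsl sml
  intro Λ
  obtain ⟨R, hR, hT⟩ := tail gsl Λ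
  have hp := Real.pi_pos
  have mass : ∀ (F : Flw) (a b s t : ℝ) (y : E3), F.OkA a b Λ → a < t → t < s → s < b →
      F.u (s, y) = 0 → 2 * Real.pi * (s - t) ≤ (F.μ t).real (closedBall y (R * √(s - t))) :=
    fun F a b s t y hF h1 h2 h3 h4 => by
      have h5 := hT _ (hF.ar t ⟨h1, h2.trans h3⟩) y _ (Real.sqrt_pos.2 (sub_pos.2 h2))
        (hld F a b Λ s t y hF h1 h2 h3 h4)
      rwa [Real.sq_sqrt (sub_pos.2 h2).le] at h5
  refine ⟨R, hR, fun F a b s t y hF h1 h2 h3 h4 => ?_, fun K δ η hδ hη => ?_⟩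
  · have h5 := mass F a b s t y hF h1 h2 h3 h4
    have h6 : F.μ t (closedBall y (R * √(s - t))) ≠ 0 := fun h => by
      rw [Measure.real, h, ENNReal.toReal_zero] at h5
      have := sub_pos.2 h2
      exact absurd h5 (not_le.2 (by positivity))
    rw [Flw.μ, (hF.toOk.sl ⟨h1, h2.trans h3⟩).apply] at h6
    obtain ⟨z, h7, h8⟩ := nonempty_of_measure_ne_zero h6
    exact ⟨z, h8, mem_closedBall_iff_norm.1 h7⟩
  obtain ⟨M, hM⟩ : ∃ M, M = K ^ 2 + 2 * δ ^ 2 := ⟨_, rfl⟩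
  have hM0 : 0 < M := by rw [hM]; positivity
  obtain ⟨k, hk⟩ : ∃ k, k = (4 * Real.pi * M)⁻¹ *
    Real.exp (-((K + 2 * R * δ) ^ 2 / (4 * δ ^ 2))) := ⟨_, rfl⟩
  have hk0 : 0 < k := by rw [hk]; positivity
  obtain ⟨c, hc⟩ : ∃ c, c = 2 * Real.pi * δ ^ 2 * (k * (η ^ 2 / (8 * M ^ 2))) := ⟨_, rfl⟩
  have hc0 : 0 < c := by rw [hc]; positivity
  refine ⟨c * δ ^ 2 / 4, by positivity, ?_⟩
  intro F a b s s' t₀ ρ y₁ y₂ y hF hρ h0 h1 h2 h3 h4 hy₁ hy₂ hy hn₁ hn₂ hg₁ hg₂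
  by_contra hcon
  push Not at hcon
  have hd : 0 < (δ * ρ) ^ 2 := by positivity
  let β : ContDiffBump y := ⟨2 * R * δ * ρ, 4 * R * δ * ρ, by positivity, by
    have : 0 < R * δ * ρ := by positivity
    linarith⟩
  have hβ : Continuous β := β.continuous
  have hβc : HasCompactSupport β := β.hasCompactSupport
  have h01 : ∀ x, 0 ≤ β x ∧ β x ≤ 1 := fun x => ⟨β.nonneg, β.le_one⟩
  have h12 : s' - 2 * (δ * ρ) ^ 2 ≤ s' - (δ * ρ) ^ 2 := by linarith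
  have h5 : s' - (δ * ρ) ^ 2 < s := by linarith
  have hF' := hF.mono le_rfl h4.le
  have e1 := dis_small hui hld hF hβ hβc h01 h0 h1 h12 h5 h4 hy₁ hg₁
  have e2 := dis_small hui hld hF hβ hβc h01 h0 h1 h12 h5 h4 hy₂ hg₂
  have i1 := dis_ii cnt hF'.toOk hβ hβc y₁ (h0.trans_le h1) h12 h5
  have i2 := dis_ii cnt hF'.toOk hβ hβc y₂ (h0.trans_le h1) h12 h5
  have low : ∀ t ∈ Ioo (s' - 2 * (δ * ρ) ^ 2) (s' - (δ * ρ) ^ 2), c / ρ ^ 2 ≤
      ∫ x, dis F β y₁ s t x ∂F.μ t + ∫ x, dis F β y₂ s t x ∂F.μ t := fun t ht => by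
    have ht' : t ∈ Ioo a s := ⟨(h0.trans_le h1).trans ht.1, ht.2.trans h5⟩
    have m1 := mass F a b s' t y hF ht'.1 (by linarith [ht.2]) (h2.trans_lt h4) hy
    have m2 : R * √(s' - t) ≤ 2 * R * δ * ρ := by
      have h6 : √(s' - t) ≤ 2 * (δ * ρ) :=
        Real.sqrt_le_iff.2 ⟨by positivity, by linarith [ht.1]⟩
      linarith [mul_le_mul_of_nonneg_left h6 (zero_le_one.trans hR)]
    have m3 : 2 * Real.pi * (δ * ρ) ^ 2 ≤ (F.μ t).real (closedBall y (R * √(s' - t))) :=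
      le_trans (by gcongr; linarith [ht.2]) m1
    have m4 : s - t ≤ M * ρ ^ 2 := by rw [hM]; linarith [ht.1]
    have m5 := low hF' hβ hβc (fun x => (h01 x).1) ht' hρ hδ hη hM0 (by linarith [ht.2]) m4 hn₁ hn₂
      (r := R * √(s' - t)) (N := 2 * R * δ) m2 fun x hx =>
        ⟨β.one_of_mem_closedBall (mem_closedBall_iff_norm.2 hx), fun h => hcon t ht x h hx⟩
    rw [← hk] at m5
    refine le_trans (le_trans (le_of_eq ?_) (mul_le_mul_of_nonneg_right m3 (by positivity))) m5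
    rw [hc]
    field_simp
  have h6 := intervalIntegral.integral_mono_on_of_le_Ioo h12 intervalIntegrable_const (i1.add i2) low
  rw [intervalIntegral.integral_add i1 i2, intervalIntegral.integral_const, smul_eq_mul] at h6
  have h7 : (s' - (δ * ρ) ^ 2 - (s' - 2 * (δ * ρ) ^ 2)) * (c / ρ ^ 2) = c * δ ^ 2 := by
    field_simp
    ring
  have h8 : 0 < c * δ ^ 2 := by positivity
  linarith

end Vale.Agent.P218R
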