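import Vale.Agent.P218R.All0
import Vale.Agent.P218R.Brk
import Vale.Agent.P218R.Hui
import Vale.Agent.P218R.Gsl
import Vale.Agent.P218R.Sml
import Vale.Agent.P218R.WFgr
import Vale.Agent.P218R.WPt
import Vale.Agent.P218R.WFin

/-!
# P218R: White's theorem and its ingredients, without hypotheses
-/

namespace Vale.Agent.P218R

namespace Wh

theorem brk0 : BRK := brk div' low'
theorem cnt0 : CNT := cnt brk0 low'
theorem hui0 : HUI := hui brk0 cnt0 fv' low'
theorem sml0 : SML := sml grf area
theorem ld0 : LD := ld hui0 gsl sml0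
theorem pt0 : PT := pt hui0 cnt0 gsl sml0
theorem wloc0 : WLOC := wloc fgr pt0

end Wh

/-- White's regularity theorem -/
theorem wh : WH := wh_of fgr Wh.pt0

end Vale.Agent.P218R
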