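import Vale.Agent.P218R.Stm

/-!
# P218R, rows RSC and SSF: rescaling
-/

set_option linter.all false

open MeasureTheory Metric Filter Topology Set
open scoped ContDiff ENNReal RealInnerProductSpace Pointwise
open Vale.Agent.P366.Stmt (E)
open Vale.Agent.P366W (trc dvg Fr trc_smul inner_grad)
open Vale.Agent.P218 (rescaled)
open Vale.Agent.P218.H552 (NN)

noncomputable section

namespace Vale.Agent.P218R

variable {S : Srf} {F : Flw} {b p e x y : E3} {l r h Λ G : ℝ}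

/-- the map `x ↦ l (x - b)` -/
def scE (b : E3) {l : ℝ} (hl : 0 < l) : E3 ≃ₜ E3 where
  toFun x := l • (x - b)
  invFun y := b + l⁻¹ • y
  left_inv x := by simp [smul_smul, hl.ne']
  right_inv y := by simp [smul_smul, hl.ne']
  continuous_toFun := by fun_prop
  continuous_invFun := by fun_prop

theorem sc_emb (b : E3) (hl : 0 < l) : MeasurableEmbedding fun x : E3 => l • (x - b) :=
  (scE b hl).measurableEmbedding

theorem sc_left (b : E3) (hl : 0 < l) (x : E3) : b + l⁻¹ • l • (x - b) = x := (scE b hl).left_inv x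

theorem sc_right (b : E3) (hl : 0 < l) (y : E3) : l • (b + l⁻¹ • y - b) = y :=
  (scE b hl).right_inv y

theorem sc_dist (b : E3) (hl : 0 < l) (x y : E3) :
    ‖l • (x - b) - y‖ = l * ‖x - (b + l⁻¹ • y)‖ := by
  rw [← Real.norm_of_nonneg hl.le, ← norm_smul, Real.norm_of_nonneg hl.le]
  congr 1
  simp only [smul_sub, smul_add, smul_smul, mul_inv_cancel₀ hl.ne', one_smul]
  abel

theorem sc_ball (b : E3) (hl : 0 < l) (y : E3) (r : ℝ) :
    (fun x => l • (x - b)) ⁻¹' ball y r = ball (b + l⁻¹ • y) (r / l) := by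
  ext x
  simp only [mem_preimage, mem_ball_iff_norm, sc_dist b hl, lt_div_iff₀' hl]

theorem sc_closedBall (b : E3) (hl : 0 < l) (y : E3) (r : ℝ) :
    (fun x => l • (x - b)) ⁻¹' closedBall y r = closedBall (b + l⁻¹ • y) (r / l) := by
  ext x
  simp only [mem_preimage, mem_closedBall_iff_norm, sc_dist b hl, le_div_iff₀' hl]

theorem H2_sc (b : E3) (hl : 0 < l) :
    H2 = ENNReal.ofReal (l ^ 2) • H2.map fun x => l • (x - b) := by
  ext s hs
  have e : s = l • ((fun x => x - b) '' ((fun x => l • (x - b)) ⁻¹' s)) := by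
    rw [← image_smul, image_image]
    exact (image_preimage_eq s (scE b hl).surjective).symm
  have i : Isometry fun x : E3 => x - b := fun x y => by simp
  rw [Measure.smul_apply, (sc_emb b hl).map_apply]
  conv_lhs => rw [e, Measure.euclideanHausdorffMeasure_smul₀ 2 hl.ne',
    i.euclideanHausdorffMeasure_image]
  rw [ENNReal.smul_def, ENNReal.ofReal_pow hl.le, ENNReal.coe_pow, ← Real.enorm_eq_ofReal hl.le]
  rfl

theorem mu_sc (S : Srf) (b : E3) (hl : 0 < l) :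
    (S.sc b l).μ = ENNReal.ofReal (l ^ 2) • S.μ.map fun x => l • (x - b) := by
  rw [Srf.μ]
  conv_lhs => rw [H2_sc b hl, Measure.restrict_smul, (sc_emb b hl).restrict_map]
  congr 3
  ext x
  simp only [Srf.G, Srf.sc, mem_preimage, mem_setOf_eq, sc_left b hl]

theorem mu_sc_apply (S : Srf) (b : E3) (hl : 0 < l) (s : Set E3) :
    (S.sc b l).μ s = ENNReal.ofReal (l ^ 2) * S.μ ((fun x => l • (x - b)) ⁻¹' s) := by
  rw [mu_sc S b hl, Measure.smul_apply, (sc_emb b hl).map_apply, smul_eq_mul]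

theorem setIntegral_sc (S : Srf) (b : E3) (hl : 0 < l) (s : Set E3) (f : E3 → ℝ) :
    ∫ y in s, f y ∂(S.sc b l).μ =
      l ^ 2 * ∫ x in (fun x => l • (x - b)) ⁻¹' s, f (l • (x - b)) ∂S.μ := by
  rw [mu_sc S b hl, Measure.restrict_smul, integral_smul_measure, (sc_emb b hl).setIntegral_map,
    ENNReal.toReal_ofReal (sq_nonneg l), smul_eq_mul]

theorem integral_sc (S : Srf) (b : E3) (hl : 0 < l) (f : E3 → ℝ) :
    ∫ y, f y ∂(S.sc b l).μ = l ^ 2 * ∫ x, f (l • (x - b)) ∂S.μ := by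
  simpa using setIntegral_sc S b hl univ f

theorem lintegral_sc (S : Srf) (b : E3) (hl : 0 < l) (f : E3 → ℝ≥0∞) :
    ∫⁻ y, f y ∂(S.sc b l).μ = ENNReal.ofReal (l ^ 2) * ∫⁻ x, f (l • (x - b)) ∂S.μ := by
  rw [mu_sc S b hl, lintegral_smul_measure, (sc_emb b hl).lintegral_map, smul_eq_mul]

theorem fderiv_sc {X Y : Type*} [NormedAddCommGroup X] [NormedSpace ℝ X] [NormedAddCommGroup Y]
    [NormedSpace ℝ Y] (f : X → Y) (b : X) (c : ℝ) (y : X) :
    fderiv ℝ (fun y => f (b + c • y)) y = c • fderiv ℝ f (b + c • y) := by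
  rw [fderiv_comp_smul (f := fun z => f (b + z)), fderiv_comp_add_left]

theorem gradient_sc {N : ℕ} (f : E N → ℝ) (b : E N) (c : ℝ) (y : E N) :
    gradient (fun y => f (b + c • y)) y = c • gradient f (b + c • y) := by
  rw [gradient, fderiv_sc, map_smul]; rfl

theorem sc_grad (S : Srf) (b : E3) (l : ℝ) (y : E3) :
    gradient (S.sc b l).w y = l⁻¹ • gradient S.w (b + l⁻¹ • y) := gradient_sc S.w b _ y

theorem sc_P (S : Srf) (b : E3) (l : ℝ) (y : E3) : (S.sc b l).P y = S.P (b + l⁻¹ • y) := rfl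

theorem sc_A (S : Srf) (b : E3) (l : ℝ) (y : E3) : (S.sc b l).A y = l⁻¹ • S.A (b + l⁻¹ • y) := by
  rw [Srf.A, Srf.A, sc_P, ← ContinuousLinearMap.smul_comp, ← fderiv_sc]; rfl

theorem sc_H (S : Srf) (b : E3) (l : ℝ) (y : E3) : (S.sc b l).H y = l⁻¹ * S.H (b + l⁻¹ • y) := by
  rw [Srf.H, sc_A, trc_smul]; rfl

theorem sc_A2 (S : Srf) (b : E3) (l : ℝ) (y : E3) :
    (S.sc b l).A2 y = l⁻¹ ^ 2 * S.A2 (b + l⁻¹ • y) := by
  rw [Srf.A2, sc_A, ContinuousLinearMap.smul_comp, ContinuousLinearMap.comp_smul, trc_smul,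
    trc_smul, Srf.A2]
  ring

theorem sc_K (S : Srf) (b : E3) (l : ℝ) (y : E3) :
    (S.sc b l).K y = l⁻¹ ^ 2 * S.K (b + l⁻¹ • y) := by
  rw [Srf.K, Srf.K, dt, dt, sc_A, ContinuousLinearMap.smul_comp, ContinuousLinearMap.comp_smul,
    trc_smul, trc_smul, trc_smul]
  ring

theorem sc_phi (S : Srf) (b : E3) (hl : 0 < l) (x : E3) :
    (S.sc b l).φ (l • (x - b)) = l⁻¹ * S.H x - l * ⟪x - b, S.n x⟫ / 2 := by
  rw [Srf.φ, sc_H, real_inner_smul_left]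
  simp only [Srf.sc, sc_left b hl]

theorem unit_smul {c : ℝ} (hc : 0 < c) (v : E3) : ‖c • v‖⁻¹ • c • v = ‖v‖⁻¹ • v := by
  rw [norm_smul, Real.norm_of_nonneg hc.le, smul_smul, mul_inv, mul_right_comm,
    inv_mul_cancel₀ hc.ne', one_mul]

theorem Srf.Ok.sc (h : S.Ok) (b : E3) (hl : 0 < l) : (S.sc b l).Ok := by
  have c : ContDiff ℝ ∞ fun y : E3 => b + l⁻¹ • y := by fun_prop
  refine ⟨h.sw.comp c, h.sn.comp c, fun y hy => ?_, fun y hy => ?_⟩
  · rw [sc_grad]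
    exact smul_ne_zero (inv_pos.2 hl).ne' (h.reg _ hy)
  · filter_upwards [(c.continuous.tendsto y).eventually (h.nrm _ hy)] with z hz
    rw [sc_grad, unit_smul (inv_pos.2 hl)]
    exact hz

theorem AR.sc (h : AR Λ S.μ) (b : E3) (hl : 0 < l) : AR Λ (S.sc b l).μ := fun y r hr => by
  rw [mu_sc_apply S b hl, sc_closedBall b hl]
  refine (mul_le_mul_right (h _ _ (div_pos hr hl)) _).trans_eq ?_
  rw [← ENNReal.ofReal_mul (sq_nonneg l)]
  congr 1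
  field_simp

theorem Srf.GBd.sc (h : S.GBd G) (b : E3) (hl : 0 < l) : (S.sc b l).GBd G := fun y r hr => by
  have := h (b + l⁻¹ • y) (r / l) (div_pos hr hl)
  have e : l ^ 2 * l⁻¹ ^ 2 = 1 := by field_simp
  rw [setIntegral_sc S b hl, setIntegral_sc S b hl, sc_ball b hl, sc_closedBall b hl]
  simp only [sc_A2, sc_H, sc_left b hl, mul_pow, integral_const_mul, ← mul_assoc, e, one_mul]
  rwa [mul_div_assoc]

theorem gs_sc (S : Srf) (b : E3) (hl : 0 < l) (y : E3) (ρ : ℝ) :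
    gs (S.sc b l).μ y ρ = gs S.μ (b + l⁻¹ • y) (ρ / l) := by
  have e : ∀ a : ℝ, -(l * a) ^ 2 / (4 * ρ ^ 2) = -a ^ 2 / (4 * (ρ / l) ^ 2) := fun a => by
    field_simp
  rw [gs, gs, integral_sc S b hl, ← mul_assoc]
  simp only [sc_dist b hl, e]
  congr 1
  field_simp

theorem sc_sc (S : Srf) (b : E3) (hl : 0 < l) : (S.sc b l).sc (-(l • b)) l⁻¹ = S := by
  have e : ∀ y, b + l⁻¹ • (-(l • b) + l⁻¹⁻¹ • y) = y := fun y => by
    simp [smul_smul, hl.ne']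
  simp only [Srf.sc, e]

theorem itd_sc {X Y : Type*} [NormedAddCommGroup X] [NormedSpace ℝ X] [NormedAddCommGroup Y]
    [NormedSpace ℝ Y] (f : X → Y) (a c : ℝ) (k : ℕ) :
    iteratedFDeriv ℝ k (fun y => a • f (c • y)) =
      fun y => (a * c ^ k) • iteratedFDeriv ℝ k f (c • y) := by
  induction k with
  | zero => ext; simp
  | succ k ih =>
    funext y
    rw [iteratedFDeriv_succ_eq_comp_left, iteratedFDeriv_succ_eq_comp_left, ih]
    simp only [Function.comp_apply]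
    rw [← map_smul, pow_succ, ← mul_assoc, mul_smul _ c, ← fderiv_comp_smul]
    exact congrArg _ (congrFun (fderiv_const_smul_field (𝕜 := ℝ)
      (f := fun x => iteratedFDeriv ℝ k f (c • x)) (a * c ^ k)) y)

theorem Srf.Gr.sc {L : E 2 →ₗᵢ[ℝ] E3} {v : E 2 → ℝ} (H : S.Gr p e L r h v) (b : E3) (hl : 0 < l) :
    (S.sc b l).Gr (l • (p - b)) e L (l * r) (l * h) fun y => l * v (l⁻¹ • y) := fun y hy => by
  have i0 := inv_pos.2 hl
  obtain ⟨h1, h2⟩ := H (l⁻¹ • y) (by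
    rwa [norm_smul, Real.norm_of_nonneg i0.le, inv_mul_lt_iff₀ hl])
  refine ⟨by rwa [abs_mul, abs_of_pos hl, mul_lt_mul_iff_right₀ hl], fun s hs => ?_⟩
  have := h2 (l⁻¹ * s) (by rwa [abs_mul, abs_of_pos i0, inv_mul_lt_iff₀ hl])
  have e : b + l⁻¹ • (l • (p - b) + L y + s • e) = p + L (l⁻¹ • y) + (l⁻¹ * s) • e := by
    rw [smul_add, smul_add, ← add_assoc, ← add_assoc, sc_left b hl, map_smul, mul_smul]
  simp only [Srf.sc, e]
  rwa [inv_mul_lt_iff₀ hl, inv_mul_eq_iff_eq_mul₀ hl.ne'] at this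

theorem Srf.Reg.sc {L : E 2 →ₗᵢ[ℝ] E3} {C : ℕ → ℝ} (H : S.Reg p e L r C) (b : E3) (hl : 0 < l) :
    (S.sc b l).Reg (l • (p - b)) e L (l * r) C := by
  obtain ⟨v, h1, h2, h3⟩ := H
  have i0 := inv_pos.2 hl
  have m : ∀ y : E 2, ‖y‖ < l * r → ‖l⁻¹ • y‖ < r := fun y hy => by
    rwa [norm_smul, Real.norm_of_nonneg i0.le, inv_mul_lt_iff₀ hl]
  refine ⟨fun y => l * v (l⁻¹ • y), contDiffOn_const.mul (h1.comp (by fun_prop) fun y hy => ?_),
    h2.sc b hl, fun k y hy => ?_⟩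
  · exact mem_ball_zero_iff.2 (m y (mem_ball_zero_iff.1 hy))
  · rw [show (fun y => l * v (l⁻¹ • y)) = fun y => l • v (l⁻¹ • y) from rfl, itd_sc, norm_smul,
      Real.norm_of_nonneg (by positivity)]
    refine (mul_le_mul_of_nonneg_left (h3 k _ (m y hy)) (by positivity)).trans_eq ?_
    rw [mul_pow, inv_pow]
    field_simp

theorem reg_sc {L : E 2 →ₗᵢ[ℝ] E3} {C : ℕ → ℝ} (b : E3) (hl : 0 < l) :
    (S.sc b l).Reg (l • (p - b)) e L (l * r) C ↔ S.Reg p e L r C := by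
  refine ⟨fun H => ?_, fun H => H.sc b hl⟩
  have := H.sc (-(l • b)) (inv_pos.2 hl)
  rwa [sc_sc S b hl, inv_mul_cancel_left₀ hl.ne', sub_neg_eq_add, ← smul_add, sub_add_cancel,
    inv_smul_smul₀ hl.ne'] at this

/-! ### flows -/

theorem rs_sl (F : Flw) (x₀ : E3) (t₀ l s : ℝ) :
    (F.rs x₀ t₀ l).sl s = (F.sl (t₀ + s / l ^ 2)).sc x₀ l := rfl

theorem rs_mu (F : Flw) (x₀ : E3) (t₀ : ℝ) (hl : 0 < l) (s : ℝ) :
    (F.rs x₀ t₀ l).μ s = rescaled 2 F.μ x₀ t₀ l s := mu_sc (F.sl (t₀ + s / l ^ 2)) x₀ hl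

theorem rsl_mu (F : Flw) (x₀ : E3) (t₀ τ : ℝ) : (F.rsl x₀ t₀ τ).μ = NN 2 F.μ x₀ t₀ τ :=
  rs_mu F x₀ t₀ (Real.exp_pos τ) (-1)

theorem rs_mem {a b t₀ s : ℝ} (hl : 0 < l) :
    s ∈ Ioo (l ^ 2 * (a - t₀)) (l ^ 2 * (b - t₀)) ↔ t₀ + s / l ^ 2 ∈ Ioo a b := by
  have := pow_pos hl 2
  rw [mem_Ioo, mem_Ioo, ← lt_div_iff₀' this, ← div_lt_iff₀' this, sub_lt_iff_lt_add',
    lt_sub_iff_add_lt']

theorem Flw.Ok.rs {a b : ℝ} (h : F.Ok a b) (x₀ : E3) (t₀ : ℝ) (hl : 0 < l) :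
    (F.rs x₀ t₀ l).Ok (l ^ 2 * (a - t₀)) (l ^ 2 * (b - t₀)) := by
  have c : ContDiff ℝ ∞ fun p : ℝ × E3 => (t₀ + p.1 / l ^ 2, x₀ + l⁻¹ • p.2) := by fun_prop
  have i0 := inv_pos.2 hl
  refine ⟨h.su.comp c.contDiffOn fun p hp => ⟨(rs_mem hl).1 hp.1, trivial⟩,
    h.sn.comp c.contDiffOn fun p hp => ⟨(rs_mem hl).1 hp.1, trivial⟩, fun s hs y hy => ?_,
    fun s hs y hy => ?_, fun s hs y hy => ?_⟩
  · rw [rs_sl, sc_grad]
    exact smul_ne_zero i0.ne' (h.reg _ ((rs_mem hl).1 hs) _ hy)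
  · filter_upwards [(c.continuous.tendsto (s, y)).eventually (h.nrm _ ((rs_mem hl).1 hs) _ hy)]
      with q hq
    rw [rs_sl, sc_grad, unit_smul i0]
    exact hq
  · have e : ∀ s : ℝ, s / l ^ 2 = (l ^ 2)⁻¹ * s := fun s => div_eq_inv_mul _ _
    have := h.eq _ ((rs_mem hl).1 hs) _ hy
    rw [rs_sl, sc_grad, sc_H, norm_smul, Real.norm_of_nonneg i0.le]
    simp only [Flw.rs, e] at this ⊢
    rw [deriv_comp_mul_left (f := fun s => F.u (t₀ + s, x₀ + l⁻¹ • y)),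
      deriv_comp_const_add (f := fun s => F.u (s, x₀ + l⁻¹ • y)), this, smul_eq_mul, ← inv_pow]
    ring

theorem Flw.OkA.rs {a b : ℝ} (h : F.OkA a b Λ) (x₀ : E3) (t₀ : ℝ) (hl : 0 < l) :
    (F.rs x₀ t₀ l).OkA (l ^ 2 * (a - t₀)) (l ^ 2 * (b - t₀)) Λ :=
  ⟨h.toOk.rs x₀ t₀ hl, fun s hs => AR.sc (S := F.sl _) (h.ar _ ((rs_mem hl).1 hs)) x₀ hl⟩

theorem Flw.Good.rs {a b : ℝ} (h : F.Good a b Λ G) (x₀ : E3) (t₀ : ℝ) (hl : 0 < l) :
    (F.rs x₀ t₀ l).Good (l ^ 2 * (a - t₀)) (l ^ 2 * (b - t₀)) Λ G :=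
  ⟨h.toOkA.rs x₀ t₀ hl, fun s hs => (h.gb _ ((rs_mem hl).1 hs)).sc x₀ hl⟩

/-- **RSC** -/
theorem rsc : RSC :=
  ⟨fun S b _ hl => mu_sc S b hl, fun S b _ hl h => ⟨h.sc b hl, fun _ k => k.sc b hl,
    fun _ k => k.sc b hl, fun y ρ _ => gs_sc S b hl y ρ⟩,
    fun F _ _ t₀ _ x₀ hl => ⟨rs_mu F x₀ t₀ hl, fun h => h.rs x₀ t₀ hl, fun _ h => h.rs x₀ t₀ hl,
      fun _ _ h => h.rs x₀ t₀ hl⟩⟩

theorem flow_sl (S : Srf) (t : ℝ) : S.flow.sl t = S.sc 0 √(-t) := by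
  simp only [Srf.flow, Flw.sl, Srf.sc, zero_add]

theorem Shr.flow_ok (h : Shr S Λ G) (a : ℝ) : S.flow.Ok a 0 := by
  have pos : ∀ t : ℝ, t < 0 → 0 < √(-t) := fun t ht => Real.sqrt_pos.2 (neg_pos.2 ht)
  have c : ∀ p : ℝ × E3, p.1 < 0 → ContDiffAt ℝ ∞ (fun p : ℝ × E3 => (√(-p.1))⁻¹ • p.2) p :=
    fun p hp => ((contDiffAt_fst.neg.sqrt (neg_pos.2 hp).ne').inv (pos _ hp).ne').smul
      contDiffAt_snd
  refine ⟨fun p hp => (h.ok.sw.contDiffAt.comp p (c p hp.1.2)).contDiffWithinAt,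
    fun p hp => (h.ok.sn.contDiffAt.comp p (c p hp.1.2)).contDiffWithinAt, fun t ht x hx => ?_,
    fun t ht x hx => ?_, fun t ht x hx => ?_⟩
  · rw [flow_sl, sc_grad, zero_add]
    exact smul_ne_zero (inv_pos.2 (pos t ht.2)).ne' (h.ok.reg _ hx)
  · filter_upwards [(c (t, x) ht.2).continuousAt.eventually (h.ok.nrm _ hx),
      (continuous_fst.tendsto (t, x)).eventually (Iio_mem_nhds ht.2)] with q h1 h2
    rw [flow_sl, sc_grad, zero_add, unit_smul (inv_pos.2 (pos _ h2))]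
    exact h1
  · have l0 := pos t ht.2
    have d1 : HasDerivAt (fun s : ℝ => (√(-s))⁻¹ • x) ((-(-1 / (2 * √(-t))) / √(-t) ^ 2) • x) t :=
      (((hasDerivAt_neg t).sqrt (neg_pos.2 ht.2).ne').inv l0.ne').smul_const x
    have d2 := ((h.ok.sw.differentiable (by simp)) _).hasFDerivAt.comp_hasDerivAt t d1
    have e1 := (h.ok.nrm _ hx).self_of_nhds
    have e2 := h.eq _ hx
    have g0 := norm_ne_zero_iff.2 (h.ok.reg _ hx)
    rw [Srf.φ, e1, real_inner_smul_right, real_inner_smul_left, real_inner_comm, inner_grad,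
      sub_eq_zero] at e2
    rw [flow_sl, sc_grad, sc_H, zero_add, norm_smul, Real.norm_of_nonneg (inv_pos.2 l0).le, e2,
      show deriv (fun s => S.flow.u (s, x)) t = _ from d2.deriv, map_smul, smul_eq_mul]
    dsimp only at g0 ⊢
    generalize (√(-t))⁻¹ • x = y at *
    field_simp

/-- **SSF** -/
theorem ssf : SSF := fun S Λ G a h =>
  ⟨⟨h.flow_ok a, fun t ht => by
    rw [Flw.μ, flow_sl]; exact h.ar.sc 0 (Real.sqrt_pos.2 (neg_pos.2 ht.2))⟩, fun t ht => by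
    rw [flow_sl]; exact h.gb.sc 0 (Real.sqrt_pos.2 (neg_pos.2 ht.2))⟩

end Vale.Agent.P218R
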