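import Vale.Agent.P218R.Stm

/-! # P218R: a closed embedded hypersurface of a vector space is a regular level set -/

open Filter Topology Set Metric
open scoped ContDiff Manifold

noncomputable section

namespace Vale.Agent.P218R

namespace Ori

variable {X : Type} [NormedAddCommGroup X] [NormedSpace ℝ X] {G : Set X} {f g h : X → ℝ} {q : X}

/-- a defining function near `q` -/
def Df (G : Set X) (f : X → ℝ) (q : X) : Prop :=
  (∀ᶠ y in 𝓝 q, y ∈ G ↔ f y = 0) ∧ (q ∈ G → fderiv ℝ f q ≠ 0)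

/-- the signs near `q` differ by `ε` -/
def Sg (G : Set X) (f g : X → ℝ) (ε : ℤˣ) (q : X) : Prop :=
  ∀ᶠ y in 𝓝 q, y ∉ G → 0 < ((ε : ℤ) : ℝ) * (f y * g y)

lemma mono (hf : ContDiff ℝ ∞ f) {x e : X} {δ : ℝ}
    (h : ∀ t ∈ Icc (-δ) δ, 0 < fderiv ℝ f (x + t • e) e) :
    StrictMonoOn (fun t : ℝ => f (x + t • e)) (Icc (-δ) δ) := by
  refine strictMonoOn_of_deriv_pos (convex_Icc _ _)
    (hf.continuous.comp (by fun_prop)).continuousOn fun t ht => ?_
  have : HasDerivAt (fun t : ℝ => f (x + t • e)) (fderiv ℝ f (x + t • e) e) t := by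
    have := ((hf.differentiable (by simp)) (x + t • e)).hasFDerivAt.comp_hasDerivAt t
      (((hasDerivAt_id t).smul_const e).const_add x)
    rwa [one_smul] at this
  rw [this.deriv]
  exact h t (interior_subset ht)

lemma pos (hf : ContDiff ℝ ∞ f) (hg : ContDiff ℝ ∞ g) (hq : q ∈ G)
    (df : ∀ᶠ y in 𝓝 q, y ∈ G ↔ f y = 0) (dg : ∀ᶠ y in 𝓝 q, y ∈ G ↔ g y = 0) {e : X}
    (ef : 0 < fderiv ℝ f q e) (eg : 0 < fderiv ℝ g q e) :
    ∀ᶠ y in 𝓝 q, y ∉ G → 0 < f y * g y := by
  have c : ∀ f : X → ℝ, ContDiff ℝ ∞ f → 0 < fderiv ℝ f q e →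
      ∀ᶠ y in 𝓝 q, 0 < fderiv ℝ f y e := fun f hf ef =>
    (((hf.continuous_fderiv (by simp)).clm_apply continuous_const).tendsto q).eventually
      (lt_mem_nhds ef)
  obtain ⟨r, r0, hr⟩ := Metric.eventually_nhds_iff_ball.1
    ((df.and dg).and ((c f hf ef).and (c g hg eg)))
  obtain ⟨δ, δ0, hδ⟩ : ∃ δ > 0, δ * ‖e‖ < r / 2 :=
    ⟨r / 2 / (‖e‖ + 1), by positivity, by
      rw [div_mul_eq_mul_div, div_lt_iff₀ (by positivity)]
      nlinarith⟩
  have m : ∀ x ∈ ball q (r / 2), ∀ t ∈ Icc (-δ) δ, x + t • e ∈ ball q r := fun x hx t ht => by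
    rw [mem_ball_iff_norm] at hx ⊢
    have h1 : ‖t • e‖ ≤ δ * ‖e‖ := by
      rw [norm_smul]
      exact mul_le_mul_of_nonneg_right (abs_le.2 ht) (norm_nonneg _)
    rw [add_sub_right_comm]
    linarith [norm_add_le (x - q) (t • e)]
  have i0 : (0 : ℝ) ∈ Icc (-δ) δ := ⟨by linarith, δ0.le⟩
  have i1 : -δ ∈ Icc (-δ) δ := ⟨le_rfl, by linarith⟩
  have i2 : δ ∈ Icc (-δ) δ := ⟨by linarith, le_rfl⟩
  have mq := mono hf fun t ht => (hr _ (m q (mem_ball_self (by linarith)) t ht)).2.1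
  have q0 : f q = 0 := df.self_of_nhds.1 hq
  have a1 : f (q + -δ • e) < 0 := by simpa [q0] using mq i1 i0 (by linarith)
  have a2 : 0 < f (q + δ • e) := by simpa [q0] using mq i0 i2 δ0
  have cf : ∀ t : ℝ, Continuous fun x => f (x + t • e) := fun t => hf.continuous.comp (by fun_prop)
  filter_upwards [ball_mem_nhds q (half_pos r0), ((cf _).tendsto q).eventually (gt_mem_nhds a1),
    ((cf _).tendsto q).eventually (lt_mem_nhds a2)] with x hx b1 b2 hG
  obtain ⟨t, ht, e1⟩ := intermediate_value_Icc (show -δ ≤ δ by linarith)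
    (f := fun t : ℝ => f (x + t • e)) (hf.continuous.comp (by fun_prop)).continuousOn
    ⟨b1.le, b2.le⟩
  have tG := (hr _ (m x hx t ht)).1.1.2 e1
  have e2 := (hr _ (m x hx t ht)).1.2.1 tG
  have mf := mono hf fun t ht => (hr _ (m x hx t ht)).2.1
  have mg := mono hg fun t ht => (hr _ (m x hx t ht)).2.2
  simp only at e1
  rcases lt_trichotomy t 0 with h | rfl | h
  · exact mul_pos (by simpa [e1] using mf ht i0 h) (by simpa [e2] using mg ht i0 h)
  · exact absurd (by simpa using tG) hG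
  · exact mul_pos_of_neg_of_neg (by simpa [e1] using mf i0 ht h) (by simpa [e2] using mg i0 ht h)

lemma ex_sg (hf : ContDiff ℝ ∞ f) (hg : ContDiff ℝ ∞ g) (df : Df G f q) (dg : Df G g q) :
    Sg G f g 1 q ∨ Sg G f g (-1) q := by
  simp only [Sg, Units.val_one, Int.cast_one, one_mul, Units.val_neg, Int.cast_neg, neg_mul]
  by_cases hq : q ∈ G
  · obtain ⟨e, e1, e2⟩ : ∃ e, 0 < fderiv ℝ f q e ∧ fderiv ℝ g q e ≠ 0 := by
      obtain ⟨e, e1, e2⟩ : ∃ e, fderiv ℝ f q e ≠ 0 ∧ fderiv ℝ g q e ≠ 0 := by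
        obtain ⟨a, ha⟩ := DFunLike.ne_iff.1 (df.2 hq)
        obtain ⟨b, hb⟩ := DFunLike.ne_iff.1 (dg.2 hq)
        by_cases h1 : fderiv ℝ g q a = 0
        · by_cases h2 : fderiv ℝ f q b = 0
          · exact ⟨a + b, by simpa [h2] using ha, by simpa [h1] using hb⟩
          · exact ⟨b, h2, hb⟩
        · exact ⟨a, ha, h1⟩
      rcases e1.lt_or_gt with h | h
      · exact ⟨-e, by simpa using h, by simpa using e2⟩
      · exact ⟨e, h, e2⟩
    rcases e2.lt_or_gt with h | h
    · right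
      simpa using pos hf hg.neg hq df.1 (by simpa using dg.1) e1 (by simpa [fderiv_fun_neg] using h)
    · exact .inl (pos hf hg hq df.1 dg.1 e1 h)
  · have c := (hf.continuous.mul hg.continuous).tendsto q
    rcases (mul_ne_zero (mt df.1.self_of_nhds.2 hq) (mt dg.1.self_of_nhds.2 hq)).lt_or_gt
      with h | h
    · exact .inr ((c.eventually (gt_mem_nhds h)).mono fun y hy _ => neg_pos.2 hy)
    · exact .inl ((c.eventually (lt_mem_nhds h)).mono fun y hy _ => hy)

lemma freq (df : Df G f q) : ∃ᶠ y in 𝓝 q, y ∉ G := by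
  intro h
  simp only [not_not] at h
  refine df.2 h.self_of_nhds ?_
  rw [show fderiv ℝ f q = fderiv ℝ (fun _ => (0 : ℝ)) q from
    EventuallyEq.fderiv_eq ((h.and df.1).mono fun y hy => hy.2.1 hy.1)]
  simp

open Classical in
/-- the transition sign -/
def ep (G : Set X) (f g : X → ℝ) (q : X) : ℤˣ := if Sg G f g 1 q then 1 else -1

lemma sg_ep (hf : ContDiff ℝ ∞ f) (hg : ContDiff ℝ ∞ g) (df : Df G f q) (dg : Df G g q) :
    Sg G f g (ep G f g q) q := by
  unfold ep
  split_ifs with h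
  exacts [h, (ex_sg hf hg df dg).resolve_left h]

lemma coc (df : Df G f q) {a b c : ℤˣ} (h1 : Sg G f g a q) (h2 : Sg G g h b q)
    (h3 : Sg G f h c q) : b * a = c := by
  obtain ⟨y, hy, k1, k2, k3⟩ := ((freq df).and_eventually (h1.and (h2.and h3))).exists
  have := mul_pos (mul_pos (k1 hy) (k2 hy)) (k3 hy)
  have p := mul_self_nonneg (f y * g y * h y)
  rcases Int.units_eq_one_or a with rfl | rfl <;> rcases Int.units_eq_one_or b with rfl | rfl <;>
    rcases Int.units_eq_one_or c with rfl | rfl <;> first | rfl | (simp at this; nlinarith)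

lemma sg_self (df : Df G f q) : Sg G f f 1 q :=
  df.1.mono fun y hy h => by simpa using mt hy.2 h

lemma side [FiniteDimensional ℝ X] {F : X → X → ℝ} {U : X → Set X} (hF : ∀ a, ContDiff ℝ ∞ (F a))
    (hU : ∀ a, IsOpen (U a)) (hm : ∀ a, a ∈ U a) (hD : ∀ a, ∀ q ∈ U a, Df G (F a) q) :
    ∃ η : X → ℤˣ, ∀ p, ∀ᶠ y in 𝓝 p, ep G (F y) (F p) y * η y = η p := by
  have sg := fun a b q ha hb => sg_ep (hF a) (hF b) (hD a q ha) (hD b q hb)
  have e1 : ∀ a, ∀ q ∈ U a, ep G (F a) (F a) q = 1 := fun a q ha =>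
    (coc (hD a q ha) (sg_self (hD a q ha)) (sg_self (hD a q ha)) (sg a a q ha ha)).symm
  let Z : FiberBundleCore X X ℤˣ :=
    { baseSet := U
      isOpen_baseSet := hU
      indexAt := id
      mem_baseSet_at := hm
      coordChange := fun a b q v => ep G (F a) (F b) q * v
      coordChange_self := fun a q ha v => by rw [e1 a q ha, one_mul]
      continuousOn_coordChange := fun a b => by
        refine ContinuousOn.mul (ContinuousOn.comp (g := ep G (F a) (F b)) (t := U a ∩ U b)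
          (fun q hq => ?_) continuousOn_fst fun _ h => (mem_prod.1 h).1) continuousOn_snd
        refine (continuousAt_const (y := ep G (F a) (F b) q)).congr ?_ |>.continuousWithinAt
        filter_upwards [((hU a).inter (hU b)).mem_nhds hq,
          (sg a b q hq.1 hq.2).eventually_nhds] with x hx h1
        simpa using coc (hD a x hx.1) (sg_self (hD a x hx.1)) h1 (sg a b x hx.1 hx.2)
      coordChange_comp := fun a b c q hq v => by
        rw [← mul_assoc, coc (hD a q hq.1.1) (sg a b q hq.1.1 hq.1.2) (sg b c q hq.1.2 hq.2)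
          (sg a c q hq.1.1 hq.2)] }
  have cov : IsCoveringMap Z.proj :=
    IsFiberBundle.isCoveringMap fun x => ⟨Z.localTriv x, hm x⟩
  obtain ⟨s, ⟨-, hs⟩, -⟩ := cov.existsUnique_continuousMap_lifts (ContinuousMap.id X) 0
    ⟨0, (1 : ℤˣ)⟩ rfl
  have hs' : ∀ x, (s x).1 = x := congrFun hs
  refine ⟨fun x => (s x).2, fun p => ?_⟩
  have c : ContinuousAt (fun y => (Z.localTriv p (s y)).2) p :=
    continuousAt_snd.comp (((Z.localTriv p).continuousAt
      (show (s p).1 ∈ U p by rw [hs']; exact hm p)).comp s.continuous.continuousAt)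
  filter_upwards [c.eventually ((isOpen_discrete {(Z.localTriv p (s p)).2}).mem_nhds rfl)]
    with y hy
  change ep G (F (s y).1) (F p) (s y).1 * _ = ep G (F (s p).1) (F p) (s p).1 * _ at hy
  rw [hs' y, hs' p, e1 p p (hm p)] at hy
  exact hy.trans (one_mul (M := ℤˣ) _)

end Ori

open Ori in
/-- **ORI** -/
theorem ori : ORI := by
  intro X _ _ _ G hG hf
  have ex : ∀ a : X, ∃ (F : X → ℝ) (U : Set X), ContDiff ℝ ∞ F ∧ IsOpen U ∧ a ∈ U ∧
      ∀ q ∈ U, Df G F q := fun a => by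
    by_cases ha : a ∈ G
    · obtain ⟨f, h1, h2, h3⟩ := hf a ha
      obtain ⟨U, u1, u2, u3⟩ := _root_.eventually_nhds_iff.1 (h3.eventually_nhds.and
        (((h1.continuous_fderiv (by simp)).tendsto a).eventually (isOpen_ne.mem_nhds h2)))
      exact ⟨f, U, h1, u2, u3, fun q hq => ⟨(u1 q hq).1, fun _ => (u1 q hq).2⟩⟩
    · exact ⟨fun _ => 1, Gᶜ, contDiff_const, hG.isOpen_compl, ha, fun q hq =>
        ⟨mem_of_superset (hG.isOpen_compl.mem_nhds hq) fun y hy => by simpa using hy,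
          fun h => absurd h hq⟩⟩
  choose F U hF hU hm hD using ex
  obtain ⟨η, hη⟩ := side hF hU hm hD
  choose V v1 v2 v3 using fun p => _root_.eventually_nhds_iff.1
    ((hη p).and ((hU p).eventually_mem (hm p)))
  obtain ⟨ρ, hρ⟩ := SmoothPartitionOfUnity.exists_isSubordinate 𝓘(ℝ, X) isClosed_univ V v2
    fun p _ => mem_iUnion.2 ⟨p, v3 p⟩
  have hV : ∀ a y, ρ a y ≠ 0 → y ∈ V a := fun a y h => hρ a (subset_tsupport _ h)
  set k : X → X → ℝ := fun a y => ((η a : ℤ) : ℝ) * F a y with hk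
  have k0 : ∀ a, ((η a : ℤ) : ℝ) ≠ 0 := fun a => Int.cast_ne_zero.2 (η a).ne_zero
  have ks : ∀ a, ContDiff ℝ ∞ (k a) := fun a => contDiff_const.mul (hF a)
  have z : ∀ a, ∀ y ∈ G, ρ a y • k a y = 0 := fun a y hy => by
    by_cases h : ρ a y = 0
    · simp [h]
    · simp [hk, (hD a y (v1 a y (hV a y h)).2).1.self_of_nhds.1 hy]
  have p1 : ∀ a y, y ∉ G → ρ a y ≠ 0 → 0 < k y y * (ρ a y • k a y) := fun a y hy h => by
    obtain ⟨h1, h2⟩ := v1 a y (hV a y h)
    have h3 := (sg_ep (hF y) (hF a) (hD y y (hm y)) (hD a y h2)).self_of_nhds hy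
    have h4 := mul_pos (mul_pos h3 ((ρ.nonneg a y).lt_of_ne' h)) (mul_self_pos.2 (k0 y))
    refine h4.trans_eq ?_
    simp only [hk]
    rw [← h1, Units.val_mul, Int.cast_mul, smul_eq_mul]
    ring
  have p2 : ∀ a y, y ∉ G → 0 ≤ k y y * (ρ a y • k a y) := fun a y hy => by
    by_cases h : ρ a y = 0
    · simp [h]
    · exact (p1 a y hy h).le
  have p3 : ∀ a y, y ∉ G → k y y * (ρ a y • k a y) ≤ k y y * ∑ᶠ b, ρ b y • k b y :=
    fun a y hy => by
      have fin : (Function.support fun b => ρ b y • k b y).Finite :=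
        (ρ.locallyFinite.point_finite y).subset fun b hb => left_ne_zero_of_smul hb
      rw [mul_finsum' _ _ fin]
      exact single_le_finsum a (f := fun b => k y y * (ρ b y • k b y))
        (fin.subset fun b hb => right_ne_zero_of_mul hb) fun b => p2 b y hy
  have ws : ContDiff ℝ ∞ fun y => ∑ᶠ b, ρ b y • k b y :=
    contDiff_iff_contDiffAt.2 fun y => ρ.contDiffAt_finsum fun a _ => (ks a).contDiffAt
  refine ⟨_, ws, fun q => ⟨fun hq => by simp only [z _ q hq, finsum_zero], fun h => ?_⟩,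
    fun p hp h => ?_⟩
  · by_contra hq
    obtain ⟨a, ha⟩ := ρ.exists_pos_of_mem (mem_univ q)
    have := (p1 a q hq ha.ne').trans_le (p3 a q hq)
    rw [h, mul_zero] at this
    exact lt_irrefl _ this
  obtain ⟨a, ha⟩ := ρ.exists_pos_of_mem (mem_univ p)
  have da := hD a p (v1 a p (hV a p ha.ne')).2
  have le : ∀ y, ‖ρ a y • k a y‖ ≤ ‖∑ᶠ b, ρ b y • k b y‖ := fun y => by
    by_cases hy : y ∈ G
    · rw [z a y hy, norm_zero]
      exact norm_nonneg _
    have y0 : k y y ≠ 0 := mul_ne_zero (k0 y) (mt (hD y y (hm y)).1.self_of_nhds.2 hy)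
    refine le_of_mul_le_mul_left ?_ (norm_pos_iff.2 y0)
    rw [← norm_mul, ← norm_mul, Real.norm_of_nonneg (p2 a y hy)]
    exact (p3 a y hy).trans (le_abs_self _)
  have d1 := (ws.differentiable (by simp) p).hasFDerivAt
  rw [h, hasFDerivAt_iff_isLittleO] at d1
  have d2 : HasFDerivAt (fun y => ρ a y • k a y) (0 : X →L[ℝ] ℝ) p := by
    rw [hasFDerivAt_iff_isLittleO]
    refine (Asymptotics.IsBigO.of_bound' (.of_forall fun y => ?_)).trans_isLittleO d1
    simpa only [z _ p hp, finsum_zero, sub_zero, zero_apply] using le y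
  have d3 := ((ρ a).contMDiff.contDiff.differentiable (by simp) p).hasFDerivAt.mul
    (((hF a).differentiable (by simp) p).hasFDerivAt.const_mul ((η a : ℤ) : ℝ))
  have d4 := d3.unique d2
  rw [da.1.self_of_nhds.1 hp, mul_zero, zero_smul, add_zero, smul_smul, smul_eq_zero] at d4
  exact d4.elim (mul_ne_zero ha.ne' (k0 a)) (da.2 hp)

end Vale.Agent.P218R
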