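import Vale.Agent.P218R.Stm
import Vale.Agent.P366W.Gdiv
import Mathlib.Geometry.Manifold.PartitionOfUnity
import Mathlib.MeasureTheory.Measure.Lebesgue.VolumeOfBalls

/-!
# P218R: the area is a Radon measure; the divergence theorem
-/

open MeasureTheory Metric Filter Topology Set
open scoped ContDiff ENNReal RealInnerProductSpace Manifold
open Vale.Agent.P366.Stmt (E)
open Vale.Agent.P366W

noncomputable section

namespace Vale.Agent.P218R

/-- localisation by a partition of unity -/
theorem loc_ind {X F : Type*} [NormedAddCommGroup X] [NormedSpace ℝ X] [FiniteDimensional ℝ X]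
    [NormedAddCommGroup F] [NormedSpace ℝ F] {k : ℕ∞} {P : (X → F) → Prop} (h0 : P 0)
    (add : ∀ Y Z, ContDiff ℝ k Y → HasCompactSupport Y → ContDiff ℝ k Z → HasCompactSupport Z →
      P Y → P Z → P (Y + Z))
    (loc : ∀ x, ∃ U ∈ 𝓝 x, ∀ Y, ContDiff ℝ k Y → HasCompactSupport Y → tsupport Y ⊆ U → P Y)
    {Y : X → F} (hY : ContDiff ℝ k Y) (hc : HasCompactSupport Y) : P Y := by
  obtain ⟨U, -, h1, h2⟩ := IsCompact.induction_on hc (p := fun s => ∃ U, IsOpen U ∧ s ⊆ U ∧
    ∀ Y, ContDiff ℝ k Y → HasCompactSupport Y → tsupport Y ⊆ U → P Y)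
    ⟨∅, isOpen_empty, subset_rfl, fun Y _ _ h => by
      rwa [tsupport_eq_empty_iff.1 (subset_empty_iff.1 h)]⟩
    (fun s t h ⟨U, a, b, c⟩ => ⟨U, a, h.trans b, c⟩)
    (fun s t ⟨U, a, b, c⟩ ⟨V, a', b', c'⟩ => ⟨U ∪ V, a.union a', union_subset_union b b',
      fun Y h1 h2 h3 => by
        obtain ⟨f, f0, f1, -⟩ := exists_contMDiffMap_zero_one_nhds_of_isClosed (n := ⊤) 𝓘(ℝ, X)
          ((isClosed_tsupport Y).sdiff a) ((isClosed_tsupport Y).sdiff a')
          (disjoint_left.2 fun x p q => (h3 p.1).elim p.2 q.2)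
        have hf : ContDiff ℝ k f := f.contMDiff.contDiff.of_le (by exact_mod_cast le_top)
        have key : ∀ (g : X → ℝ) (W : Set X), (∀ᶠ x in 𝓝ˢ (tsupport Y \ W), g x = 0) →
            tsupport (fun x => g x • Y x) ⊆ W := fun g W h x hx => by_contra fun e =>
          notMem_tsupport_iff_eventuallyEq.2 (((eventually_nhdsSet_iff_forall.1 h) x
            ⟨tsupport_smul_subset_right _ _ hx, e⟩).mono fun y hy => by simp [hy]) hx
        rw [show Y = (fun x => f x • Y x) + fun x => (1 - f x) • Y x from funext fun x => by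
          simp [sub_smul]]
        have hg : ContDiff ℝ k fun x => 1 - f x := contDiff_const.sub hf
        exact add _ _ (hf.smul h1) h2.smul_left (hg.smul h1) h2.smul_left
          (c _ (hf.smul h1) h2.smul_left (key _ _ f0))
          (c' _ (hg.smul h1) h2.smul_left (key _ _ (f1.mono fun x hx => by rw [hx, sub_self])))⟩)
    fun x _ => by
      obtain ⟨U, a, b⟩ := loc x
      exact ⟨interior U, mem_nhdsWithin_of_mem_nhds (interior_mem_nhds.2 a), _, isOpen_interior,
        subset_rfl, fun Y c d e => b Y c d (e.trans interior_subset)⟩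
  exact h2 Y hY hc h1

variable {p e : E3} {L : E 2 →ₗᵢ[ℝ] E3} {r h : ℝ} {S : Srf} {v : E 2 → ℝ}

theorem pt_dec (f : Fr e L) (p x : E3) : x = p + L (adj L (x - p)) + ⟪e, x - p⟫ • e := by
  rw [add_assoc, f.dec, add_sub_cancel]

theorem mem_cyl_pt (f : Fr e L) {y : E 2} {s : ℝ} :
    p + L y + s • e ∈ cyl p e L r h ↔ ‖y‖ < r ∧ |s| < h := by
  refine ⟨fun ⟨y', s', a, b, c⟩ => ?_, fun a => ⟨y, s, a.1, a.2, rfl⟩⟩
  rw [add_assoc, add_assoc, add_right_inj] at c
  have h1 := congrArg (adj L) c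
  have h2 := congrArg (⟪e, ·⟫) c
  simp only [f.adj_pt, f.e_pt] at h1 h2
  exact ⟨h1 ▸ a, h2 ▸ b⟩

theorem isOpen_cyl' (f : Fr e L) : IsOpen (cyl p e L r h) := by
  rw [show cyl p e L r h = {x | ‖adj L (x - p)‖ < r} ∩ {x | |⟪e, x - p⟫| < h} from
    Set.ext fun x => by
      conv_lhs => rw [pt_dec f p x, mem_cyl_pt f]
      rfl]
  exact (isOpen_lt (by fun_prop) continuous_const).inter (isOpen_lt (by fun_prop) continuous_const)

theorem cyl_mem_nhds (f : Fr e L) (hr : 0 < r) (hh : 0 < h) : cyl p e L r h ∈ 𝓝 p :=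
  (isOpen_cyl' f).mem_nhds ⟨0, 0, by simpa, by simpa, by simp⟩

theorem Srf.Ok.isClosed (h : S.Ok) : IsClosed S.G := isClosed_eq h.sw.continuous continuous_const

theorem area_cyl (A : AREA) (f : Fr e L) (g : S.Gr p e L r h v) (hv : ContDiffOn ℝ 1 v (ball 0 r)) :
    S.μ (cyl p e L r h) = ∫⁻ y in ball (0 : E 2) r, ENNReal.ofReal √(1 + ‖gradient v y‖ ^ 2) := by
  simpa [Srf.μ, Measure.restrict_apply (isOpen_cyl' f).measurableSet] using
    (A S p e L r h v f g hv).1 1 measurable_const

theorem low (G : GRF) (A : AREA) : LOW := fun S hS => by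
  refine ⟨⟨fun x => ?_⟩, fun p hp c hc => ?_⟩
  · by_cases hx : S.w x = 0
    · obtain ⟨L, f, v, hv, -, -, r, hr, h1, h2⟩ := G S x 1 hS hx one_pos
      refine ⟨_, cyl_mem_nhds f hr hr, ?_⟩
      rw [area_cyl A f (h2 r r hr le_rfl le_rfl) (hv.of_le (by simp)).contDiffOn]
      refine (setLIntegral_mono' measurableSet_ball (g := fun _ => ENNReal.ofReal √(1 + 1 ^ 2))
        fun y hy => ?_).trans_lt ?_
      · have := h1 y (mem_ball_zero_iff.1 hy)
        gcongr
      · rw [setLIntegral_const]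
        exact ENNReal.mul_lt_top ENNReal.ofReal_lt_top measure_ball_lt_top
    · refine ⟨S.Gᶜ, hS.isClosed.isOpen_compl.mem_nhds hx, ?_⟩
      simp [Srf.μ, Measure.restrict_apply hS.isClosed.measurableSet.compl]
  obtain ⟨σ, h0, h1⟩ : ∃ σ > (0 : ℝ), c * (1 + σ ^ 2) ≤ Real.pi := by
    have : ∀ᶠ σ in 𝓝[>] (0 : ℝ), c * (1 + σ ^ 2) < Real.pi := nhdsWithin_le_nhds
      ((by fun_prop : Continuous fun σ : ℝ => c * (1 + σ ^ 2)).continuousAt.eventually_lt
        continuousAt_const (by simpa))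
    obtain ⟨σ, a, b⟩ := (this.and self_mem_nhdsWithin).exists
    exact ⟨σ, b, a.le⟩
  obtain ⟨L, f, v, hv, v0, -, r₀, hr, h2, h3⟩ := G S p σ hS hp h0
  filter_upwards [Ioc_mem_nhdsGT hr] with r ⟨a, b⟩
  have q1 : 1 ≤ √(1 + σ ^ 2) := Real.one_le_sqrt.2 (by nlinarith)
  have q2 : √(1 + σ ^ 2) ^ 2 = 1 + σ ^ 2 := Real.sq_sqrt (by positivity)
  set ρ := r / √(1 + σ ^ 2) with hρ
  have ρ0 : 0 < ρ := by positivity
  have ρ1 : ρ ≤ r₀ := (div_le_self a.le q1).trans b
  have ρ2 : ρ ^ 2 * (1 + σ ^ 2) = r ^ 2 := by rw [hρ, div_pow, q2]; field_simp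
  have g := h3 ρ ρ ρ0 le_rfl ρ1
  calc ENNReal.ofReal (c * r ^ 2) ≤ ∫⁻ _ in ball (0 : E 2) ρ, 1 := by
        rw [setLIntegral_one, EuclideanSpace.volume_ball_fin_two, ← ENNReal.ofReal_pow ρ0.le,
          ← ENNReal.ofReal_mul (by positivity), ← ρ2]
        exact ENNReal.ofReal_le_ofReal (by nlinarith [sq_nonneg ρ])
    _ ≤ S.μ (cyl p (S.n p) L ρ ρ) := by
        rw [area_cyl A f g (hv.of_le (by simp)).contDiffOn]
        exact lintegral_mono fun y => ENNReal.one_le_ofReal.2 (Real.one_le_sqrt.2 (by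
          nlinarith [sq_nonneg ‖gradient v y‖]))
    _ ≤ _ := by
        rw [Srf.μ, Measure.restrict_apply (isOpen_cyl' f).measurableSet,
          Measure.restrict_apply measurableSet_ball]
        refine measure_mono ?_
        rintro _ ⟨⟨y, s, a1, a2, rfl⟩, a3⟩
        refine ⟨?_, a3⟩
        obtain rfl := ((g y a1).2 s a2).2.1 a3
        have a4 := (convex_ball (0 : E 2) r₀).norm_image_sub_le_of_norm_fderiv_le (𝕜 := ℝ) (f := v)
          (fun x _ => hv.differentiable (by simp) x)
          (fun x hx => norm_gradient v x ▸ h2 x (mem_ball_zero_iff.1 hx)) (mem_ball_self hr)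
          (mem_ball_zero_iff.2 (a1.trans_le ρ1))
        rw [v0, sub_zero, sub_zero, Real.norm_eq_abs] at a4
        rw [mem_ball_iff_norm, add_assoc, add_sub_cancel_left, ← sq_lt_sq₀ (norm_nonneg _) a.le,
          f.norm_sq, ← ρ2, ← sq_abs (v y)]
        have a5 := pow_le_pow_left₀ (abs_nonneg _) a4 2
        have a6 := pow_lt_pow_left₀ a1 (norm_nonneg _) two_ne_zero
        nlinarith [sq_nonneg σ]

theorem div (G : GRF) (N : GRN) (A : AREA) (lo : LOW) : DIV := fun S Y hS hY hc => by
  have := (lo S hS).1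
  have cn := hS.sn.continuous
  have o1 : IsOpen {x | S.w x < 0} := isOpen_lt hS.sw.continuous continuous_const
  have z1 : ∀ (Y : E3 → E3) (U : Set E3), tsupport Y ⊆ U → (∀ x ∈ U, S.w x ≠ 0) →
      ∫ x, ⟪S.n x, Y x⟫ ∂S.μ = 0 := fun Y U a b => setIntegral_eq_zero_of_forall_eq_zero fun x hx => by
    rw [image_eq_zero_of_notMem_tsupport fun e => b x (a e) hx, inner_zero_right]
  refine loc_ind (k := 1) (P := fun Y => ∫ x, ⟪S.n x, Y x⟫ ∂S.μ = ∫ x in {x | S.w x < 0}, dvg Y x)
    (by simp [dvg]) (fun Y Z a b c d e f => ?_) (fun x => ?_) hY hc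
  · have i1 : ∀ {Y : E3 → E3}, ContDiff ℝ 1 Y → HasCompactSupport Y →
        Integrable (fun x => ⟪S.n x, Y x⟫) S.μ := fun a b =>
      (cn.inner a.continuous).integrable_of_hasCompactSupport (b.mono fun x hx e => hx (by simp [e]))
    have i2 : ∀ {Y : E3 → E3}, ContDiff ℝ 1 Y → HasCompactSupport Y →
        IntegrableOn (dvg Y) {x | S.w x < 0} := fun a b =>
      ((continuous_dvg a).integrable_of_hasCompactSupport (hcs_dvg b)).integrableOn
    simp only [Pi.add_apply, inner_add_right]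
    rw [integral_add (i1 a b) (i1 c d), e, f, ← integral_add (i2 a b) (i2 c d)]
    exact integral_congr_ae (Eventually.of_forall fun x => (dvg_add (a.differentiable one_ne_zero x)
      (c.differentiable one_ne_zero x)).symm)
  rcases lt_trichotomy (S.w x) 0 with hx | hx | hx
  · refine ⟨_, o1.mem_nhds hx, fun Y a b c => ?_⟩
    rw [z1 Y _ c fun x h => ne_of_lt h, setIntegral_eq_integral_of_forall_compl_eq_zero
      fun x h => dvg_eq_zero fun e => h (c e), integral_dvg_zero a b]
  · obtain ⟨L, f, v, hv, -, -, r, hr, -, h2⟩ := G S x 1 hS hx one_pos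
    have g := h2 r r hr le_rfl le_rfl
    have v1 : ContDiff ℝ 1 v := hv.of_le (by simp)
    refine ⟨_, cyl_mem_nhds f hr hr, fun Y a b c => ?_⟩
    have y0 : ∀ x' ∉ cyl x (S.n x) L r r, Y x' = 0 := fun x' h =>
      image_eq_zero_of_notMem_tsupport fun e => h (c e)
    have mc := (isOpen_cyl' (p := x) (r := r) (h := r) f).measurableSet
    calc _ = ∫ x' in cyl x (S.n x) L r r ∩ S.G, ⟪S.n x', Y x'⟫ ∂H2 := by
          rw [← Measure.restrict_restrict mc]
          exact (setIntegral_eq_integral_of_forall_compl_eq_zero fun x' h => by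
            rw [y0 x' h, inner_zero_right]).symm
      _ = ∫ y in ball (0 : E 2) r, ⟪S.n x - L (gradient v y), Y (x + L y + v y • S.n x)⟫ := by
          rw [(A S x _ L r r v f g v1.contDiffOn).2 _ (cn.inner a.continuous).measurable]
          refine setIntegral_congr_fun measurableSet_ball fun y hy => ?_
          have : 0 < √(1 + ‖gradient v y‖ ^ 2) := by positivity
          beta_reduce
          rw [(N S x _ L r r v y hS f g (mem_ball_zero_iff.1 hy)
            (hv.of_le (by norm_cast)).contDiffAt).1, real_inner_smul_left, mul_right_comm, inv_mul_cancel₀ this.ne', one_mul, gX]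
      _ = ∫ y, ⟪S.n x - L (gradient v y), Y (x + L y + v y • S.n x)⟫ :=
          setIntegral_eq_integral_of_forall_compl_eq_zero fun y h => by
            rw [y0 _ fun e => h (mem_ball_zero_iff.2 ((mem_cyl_pt f).1 e).1), inner_zero_right]
      _ = _ := by
          have e1 : {x' | ∃ y s, s < v y ∧ x' = x + L y + s • S.n x} =
              {x' | ⟪S.n x, x' - x⟫ < v (adj L (x' - x))} := Set.ext fun x' =>
            ⟨fun ⟨y, s, h, e⟩ => by
              rwa [mem_ofPred_eq, e, add_assoc, add_sub_cancel_left, f.adj_pt, f.e_pt],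
              fun h => ⟨_, _, h, pt_dec f x x'⟩⟩
          have vc := hv.continuous
          rw [← gdiv 2 x _ L v Y f v1 a b, e1, ← integral_indicator o1.measurableSet,
            ← integral_indicator (isOpen_lt (by fun_prop) (by fun_prop)).measurableSet]
          refine congrArg _ (funext fun x' => ?_)
          by_cases h : x' ∈ cyl x (S.n x) L r r
          · rw [pt_dec f x x', mem_cyl_pt f] at h
            have := ((g _ h.1).2 _ h.2).1
            rw [← pt_dec f x x'] at this
            classical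
            simp only [indicator_apply, mem_ofPred_eq, this]
          · have := dvg_eq_zero fun e => h (c e)
            rw [indicator_apply_eq_zero.2 fun _ => this, indicator_apply_eq_zero.2 fun _ => this]
  · refine ⟨_, (isOpen_lt continuous_const hS.sw.continuous).mem_nhds hx, fun Y a b c => ?_⟩
    rw [z1 Y _ c fun x h => ne_of_gt h]
    exact (setIntegral_eq_zero_of_forall_eq_zero fun x (h : S.w x < 0) =>
      dvg_eq_zero fun e => lt_asymm h (c e)).symm

end Vale.Agent.P218R
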