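import Vale.Agent.P218R.Stm
import Vale.Agent.P366W.Fv

/-!
# P218R: the first variation and the integral of a bracket
-/

open MeasureTheory Metric Filter Topology Set ContinuousLinearMap
open scoped ContDiff ENNReal RealInnerProductSpace Convolution
open Vale.Agent.P366.Stmt (E)
open Vale.Agent.P366W

noncomputable section

namespace Vale.Agent.P218R

namespace Fv

variable {F : Type} [NormedAddCommGroup F] [NormedSpace ℝ F] [FiniteDimensional ℝ F] {N : ℕ}

/-- approximation in `C¹` by smooth functions -/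
theorem approx {Y : E N → F} (hY : ContDiff ℝ 1 Y) (hc : HasCompactSupport Y) {ε : ℝ}
    (hε : 0 < ε) : ∃ Z : E N → F, ContDiff ℝ ∞ Z ∧ (∀ x ∉ cthickening ε (tsupport Y), Z x = 0) ∧
      (∀ x, dist (Z x) (Y x) ≤ ε) ∧ ∀ x, dist (fderiv ℝ Z x) (fderiv ℝ Y x) ≤ ε := by
  have cD := hY.continuous_fderiv one_ne_zero
  obtain ⟨a, ha, h1⟩ := Metric.uniformContinuous_iff.1
    (hc.uniformContinuous_of_continuous hY.continuous) ε hε
  obtain ⟨b, hb, h2⟩ := Metric.uniformContinuous_iff.1
    ((hc.fderiv ℝ).uniformContinuous_of_continuous cD) ε hε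
  have h0 : 0 < min ε (min a b) := by positivity
  let φ : ContDiffBump (0 : E N) := ⟨_, _, half_pos h0, half_lt_self h0⟩
  have hl : LocallyIntegrable (φ.normed volume) volume := φ.continuous_normed.locallyIntegrable
  refine ⟨φ.normed volume ⋆[lsmul ℝ ℝ, volume] Y, φ.hasCompactSupport_normed.contDiff_convolution_left
    _ φ.contDiff_normed hY.continuous.locallyIntegrable, fun x hx => ?_, fun x => ?_, fun x => ?_⟩
  · by_contra h
    obtain ⟨u, hu, v, hv, rfl⟩ := support_convolution_subset _ h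
    rw [φ.support_normed_eq, mem_ball_zero_iff] at hu
    exact hx (mem_cthickening_of_dist_le _ v _ _ (subset_tsupport _ hv)
      (by simpa [dist_eq_norm] using (hu.trans_le (min_le_left _ _)).le))
  · exact φ.dist_normed_convolution_le hY.continuous.aestronglyMeasurable fun y hy =>
      (h1 (hy.trans_le ((min_le_right _ _).trans (min_le_left _ _)))).le
  · rw [(hc.hasFDerivAt_convolution_right _ hl hY x).fderiv]
    exact φ.dist_normed_convolution_le cD.aestronglyMeasurable fun y hy =>
      (h2 (hy.trans_le ((min_le_right _ _).trans (min_le_right _ _)))).le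

/-- an integral identity of first order passes from smooth to `C¹` test functions -/
theorem c1_ext {μ : Measure (E N)} [IsLocallyFiniteMeasure μ]
    {Φ : E N × F × (E N →L[ℝ] F) → ℝ} (hΦ : Continuous Φ) (h0 : ∀ x, Φ (x, 0, 0) = 0)
    (h : ∀ Z : E N → F, ContDiff ℝ ∞ Z → HasCompactSupport Z →
      ∫ x, Φ (x, Z x, fderiv ℝ Z x) ∂μ = 0) {Y : E N → F} (hY : ContDiff ℝ 1 Y)
    (hc : HasCompactSupport Y) : ∫ x, Φ (x, Y x, fderiv ℝ Y x) ∂μ = 0 := by
  choose Z h1 h2 h3 h4 using fun j : ℕ => approx hY hc (Nat.one_div_pos_of_nat (n := j))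
  have l1 : ∀ j : ℕ, (1 : ℝ) / (j + 1) ≤ 1 := fun j => by
    rw [div_le_one (by positivity)]; linarith [Nat.cast_nonneg (α := ℝ) j]
  have hK : IsCompact (cthickening 1 (tsupport Y)) := hc.isCompact.cthickening
  have h5 : ∀ j, ∀ x ∉ cthickening 1 (tsupport Y), Z j x = 0 := fun j x hx =>
    h2 j x fun k => hx (cthickening_mono (l1 j) _ k)
  obtain ⟨a, ha⟩ := hY.continuous.bounded_above_of_compact_support hc
  obtain ⟨b, hb⟩ := (hY.continuous_fderiv one_ne_zero).bounded_above_of_compact_support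
    (hc.fderiv ℝ)
  obtain ⟨C, hC⟩ := (hK.prod ((isCompact_closedBall (0 : F) (a + 1)).prod
    (isCompact_closedBall (0 : E N →L[ℝ] F) (b + 1)))).exists_bound_of_continuousOn hΦ.continuousOn
  have t0 : ∀ {G : Type} [NormedAddCommGroup G] {u : ℕ → G} {v : G},
      (∀ j : ℕ, dist (u j) v ≤ 1 / (j + 1)) → Tendsto u atTop (𝓝 v) := fun k =>
    tendsto_iff_dist_tendsto_zero.2 (squeeze_zero (fun _ => dist_nonneg) k
      tendsto_one_div_add_atTop_nhds_zero_nat)
  have t := tendsto_integral_of_dominated_convergence (μ := μ)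
    (F := fun j x => Φ (x, Z j x, fderiv ℝ (Z j) x)) (f := fun x => Φ (x, Y x, fderiv ℝ Y x))
    ((cthickening 1 (tsupport Y)).indicator fun _ => C)
    (fun j => (hΦ.comp (continuous_id.prodMk ((h1 j).continuous.prodMk
      ((h1 j).continuous_fderiv (by simp))))).aestronglyMeasurable)
    ((integrableOn_const hK.measure_lt_top.ne).integrable_indicator hK.measurableSet)
    (fun j => .of_forall fun x => ?_) (.of_forall fun x => (hΦ.tendsto _).comp
      (tendsto_const_nhds.prodMk_nhds ((t0 fun j => h3 j x).prodMk_nhds (t0 fun j => h4 j x))))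
  · simp only [fun j => h _ (h1 j) (HasCompactSupport.intro hK (h5 j))] at t
    exact tendsto_nhds_unique t tendsto_const_nhds
  by_cases hx : x ∈ cthickening 1 (tsupport Y)
  · rw [indicator_of_mem hx]
    refine hC _ ⟨hx, mem_closedBall_zero_iff.2 ?_, mem_closedBall_zero_iff.2 ?_⟩
    · linarith [norm_le_norm_sub_add (Z j x) (Y x), ha x, h3 j x, l1 j, dist_eq_norm (Z j x) (Y x)]
    · linarith [norm_le_norm_sub_add (fderiv ℝ (Z j) x) (fderiv ℝ Y x), hb x, h4 j x, l1 j,
        dist_eq_norm (fderiv ℝ (Z j) x) (fderiv ℝ Y x)]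
  · have e : Z j =ᶠ[𝓝 x] fun _ => 0 :=
      mem_of_superset (hK.isClosed.isOpen_compl.mem_nhds hx) (h5 j)
    simp [indicator_of_notMem hx, e.fderiv_eq, h5 j x hx, h0]

variable {S : Srf}

theorem ae_G (h : S.Ok) : ∀ᵐ x ∂S.μ, S.w x = 0 :=
  ae_restrict_mem (isClosed_eq h.sw.continuous continuous_const).measurableSet

theorem nn (h : S.Ok) {x : E3} (hx : S.w x = 0) : ∀ᶠ y in 𝓝 x, ⟪S.n y, S.n y⟫ = 1 := by
  filter_upwards [h.nrm x hx, (smooth_gradient h.sw).continuous.continuousAt.eventually_ne
    (h.reg x hx)] with y h1 h2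
  rw [real_inner_self_eq_norm_sq, h1, norm_smul, norm_inv, norm_norm,
    inv_mul_cancel₀ (norm_ne_zero_iff.2 h2), one_pow]

theorem n_dn (h : S.Ok) {x : E3} (hx : S.w x = 0) (v : E3) : ⟪S.n x, fderiv ℝ S.n x v⟫ = 0 := by
  have d := h.sn.differentiable (by simp) x
  have h2 := fderiv_inner_apply ℝ d d v
  rw [EventuallyEq.fderiv_eq (nn h hx), real_inner_comm (S.n x)] at h2
  simp only [fderiv_fun_const, Pi.zero_apply, zero_apply] at h2
  linarith

theorem trc_P (M : E3 →L[ℝ] E3) (x : E3) : trc (M ∘L S.P x) = trc M - ⟪S.n x, M (S.n x)⟫ := by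
  have : M ∘L S.P x = M - (innerSL ℝ (S.n x)).smulRight (M (S.n x)) := by
    ext1 v; simp [Srf.P]
  rw [this, trc_sub, trc_smulRight, innerSL_apply_apply]

/-- the cross product as a continuous bilinear map -/
def crL : E3 →L[ℝ] E3 →L[ℝ] E3 := (LinearMap.mk₂ ℝ cr
  (fun a b c => by ext i; fin_cases i <;> simp [cr] <;> ring)
  (fun a b c => by ext i; fin_cases i <;> simp [cr] <;> ring)
  (fun a b c => by ext i; fin_cases i <;> simp [cr] <;> ring)
  (fun a b c => by ext i; fin_cases i <;> simp [cr] <;> ring)).toContinuousBilinearMap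

theorem symm_grad {g : E3 → ℝ} (hg : ContDiff ℝ 2 g) (x u v : E3) :
    ⟪fderiv ℝ (gradient g) x u, v⟫ = ⟪fderiv ℝ (gradient g) x v, u⟫ := by
  have d := (hg.fderiv_right (m := 1) le_rfl).differentiable one_ne_zero x
  have e : ∀ u v, ⟪fderiv ℝ (gradient g) x u, v⟫ = fderiv ℝ (fderiv ℝ g) x u v := fun u v => by
    have := ((InnerProductSpace.toDual ℝ E3).symm.toContinuousLinearEquiv.hasFDerivAt.comp x
      d.hasFDerivAt).fderiv
    exact (congrArg (fun M : E3 →L[ℝ] E3 => ⟪M u, v⟫) this).trans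
      InnerProductSpace.toDual_symm_apply
  rw [e, e, (hg.contDiffAt.isSymmSndFDerivAt (by simp)).eq]

theorem dvg_cr {g h : E3 → ℝ} (hg : ContDiff ℝ 2 g) (hh : ContDiff ℝ 2 h) (x : E3) :
    dvg (fun y => crL (gradient g y) (gradient h y)) x = 0 := by
  have s := fun i j : Fin 3 => symm_grad hg x (EuclideanSpace.single i 1) (.single j 1)
  have t := fun i j : Fin 3 => symm_grad hh x (EuclideanSpace.single i 1) (.single j 1)
  simp only [EuclideanSpace.inner_single_right, conj_trivial, one_mul] at s t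
  rw [dvg_eq, crL.fderiv_of_bilinear
    ((contDiff_gradient (k := 1) hg).differentiable one_ne_zero x)
    ((contDiff_gradient (k := 1) hh).differentiable one_ne_zero x)]
  simp [trc, Fin.sum_univ_three, crL, cr, s 1 0, s 2 0, s 2 1, t 1 0, t 2 0, t 2 1]
  ring

end Fv

open Fv

/-- **row FV** -/
theorem fv (div : DIV) (low : LOW) : FV := fun S Y h hY hc => by
  have := (low S h).1
  have cn := h.sn.continuous
  have cH : Continuous S.H := by
    have := h.sn.continuous_fderiv (by simp)
    rw [show S.H = _ from funext fun x => trc_P _ x]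
    exact (continuous_trc.comp this).sub (by fun_prop)
  have cY := hY.continuous
  have cD := hY.continuous_fderiv one_ne_zero
  have z : ∀ {Z : E3 → E3}, ∀ x ∉ tsupport Z, fderiv ℝ Z x = 0 := fun x hx =>
    image_eq_zero_of_notMem_tsupport fun h' => hx (tsupport_fderiv_subset ℝ h')
  have k := c1_ext (μ := S.μ) (Φ := fun q => trc q.2.2 - ⟪S.n q.1, q.2.2 (S.n q.1)⟫ -
    S.H q.1 * ⟪S.n q.1, q.2.1⟫)
    (((continuous_trc.comp (by fun_prop)).sub (by fun_prop)).sub (by fun_prop))
    (fun x => by simp [trc]) (fun Z hZ hs => ?_) hY hc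
  · rw [integral_sub, sub_eq_zero] at k
    · simpa only [Srf.dv, trc_P] using k
    · exact (((continuous_trc.comp cD).sub (by fun_prop)).integrable_of_hasCompactSupport
        (.intro hc.isCompact fun x hx => by simp [z x hx, trc]))
    · exact Continuous.integrable_of_hasCompactSupport (by fun_prop)
        (.intro hc.isCompact fun x hx => by simp [image_eq_zero_of_notMem_tsupport hx])
  have hU := h.sn.of_le two_le_inf
  have hZ := hZ.of_le two_le_inf
  have h1 := div S _ h ((((contDiff_dvg (k := 1) hZ).smul (hU.of_le one_le_two)).add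
    ((hU.fderiv_right (m := 1) le_rfl).clm_apply (hZ.of_le one_le_two))).sub
      (((contDiff_dvg (k := 1) hU).smul (hZ.of_le one_le_two)).add
        ((hZ.fderiv_right (m := 1) le_rfl).clm_apply (hU.of_le one_le_two))))
    (.intro hs.isCompact fun x hx => by
      simp [dvg_eq_zero hx, z x hx, image_eq_zero_of_notMem_tsupport hx])
  simp only [Pi.smul_apply', dvg_curl hU hZ, integral_zero] at h1
  rw [← h1]
  refine integral_congr_ae ((ae_G h).mono fun x hx => ?_)
  simp only [inner_smul_right, inner_sub_right, inner_add_right, (nn h hx).self_of_nhds,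
    n_dn h hx, Srf.H, Srf.A, trc_P, dvg_eq]
  ring

/-- **row BRA** -/
theorem bra (div : DIV) (low : LOW) : BRA := fun S g f h hg hc hf => by
  have := (low S h).1
  have cn := h.sn.continuous
  have cf := contDiff_gradient (k := 1) hf
  have cf' := cf.continuous
  refine c1_ext (μ := S.μ) (Φ := fun q => ⟪S.n q.1, crL
    ((InnerProductSpace.toDual ℝ E3).symm q.2.2) (gradient f q.1)⟫) (by fun_prop)
    (fun x => by simp) (fun Z hZ hs => ?_) hg hc
  have hZ := hZ.of_le two_le_inf
  have h1 := div S _ h ((crL.contDiff.comp (contDiff_gradient (k := 1) hZ)).clm_apply cf)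
    (.intro hs.isCompact fun x hx => by
      simp [gradient, image_eq_zero_of_notMem_tsupport
        fun h' => hx (tsupport_fderiv_subset ℝ h')])
  simp only [Function.comp_def, dvg_cr hZ hf, integral_zero] at h1
  exact h1

end Vale.Agent.P218R
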