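import Vale.Agent.P218R.Base
import Vale.Agent.P218R.Grc
import Vale.Agent.P218R.Grn
import Vale.Agent.P218R.Div
import Vale.Agent.P218R.Fv
import Vale.Agent.P218R.Ori
import Vale.Agent.P218R.Rsc

/-!
# P218R: the static base layer, without hypotheses
-/

namespace Vale.Agent.P218R

theorem low' : LOW := low grf area
theorem div' : DIV := div grf grn area low'
theorem fv' : FV := fv div' low'
theorem bra' : BRA := bra div' low'

end Vale.Agent.P218R
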