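import Mathlib.MeasureTheory.Function.Jacobian
import Mathlib.Analysis.Calculus.InverseFunctionTheorem.ContDiff

/-!
# P218R: the area formula with multiplicities (the real part of `P284Y/Lib/AR`, over Mathlib only)
-/

open scoped ContDiff Topology ENNReal
open Filter Set Function Metric MeasureTheory

noncomputable section

namespace Vale.Agent.P218R.Ar

variable {E : Type} [NormedAddCommGroup E] [NormedSpace ℝ E] [FiniteDimensional ℝ E]
  [MeasurableSpace E] [BorelSpace E] (μ : Measure E) [μ.IsAddHaarMeasure] {Θ : E → E}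

/-- the sum over a fibre of an injective piece -/
theorem piece_eq {E : Type} {Θ : E → E} {S : Set E} (hi : InjOn Θ S) (f : E → ℝ≥0∞) (w : E) :
    extend (S.domRestrict Θ) (fun z : S => f z) 0 w = ∑' z : {z | z ∈ S ∧ Θ z = w}, f z := by
  by_cases h : ∃ z : S, S.domRestrict Θ z = w
  · obtain ⟨z, rfl⟩ := h
    rw [(injOn_iff_injective.1 hi).extend_apply]
    have : {y | y ∈ S ∧ Θ y = S.domRestrict Θ z} = {(z : E)} := by
      ext y
      exact ⟨fun hy => hi hy.1 z.2 hy.2, fun hy => by rw [mem_singleton_iff.1 hy]; exact ⟨z.2, rfl⟩⟩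
    rw [this, tsum_singleton (z : E) f]
  · rw [extend_apply' _ _ _ h]
    have : {y | y ∈ S ∧ Θ y = w} = ∅ :=
      eq_empty_of_forall_notMem fun y hy => h ⟨⟨y, hy.1⟩, hy.2⟩
    rw [this]
    simp

/-- the area formula on an injective piece -/
theorem area_piece {S : Set E} (hS : MeasurableSet S) (hd : ∀ z ∈ S, DifferentiableAt ℝ Θ z)
    (hi : InjOn Θ S) {f : E → ℝ≥0∞} (hf : Measurable f) :
    (Measurable fun w => ∑' z : {z | z ∈ S ∧ Θ z = w}, f z) ∧
    ∫⁻ z in S, ENNReal.ofReal |(fderiv ℝ Θ z).det| * f z ∂μ =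
      ∫⁻ w, ∑' z : {z | z ∈ S ∧ Θ z = w}, f z ∂μ := by
  have hd' : ∀ z ∈ S, HasFDerivWithinAt Θ (fderiv ℝ Θ z) S z :=
    fun z hz => (hd z hz).hasFDerivAt.hasFDerivWithinAt
  have he := measurableEmbedding_of_fderivWithin hS hd' hi
  have hm := he.measurable_extend (g := fun z : S => f z) (g' := 0)
    (hf.comp measurable_subtype_coe) measurable_const
  have h1 : (fun w => ∑' z : {z | z ∈ S ∧ Θ z = w}, f z) =
      extend (S.domRestrict Θ) (fun z : S => f z) 0 := funext fun w => (piece_eq hi f w).symm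
  rw [h1]
  refine ⟨hm, ?_⟩
  have h2 : ∫⁻ w, extend (S.domRestrict Θ) (fun z : S => f z) 0 w ∂μ =
      ∫⁻ w in Θ '' S, extend (S.domRestrict Θ) (fun z : S => f z) 0 w ∂μ := by
    refine (setLIntegral_eq_of_support_subset fun w hw => ?_).symm
    by_contra hc
    refine hw (extend_apply' _ _ _ ?_)
    rintro ⟨z, hz⟩
    exact hc ⟨z, z.2, hz⟩
  rw [h2, lintegral_image_eq_lintegral_abs_det_fderiv_mul μ hS hd' hi]
  refine setLIntegral_congr_fun hS fun z hz => ?_
  have := (injOn_iff_injective.1 hi).extend_apply (fun z : S => f z) 0 ⟨z, hz⟩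
  exact congrArg _ this.symm

/-- the regular points are covered by countably many injective pieces -/
theorem exists_pieces {U : Set E} (hU : IsOpen U) (h : ∀ z ∈ U, ContDiffAt ℝ 1 Θ z) :
    ∃ S : ℕ → Set E, (∀ i, MeasurableSet (S i)) ∧ Pairwise (Disjoint on S) ∧
      (∀ i, InjOn Θ (S i)) ∧ ⋃ i, S i = {z ∈ U | (fderiv ℝ Θ z).det ≠ 0} := by
  have : CompleteSpace E := FiniteDimensional.complete ℝ E
  set R := {z ∈ U | (fderiv ℝ Θ z).det ≠ 0} with hR
  have h1 : ∀ z ∈ R, ∃ V, IsOpen V ∧ z ∈ V ∧ V ⊆ R ∧ InjOn Θ V := by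
    intro z hz
    have c1 := h z hz.1
    have c2 : HasFDerivAt Θ ((fderiv ℝ Θ z).toContinuousLinearEquivOfDetNeZero hz.2 : E →L[ℝ] E) z := by
      rw [ContinuousLinearMap.coe_toContinuousLinearEquivOfDetNeZero]
      exact (c1.differentiableAt one_ne_zero).hasFDerivAt
    have c3 : ContinuousAt (fun y => (fderiv ℝ Θ y).det) z :=
      ContinuousLinearMap.continuous_det.continuousAt.comp (c1.continuousAt_fderiv one_ne_zero)
    have c4 : R ∈ 𝓝 z := inter_mem (hU.mem_nhds hz.1) (c3.eventually_ne hz.2)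
    obtain ⟨V, hV, hVo, hzV⟩ := _root_.mem_nhds_iff.1
      (inter_mem c4 ((c1.toOpenPartialHomeomorph Θ c2 one_ne_zero).open_source.mem_nhds
        (c1.mem_toOpenPartialHomeomorph_source c2 one_ne_zero)))
    exact ⟨V, hVo, hzV, fun y hy => (hV hy).1,
      (c1.toOpenPartialHomeomorph Θ c2 one_ne_zero).injOn.mono fun y hy => (hV hy).2⟩
  choose! V hVo hzV hVR hVi using h1
  obtain ⟨T, hTR, hT, hcov⟩ := TopologicalSpace.countable_cover_nhdsWithin (s := R) (f := V)
    fun z hz => mem_nhdsWithin_of_mem_nhds ((hVo z hz).mem_nhds (hzV z hz))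
  rcases T.eq_empty_or_nonempty with rfl | hne
  · refine ⟨fun _ => ∅, fun _ => .empty, fun _ _ _ => disjoint_bot_left, fun _ => injOn_empty _, ?_⟩
    simp only [mem_empty_iff_false, iUnion_of_empty, iUnion_empty, subset_empty_iff] at hcov
    rw [hcov, iUnion_empty]
  obtain ⟨t, rfl⟩ := hT.exists_eq_range hne
  have ht : ∀ i, t i ∈ R := fun i => hTR ⟨i, rfl⟩
  refine ⟨disjointed fun i => V (t i), MeasurableSet.disjointed fun i => (hVo _ (ht i)).measurableSet,
    disjoint_disjointed _, fun i => (hVi _ (ht i)).mono (disjointed_subset _ i), ?_⟩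
  rw [iUnion_disjointed]
  refine Subset.antisymm (iUnion_subset fun i => hVR _ (ht i)) ?_
  rwa [biUnion_range] at hcov

/-- **the area formula with multiplicities** -/
theorem area_real {U : Set E} (hU : IsOpen U) (h : ∀ z ∈ U, ContDiffAt ℝ 1 Θ z)
    {f : E → ℝ≥0∞} (hf : Measurable f) :
    (AEMeasurable (fun w => ∑' z : {z | z ∈ U ∧ Θ z = w}, f z) μ) ∧
    ∫⁻ z in U, ENNReal.ofReal |(fderiv ℝ Θ z).det| * f z ∂μ =
      ∫⁻ w, ∑' z : {z | z ∈ U ∧ Θ z = w}, f z ∂μ := by
  obtain ⟨S, hm, hd, hi, hu⟩ := exists_pieces hU h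
  have hS : ∀ i, S i ⊆ {z ∈ U | (fderiv ℝ Θ z).det ≠ 0} := fun i => hu ▸ subset_iUnion S i
  have hp := fun i => area_piece μ (hm i)
    (fun z hz => (h z (hS i hz).1).differentiableAt one_ne_zero) (hi i) hf
  have h0 : μ (Θ '' {z ∈ U | (fderiv ℝ Θ z).det = 0}) = 0 :=
    addHaar_image_eq_zero_of_det_fderivWithin_eq_zero μ (f' := fderiv ℝ Θ)
      (fun z hz => ((h z hz.1).differentiableAt one_ne_zero).hasFDerivAt.hasFDerivWithinAt)
      fun z hz => hz.2
  have h1 : (fun w => ∑' z : {z | z ∈ U ∧ Θ z = w}, f z) =ᵐ[μ]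
      fun w => ∑' i, ∑' z : {z | z ∈ S i ∧ Θ z = w}, f z := by
    filter_upwards [compl_mem_ae_iff.2 h0] with w hw
    have e : {z | z ∈ U ∧ Θ z = w} = ⋃ i, {z | z ∈ S i ∧ Θ z = w} := by
      ext z
      simp only [mem_ofPred_eq, mem_iUnion]
      constructor
      · rintro ⟨hz, rfl⟩
        have : z ∈ ⋃ i, S i := hu ▸ ⟨hz, fun h' => hw ⟨z, ⟨hz, h'⟩, rfl⟩⟩
        obtain ⟨i, hi⟩ := mem_iUnion.1 this
        exact ⟨i, hi, rfl⟩
      · rintro ⟨i, hz, rfl⟩
        exact ⟨(hS i hz).1, rfl⟩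
    rw [← ENNReal.tsum_biUnion (f := f) (t := fun i => {z | z ∈ S i ∧ Θ z = w})
      fun i _ j _ hij => (hd hij).mono (fun z hz => hz.1) fun z hz => hz.1]
    exact congrArg (fun T : Set E => ∑' z : T, f z) e
  refine ⟨(Measurable.tsum fun i => (hp i).1).aemeasurable.congr h1.symm, ?_⟩
  rw [lintegral_congr_ae h1, lintegral_tsum fun i => (hp i).1.aemeasurable]
  simp only [← fun i => (hp i).2]
  rw [← lintegral_iUnion hm hd, hu, ← lintegral_indicator hU.measurableSet,
    ← lintegral_indicator (hu ▸ MeasurableSet.iUnion hm)]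
  refine lintegral_congr fun z => ?_
  by_cases h2 : (fderiv ℝ Θ z).det = 0
  · simp [indicator, h2]
  · by_cases h3 : z ∈ U <;> simp [indicator, h2, h3]

end Vale.Agent.P218R.Ar
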