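import Vale.Agent.P218R.Stm
import Vale.Agent.P218R.Ar3A
import Vale.Agent.P366W.Gdiv

/-!
# P218R, row AR3: the area formula for the normal exponential map (helper21)
-/

open MeasureTheory Metric Filter Topology Set
open scoped ContDiff ENNReal RealInnerProductSpace
open Vale.Agent.P366.Stmt (E)
open Vale.Agent.P366W

noncomputable section

namespace Vale.Agent.P218R

namespace Ar

/-! ### determinants -/

lemma det_eq (M : E3 →L[ℝ] E3) :
    M.det = (Matrix.of fun i j : Fin 3 => M (EuclideanSpace.single j 1) i).det := by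
  rw [ContinuousLinearMap.det, ← LinearMap.det_toMatrix (EuclideanSpace.basisFun (Fin 3) ℝ).toBasis]
  rfl

lemma det_one_add (M : E3 →L[ℝ] E3) (s : ℝ) :
    (1 + s • M).det = 1 + s * trc M + s ^ 2 * dt M + s ^ 3 * M.det := by
  have h : trc (M ∘L M) = ∑ i, ∑ j,
      M (EuclideanSpace.single i 1) j * M (EuclideanSpace.single j 1) i :=
    Finset.sum_congr rfl fun i _ => by
      rw [ContinuousLinearMap.comp_apply, map_eq_sum M]
      simp
  rw [dt, h]
  simp [det_eq, Matrix.det_fin_three, trc, Fin.sum_univ_three]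
  ring

lemma det_rk (a b : E3) : (1 + (innerSL ℝ a).smulRight b).det = 1 + ⟪a, b⟫ := by
  simp [det_eq, Matrix.det_fin_three, inner_eq_sum, Fin.sum_univ_three]
  ring

lemma det_zero {M : E3 →L[ℝ] E3} {v : E3} (hv : v ≠ 0) (h : M v = 0) : M.det = 0 :=
  LinearMap.det_eq_zero_iff_ker_ne_bot.2 fun e => hv (by
    have : v ∈ LinearMap.ker (M : E3 →ₗ[ℝ] E3) := h
    rwa [e, Submodule.mem_bot] at this)

lemma det_comp (M N : E3 →L[ℝ] E3) : (M ∘L N).det = M.det * N.det := LinearMap.det_comp _ _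

/-! ### a chart -/

variable {S : Srf} {p e : E3} {L : E 2 →ₗᵢ[ℝ] E3} {r : ℝ} {v : E 2 → ℝ}

lemma nn (h : S.Ok) {x : E3} (hx : S.w x = 0) : ⟪S.n x, S.n x⟫ = 1 := by
  rw [real_inner_self_eq_norm_sq, (h.nrm x hx).self_of_nhds, norm_smul, norm_inv, norm_norm,
    inv_mul_cancel₀ (norm_ne_zero_iff.2 (h.reg x hx)), one_pow]

lemma cont_J (h : S.Ok) : Continuous fun q : E3 × ℝ => S.J q.1 q.2 := by
  have h1 := h.sn.continuous
  have h2 := h.sn.continuous_fderiv (by simp)
  have h3 : Continuous S.P := continuous_const.sub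
    ((ContinuousLinearMap.smulRightL ℝ E3 E3).continuous₂.comp
      (((innerSL ℝ).continuous.comp h1).prodMk h1))
  have h4 : Continuous S.A := h2.clm_comp h3
  have h5 : Continuous S.H := continuous_trc.comp h4
  have h6 : Continuous S.K :=
    ((h5.pow 2).sub (continuous_trc.comp (h4.clm_comp h4))).div_const 2
  unfold Srf.J
  fun_prop

/-- the normal exponential map in a chart -/
def Th (S : Srf) (p e : E3) (L : E 2 →ₗᵢ[ℝ] E3) (v : E 2 → ℝ) (z : E3) : E3 :=
  gX p e L v (adj L z) + ⟪e, z⟫ • S.n (gX p e L v (adj L z))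

lemma sm_X (hv : ContDiff ℝ ∞ v) : ContDiff ℝ ∞ (gX p e L v) :=
  (contDiff_const.add L.contDiff).add (hv.smul contDiff_const)

lemma sm_Th (h : S.Ok) (hv : ContDiff ℝ ∞ v) : ContDiff ℝ ∞ (Th S p e L v) :=
  ((sm_X hv).comp (adj L).contDiff).add ((innerSL ℝ e).contDiff.smul
    (h.sn.comp ((sm_X hv).comp (adj L).contDiff)))

lemma det_Th (grn : GRN) (h : S.Ok) (f : Fr e L) (hv : ContDiff ℝ ∞ v) (g : S.Gr p e L r r v)
    {z : E3} (hz : ‖adj L z‖ < r) : (fderiv ℝ (Th S p e L v) z).det =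
      S.J (gX p e L v (adj L z)) ⟪e, z⟫ * √(1 + ‖gradient v (adj L z)‖ ^ 2) := by
  have hn := (grn S p e L r r v _ h f g hz (hv.contDiffAt.of_le (by norm_cast))).1
  have h1 := nn h (((g _ hz).2 _ (g _ hz).1).2.2 rfl)
  have d1 : HasFDerivAt (fun z => gX p e L v (adj L z))
      ((L.toContinuousLinearMap + (fderiv ℝ v (adj L z)).smulRight e) ∘L adj L) z :=
    ((L.toContinuousLinearMap.hasFDerivAt.const_add p).add
      ((hv.differentiable (by simp) _).hasFDerivAt.smul_const e)).comp z (adj L).hasFDerivAt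
  have d2 := d1.add ((innerSL ℝ e).hasFDerivAt.smul
    ((h.sn.differentiable (by simp) _).hasFDerivAt.comp z d1))
  change ⟪S.n (gX p e L v (adj L z)), S.n (gX p e L v (adj L z))⟫ = 1 at h1
  rw [show fderiv ℝ (Th S p e L v) z = _ from d2.fderiv]
  set x := gX p e L v (adj L z)
  set u := gradient v (adj L z)
  set W := √(1 + ‖u‖ ^ 2)
  have hW : 0 < W := by positivity
  have hW2 : W ^ 2 = 1 + ‖u‖ ^ 2 := Real.sq_sqrt (by positivity)
  have hu : ∀ a, fderiv ℝ v (adj L z) a = ⟪u, a⟫ := fun a => (inner_grad v _ a).symm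
  have t : ∀ a, ⟪S.n x, L a + ⟪u, a⟫ • e⟫ = 0 := fun a => by
    simp [hn, inner_smul_left, inner_sub_left, inner_add_right, inner_smul_right, f.ort, f.ort',
      f.one]
    ring
  have k : ⟪L u, S.n x⟫ = W⁻¹ - W := by
    rw [hn, inner_smul_right, inner_sub_right, f.ort', L.inner_map_map, real_inner_self_eq_norm_sq]
    field_simp
    linarith
  have k' : ⟪e, S.n x⟫ = W⁻¹ := by simp [hn, inner_smul_right, inner_sub_right, f.ort, f.one]
  have T : ∀ w, ((1 + (innerSL ℝ (L u)).smulRight e) ∘L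
      (1 + (innerSL ℝ e).smulRight (S.n x - (W⁻¹ - W + 1) • e))) w =
      L (adj L w) + ⟪u, adj L w⟫ • e + ⟪e, w⟫ • S.n x := fun w => by
    have := f.dec w
    simp only [ContinuousLinearMap.comp_apply, add_apply,
      one_apply_eq_self, ContinuousLinearMap.smulRight_apply, innerSL_apply_apply,
      inner_add_right, inner_smul_right, inner_sub_right, k, f.ort', inner_adj,
      eq_sub_of_add_eq this]
    module
  have hA : (S.A x).det = 0 := det_zero (v := S.n x) (fun e => by simp [e] at h1)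
    (by
      rw [real_inner_self_eq_norm_sq] at h1
      simp [Srf.A, Srf.P, h1])
  rw [show _ + _ = (1 + ⟪e, z⟫ • S.A x) ∘L ((1 + (innerSL ℝ (L u)).smulRight e) ∘L
      (1 + (innerSL ℝ e).smulRight (S.n x - (W⁻¹ - W + 1) • e))) from ?_, det_comp, det_comp,
    det_one_add, det_rk, det_rk, hA, f.ort', inner_sub_right, inner_smul_right, k', f.ee]
  · simp only [Srf.J, Srf.H, Srf.K]
    ring
  ext1 w
  rw [ContinuousLinearMap.comp_apply, T]
  have a : S.P x (L (adj L w) + ⟪u, adj L w⟫ • e + ⟪e, w⟫ • S.n x) =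
      L (adj L w) + ⟪u, adj L w⟫ • e := by
    simp only [Srf.P, sub_apply, ContinuousLinearMap.id_apply,
      ContinuousLinearMap.smulRight_apply, innerSL_apply_apply]
    rw [inner_add_right, t, inner_smul_right, h1]
    module
  simp only [Srf.A, add_apply, one_apply_eq_self,
    smul_apply, ContinuousLinearMap.comp_apply, a,
    ContinuousLinearMap.smulRight_apply, innerSL_apply_apply, hu, Function.comp_apply,
    LinearIsometry.coe_toContinuousLinearMap]
  module

lemma mem_cyl (f : Fr e L) {x : E3} {b : ℝ} :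
    x ∈ cyl p e L r b ↔ ‖adj L (x - p)‖ < r ∧ |⟪e, x - p⟫| < b := by
  refine ⟨?_, fun h => ⟨_, _, h.1, h.2, by rw [add_assoc, f.dec, add_sub_cancel]⟩⟩
  rintro ⟨y, s, hy, hs, rfl⟩
  rwa [add_assoc, add_sub_cancel_left, f.adj_pt, f.e_pt, and_iff_left hs]

lemma open_cyl (f : Fr e L) {b : ℝ} : IsOpen (cyl p e L r b) := by
  rw [show cyl p e L r b = {x | ‖adj L (x - p)‖ < r} ∩ {x | |⟪e, x - p⟫| < b} from
    Set.ext fun _ => mem_cyl f]
  exact (isOpen_lt (by fun_prop) continuous_const).inter (isOpen_lt (by fun_prop) continuous_const)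

/-- the conclusion for the function `h` -/
def Cn (S : Srf) (h : E3 × ℝ → ℝ≥0∞) : Prop :=
  AEMeasurable (fun y : E3 => ∑' x : S.crit (dq y), h (x.1, ⟪y - x.1, S.n x.1⟫)) volume ∧
    ∫⁻ x, (∫⁻ s, h (x, s) * ENNReal.ofReal |S.J x s|) ∂S.μ =
      ∫⁻ y : E3, ∑' x : S.crit (dq y), h (x.1, ⟪y - x.1, S.n x.1⟫)

lemma meas_in (ok : S.Ok) {h : E3 × ℝ → ℝ≥0∞} (hm : Measurable h) :
    Measurable fun q : E3 × ℝ => h q * ENNReal.ofReal |S.J q.1 q.2| :=
  hm.mul (cont_J ok).abs.measurable.ennreal_ofReal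

lemma fib (fin : FIN) (ok : S.Ok) (f : Fr e L) (g : S.Gr p e L r r v) {h : E3 × ℝ → ℝ≥0∞}
    (h0 : ∀ x ∉ cyl p e L r r, ∀ s, h (x, s) = 0) (y : E3) :
    ∑' z : {z | z ∈ {z | ‖adj L z‖ < r} ∧ Th S p e L v z = y}, h (gX p e L v (adj L z), ⟪e, z.1⟫) =
      ∑' x : S.crit (dq y), h (x.1, ⟪y - x.1, S.n x.1⟫) := by
  have w0 : ∀ a, ‖a‖ < r → S.w (gX p e L v a) = 0 := fun a ha =>
    ((g _ ha).2 _ (g _ ha).1).2.2 rfl
  have k : ∀ z : {z | z ∈ {z | ‖adj L z‖ < r} ∧ Th S p e L v z = y},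
      ⟪y - gX p e L v (adj L z), S.n (gX p e L v (adj L z))⟫ = ⟪e, z.1⟫ := fun z => by
    obtain ⟨z, hz, rfl⟩ := z
    simp only [Th, add_sub_cancel_left, real_inner_smul_left, nn ok (w0 _ hz), mul_one]
  let φ : {z | z ∈ {z | ‖adj L z‖ < r} ∧ Th S p e L v z = y} → S.crit (dq y) := fun z =>
    ⟨gX p e L v (adj L z), by
      obtain ⟨z, hz, rfl⟩ := z
      exact (fin S ok).2.2.1 _ _ (w0 _ hz)⟩
  rw [← Function.Injective.tsum_eq (g := φ) (fun z z' e' => ?_) fun x hx => ?_]
  · simp only [φ, k]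
  · have a : gX p e L v (adj L z) = gX p e L v (adj L z') := congrArg Subtype.val e'
    have b := k z
    rw [a, k] at b
    have c := congrArg (fun x => adj L (x - p)) a
    simp only [gX, add_assoc, add_sub_cancel_left, f.adj_pt] at c
    exact Subtype.ext (by rw [← f.dec z, c, ← b, f.dec])
  · obtain ⟨a, s, ha, hs, e'⟩ : x.1 ∈ cyl p e L r r := by_contra fun c => hx (h0 _ c _)
    have e1 : x.1 = gX p e L v a := by
      rw [e', ((g a ha).2 s hs).2.1 (e' ▸ x.2.1), gX]
    refine ⟨⟨L a + ⟪y - x.1, S.n x.1⟫ • e, by simpa [f.adj_e, adj_L] using ha, ?_⟩,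
      Subtype.ext ?_⟩
    · rw [Th, f.adj_pt, f.e_pt, ← e1, ((fin S ok).2.1 y _ x.2).1]
    · simp only [φ, f.adj_pt, e1]

theorem chart (grn : GRN) (area : AREA) (fin : FIN) (ok : S.Ok) (f : Fr e L)
    (hv : ContDiff ℝ ∞ v) (g : S.Gr p e L r r v) {h : E3 × ℝ → ℝ≥0∞} (hm : Measurable h)
    (h0 : ∀ x ∉ cyl p e L r r, ∀ s, h (x, s) = 0) : Cn S h := by
  have hX := (sm_X (p := p) (e := e) (L := L) hv).continuous
  have hg := (smooth_gradient hv).continuous
  have hU : IsOpen {z | ‖adj L z‖ < r} := isOpen_lt (by fun_prop) continuous_const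
  have a := area_real volume hU (fun z _ => ((sm_Th (p := p) (e := e) (L := L) ok hv).of_le
    (by simp)).contDiffAt) (f := fun z => h (gX p e L v (adj L z), ⟪e, z⟫)) (by fun_prop)
  simp only [fib fin ok f g h0] at a
  refine ⟨a.1, Eq.trans ?_ a.2⟩
  have m := meas_in ok hm
  let G : E 2 × ℝ → ℝ≥0∞ := fun q => h (gX p e L v q.1, q.2) *
    ENNReal.ofReal |S.J (gX p e L v q.1) q.2| * ENNReal.ofReal √(1 + ‖gradient v q.1‖ ^ 2)
  have mG : Measurable G := (m.comp (f := fun q : E 2 × ℝ => (gX p e L v q.1, q.2))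
    (by fun_prop)).mul (by fun_prop)
  rw [← setLIntegral_eq_of_support_subset (s := cyl p e L r r) fun x hx =>
      by_contra fun c => hx (by simp [h0 x c]),
    Srf.μ, Measure.restrict_restrict (open_cyl f).measurableSet,
    (area S p e L r r v f g (hv.of_le (by simp)).contDiffOn).1 _ m.lintegral_prod_right',
    setLIntegral_congr_fun hU.measurableSet (g := fun z => G (adj L z, ⟪e, z⟫)) fun z hz => by
      simp only [G]
      rw [det_Th grn ok f hv g hz, abs_mul, abs_of_nonneg (Real.sqrt_nonneg _),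
        ENNReal.ofReal_mul (abs_nonneg _), mul_comm, mul_assoc],
    ← f.mp0.setLIntegral_comp_preimage hU.measurableSet (by fun_prop),
    show (fun z : E 2 × ℝ => L z.1 + z.2 • e) ⁻¹' {z | ‖adj L z‖ < r} = ball 0 r ×ˢ univ from
      Set.ext fun q => by simp [f.adj_e, adj_L], ← Measure.prod_restrict, Measure.restrict_univ]
  simp only [f.adj_pt, f.e_pt]
  rw [lintegral_prod _ mG.aemeasurable]
  refine lintegral_congr fun y => (lintegral_mul_const _ ?_).symm
  exact m.comp measurable_prodMk_left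

theorem glue (ok : S.Ok) {C : ℕ → Set E3} (hC : ∀ i, MeasurableSet (C i)) (cov : S.G ⊆ ⋃ i, C i)
    (H : ∀ i h, Measurable h → (∀ x ∉ C i, ∀ s, h (x, s) = 0) → Cn S h)
    {h : E3 × ℝ → ℝ≥0∞} (hm : Measurable h) : Cn S h := by
  have hQ := MeasurableSet.disjointed hC
  have a := fun i => H i ((Prod.fst ⁻¹' disjointed C i).indicator h)
    (hm.indicator (measurable_fst (hQ i))) fun x hx s =>
      indicator_of_notMem (fun c => by exact hx (disjointed_subset C i c)) _
  have b : ∀ x ∈ S.G, ∀ s, ∑' i, (Prod.fst ⁻¹' disjointed C i).indicator h (x, s) = h (x, s) :=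
    fun x hx s => by
      obtain ⟨i, hi⟩ := mem_iUnion.1 (iUnion_disjointed (f := C) ▸ cov hx)
      exact (tsum_eq_single i fun j hj => indicator_of_notMem (fun c => by
        exact Set.disjoint_left.1 (disjoint_disjointed C hj) c hi) _).trans
          (indicator_of_mem (by exact hi) _)
  have c : ∀ y, ∑' x : S.crit (dq y), h (x.1, ⟪y - x.1, S.n x.1⟫) = ∑' i, ∑' x : S.crit (dq y),
      (Prod.fst ⁻¹' disjointed C i).indicator h (x.1, ⟪y - x.1, S.n x.1⟫) := fun y => by
    rw [ENNReal.tsum_comm]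
    exact tsum_congr fun x => (b _ x.2.1 _).symm
  have m := fun i => meas_in ok (hm.indicator (measurable_fst (hQ i)))
  simp only [Cn, c]
  refine ⟨.tsum fun i => (a i).1, ?_⟩
  rw [lintegral_tsum fun i => (a i).1]
  simp only [← fun i => (a i).2]
  rw [← lintegral_tsum fun i => (m i).lintegral_prod_right'.aemeasurable]
  refine setLIntegral_congr_fun (isClosed_eq ok.sw.continuous continuous_const).measurableSet
    fun x hx => ?_
  simp only
  rw [← lintegral_tsum fun i => by exact ((m i).comp measurable_prodMk_left).aemeasurable]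
  simp only [ENNReal.tsum_mul_right, b x hx]

end Ar

open Ar in
theorem ar3 (grf : GRF) (grn : GRN) (area : AREA) (fin : FIN) : AR3 := fun S ok => by
  have loc : ∀ p ∈ S.G, ∃ C ∈ 𝓝 p, MeasurableSet C ∧
      ∀ h, Measurable h → (∀ x ∉ C, ∀ s, h (x, s) = 0) → Cn S h := fun p hp => by
    obtain ⟨L, f, v, hv, -, -, r, hr, -, g⟩ := grf S p 1 ok hp one_pos
    exact ⟨_, (open_cyl f).mem_nhds ⟨0, 0, by simpa using hr, by simpa using hr, by simp⟩,
      (open_cyl f).measurableSet, fun h => chart grn area fin ok f hv (g r r hr le_rfl le_rfl)⟩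
  choose! C h1 h2 h3 using loc
  obtain ⟨T, hT, hc, cov⟩ := TopologicalSpace.countable_cover_nhdsWithin (s := S.G) (f := C)
    fun p hp => mem_nhdsWithin_of_mem_nhds (h1 p hp)
  obtain ⟨B, hB⟩ := ((hc.image C).insert ∅).exists_eq_range (insert_nonempty _ _)
  have hB' : ∀ i, B i = ∅ ∨ ∃ p ∈ T, C p = B i := fun i =>
    show B i ∈ insert ∅ (C '' T) from hB ▸ mem_range_self i
  have key : ∀ h, Measurable h → Cn S h := fun h hm => by
    refine glue ok (C := B) (fun i => ?_) (fun x hx => ?_) (fun i h hm h0 => ?_) hm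
    · rcases hB' i with e | ⟨p, hp, e⟩
      exacts [e ▸ .empty, e ▸ h2 p (hT hp)]
    · obtain ⟨p, hp, hx⟩ := mem_iUnion₂.1 (cov hx)
      obtain ⟨i, e⟩ : C p ∈ range B := hB ▸ .inr ⟨p, hp, rfl⟩
      exact mem_iUnion.2 ⟨i, e ▸ hx⟩
    · rcases hB' i with e | ⟨p, hp, e⟩
      · simp [Cn, fun x => h0 x (by simp [e])]
      · exact h3 p (hT hp) h hm (e ▸ h0)
  refine ⟨?_, key⟩
  obtain ⟨a, b⟩ := key ({q | S.J q.1 q.2 = 0}.indicator 1) (measurable_const.indicator
    (isClosed_eq (cont_J ok) continuous_const).measurableSet)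
  rw [show (fun x => _) = fun _ => (0 : ℝ≥0∞) from funext fun x => lintegral_eq_zero_of_ae_eq_zero
    (.of_forall fun s => by by_cases c : S.J x s = 0 <;> simp [indicator, c]), lintegral_zero,
    eq_comm, lintegral_eq_zero_iff' a] at b
  filter_upwards [b] with y hy
  refine ⟨((contDiff_norm_sq ℝ).comp (contDiff_id.sub contDiff_const)).div_const 2,
    fun x hx c => ?_⟩
  rw [((fin S ok).2.1 y x hx).2] at c
  simpa [indicator, c] using ENNReal.tsum_eq_zero.1 hy ⟨x, hx⟩

end Vale.Agent.P218R
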