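import Vale.Agent.P218R.Base

/-!
# P218R, rows CFL and CLO: closed flows
-/

open MeasureTheory Metric Filter Topology Set
open scoped ContDiff ENNReal RealInnerProductSpace
open Vale.Agent.P366W

noncomputable section

namespace Vale.Agent.P218R

namespace Cfl

/-- a diffeomorphism from the line to an interval -/
theorem exists_dif {T : ℝ} (hT : 0 < T) : ∃ θ ψ : ℝ → ℝ, ContDiff ℝ ∞ θ ∧
    ContDiffOn ℝ ∞ ψ (Ioo 0 T) ∧ (∀ s, θ s ∈ Ioo 0 T) ∧ (∀ s, ψ (θ s) = s) ∧
    ∀ t ∈ Ioo 0 T, θ (ψ t) = t := by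
  have h1 : ∀ s : ℝ, 0 < 1 + Real.exp (-s) := fun s => by positivity
  have h2 : ∀ t ∈ Ioo 0 T, 0 < T / t - 1 := fun t ht => sub_pos.2 ((one_lt_div ht.1).2 ht.2)
  refine ⟨fun s => T / (1 + Real.exp (-s)), fun t => -Real.log (T / t - 1),
    contDiff_const.div (contDiff_const.add contDiff_neg.exp) fun s => (h1 s).ne',
    (((contDiffOn_const.div contDiffOn_id fun t ht => ht.1.ne').sub contDiffOn_const).log
      fun t ht => (h2 t ht).ne').neg,
    fun s => ⟨div_pos hT (h1 s), div_lt_self hT (lt_add_of_pos_right _ (Real.exp_pos _))⟩,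
    fun s => ?_, fun t ht => ?_⟩
  · simp only [div_div_cancel₀ hT.ne', add_sub_cancel_left, Real.log_exp, neg_neg]
  · simp only [neg_neg, Real.exp_log (h2 t ht), add_sub_cancel, div_div_cancel₀ hT.ne']

theorem grad_smul {f g : ℝ × E3 → ℝ} {p : ℝ × E3} {c : ℝ} (hf : DifferentiableAt ℝ f p)
    (hg : DifferentiableAt ℝ g p) (h : fderiv ℝ g p = c • fderiv ℝ f p) :
    gradient (fun x => g (p.1, x)) p.2 = c • gradient (fun x => f (p.1, x)) p.2 := by
  rw [gradient, gradient, Flw.fderiv_slice hf, Flw.fderiv_slice hg, h,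
    ContinuousLinearMap.smul_comp, map_smul]

/-- the mean curvature, computed from a local defining function -/
theorem H_loc {S : Srf} (hS : S.Ok) {x : E3} (hx : S.w x = 0) {u : E3 → ℝ} (hu : ContDiff ℝ ∞ u)
    (h0 : gradient u x ≠ 0) (e : ∀ᶠ y in 𝓝 x, S.w y = 0 ↔ u y = 0) {c : ℝ}
    (hc : gradient S.w x = c • gradient u x) : ‖gradient S.w x‖ * S.H x =
      c * (‖gradient u x‖ * dvg (fun z => ‖gradient u z‖⁻¹ • gradient u z) x) := by
  have c0 : c ≠ 0 := fun h => hS.reg x hx (by rw [hc, h, zero_smul])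
  have sg := smooth_gradient hu
  have h1 : ∀ᶠ y in 𝓝 x, gradient u y ≠ 0 := sg.continuous.continuousAt.eventually_ne h0
  have h2 : ∀ᶠ y in 𝓝 x, 0 < c * ⟪gradient S.w y, gradient u y⟫ :=
    (continuous_const.mul ((smooth_gradient hS.sw).continuous.inner
      sg.continuous)).continuousAt.eventually (lt_mem_nhds (show 0 < c * ⟪_, gradient u x⟫ by
        rw [hc, real_inner_smul_left, ← mul_assoc]
        exact mul_pos (mul_self_pos.2 c0) (real_inner_self_pos.2 h0)))
  set N : E3 → E3 := fun z => ‖gradient u z‖⁻¹ • gradient u z with hN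
  have dg := sg.differentiable (by simp) x
  have dN : DifferentiableAt ℝ N x := ((dg.norm ℝ h0).inv (norm_ne_zero_iff.2 h0)).smul dg
  have h3 : ∀ᶠ y in 𝓝 x, S.w y = 0 → S.n y = (c / |c|) • N y := by
    filter_upwards [h1, h2, e.eventually_nhds] with y a1 a2 a3 hy
    obtain ⟨d, hd⟩ := tan_prop (hu.contDiffAt.of_le one_le) (a3.self_of_nhds.1 hy)
      (grad_ne_iff.1 a1) (hS.dw y) (a3.mono fun z hz => hz.2)
    have hd' : gradient S.w y = d • gradient u y := by rw [gradient, hd, map_smul, gradient]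
    rw [hd', real_inner_smul_left, ← mul_assoc] at a2
    have a4 := pos_of_mul_pos_left a2 real_inner_self_nonneg
    rw [(hS.nrm y hy).self_of_nhds, hd', norm_smul, hN, smul_smul, smul_smul, Real.norm_eq_abs]
    congr 1
    rcases pos_and_pos_or_neg_and_neg_of_mul_pos a4 with ⟨b1, b2⟩ | ⟨b1, b2⟩
    · rw [abs_of_pos b1, abs_of_pos b2]
      field_simp
    · rw [abs_of_neg b1, abs_of_neg b2]
      have := b2.ne
      field_simp
  have h4 : ∀ v, ⟪N x, fderiv ℝ N x v⟫ = 0 := fun v => by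
    have h5 : (fun y => ⟪N y, N y⟫) =ᶠ[𝓝 x] fun _ => (1 : ℝ) := h1.mono fun y hy => by
      simp only [hN, real_inner_self_eq_norm_sq, norm_smul, norm_inv, norm_norm,
        inv_mul_cancel₀ (norm_ne_zero_iff.2 hy), one_pow]
    have h6 := fderiv_inner_apply ℝ dN dN v
    rw [h5.fderiv_eq, real_inner_comm (N x)] at h6
    simp only [fderiv_fun_const, Pi.zero_apply, zero_apply] at h6
    linarith
  rw [← S.dv_n, hS.dv_tan hx (hS.dn x) (dN.const_smul (c / |c|)) h3, Srf.dv,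
    fderiv_const_smul dN, ContinuousLinearMap.smul_comp, trc_smul, ← Srf.dv, S.dv_eq,
    h3.self_of_nhds hx, real_inner_smul_left, h4, mul_zero, sub_zero, hc, norm_smul,
    Real.norm_eq_abs]
  field_simp

theorem fin {S : Srf} (low : LOW) (hS : S.Ok) (hG : IsCompact S.G) : IsFiniteMeasure S.μ := by
  have := (low S hS).1
  refine ⟨(le_of_eq ?_).trans_lt (hG.measure_lt_top (μ := S.μ))⟩
  rw [hS.apply, hS.apply, univ_inter, inter_self]

theorem gs_le (μ : Measure E3) [IsFiniteMeasure μ] (x : E3) (ρ : ℝ) :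
    gs μ x ρ ≤ (4 * Real.pi * ρ ^ 2)⁻¹ * μ.real univ := by
  refine mul_le_mul_of_nonneg_left ((le_abs_self _).trans ?_) (by positivity)
  rw [← Real.norm_eq_abs, ← one_mul (μ.real univ)]
  refine norm_integral_le_of_norm_le_const (.of_forall fun y => ?_)
  rw [Real.norm_of_nonneg (Real.exp_pos _).le]
  exact Real.exp_le_one_iff.2 (div_nonpos_of_nonpos_of_nonneg (neg_nonpos.2 (sq_nonneg _))
    (by positivity))

theorem le_gs (μ : Measure E3) [IsFiniteMeasure μ] (x : E3) {ρ : ℝ} (h : 0 < ρ) :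
    (4 * Real.pi * ρ ^ 2)⁻¹ * (3 / 4 * μ.real (closedBall x ρ)) ≤ gs μ x ρ := by
  refine mul_le_mul_of_nonneg_left ?_ (by positivity)
  have hi : Integrable (fun y => Real.exp (-‖y - x‖ ^ 2 / (4 * ρ ^ 2))) μ :=
    .of_bound (Continuous.aestronglyMeasurable (by fun_prop)) 1 (.of_forall fun y => by
      rw [Real.norm_of_nonneg (Real.exp_pos _).le]
      exact Real.exp_le_one_iff.2 (div_nonpos_of_nonpos_of_nonneg (neg_nonpos.2 (sq_nonneg _))
        (by positivity)))
  refine (setIntegral_ge_of_const_le_real measurableSet_closedBall (measure_ne_top _ _)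
    (fun y hy => ?_) hi.integrableOn).trans
      (setIntegral_le_integral hi (.of_forall fun y => (Real.exp_pos _).le))
  refine le_trans ?_ (Real.add_one_le_exp _)
  have := pow_le_pow_left₀ (norm_nonneg _) (mem_closedBall_iff_norm.1 hy) 2
  rw [← sub_le_iff_le_add, le_div_iff₀ (by positivity)]
  linarith

end Cfl

open Cfl

/-- **Row CFL.** -/
theorem cfl (ori : ORI) : CFL := by
  intro M T h
  obtain ⟨θ, ψ, s1, s2, m1, i1, i2⟩ := exists_dif h.pos
  have s3 : ContDiff ℝ ∞ fun p : ℝ × E3 => (θ p.1, p.2) := (s1.comp contDiff_fst).prodMk contDiff_snd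
  obtain ⟨w, sw, hw, rw'⟩ := ori (ℝ × E3) {p | p.2 ∈ M (θ p.1)}
    (isClosed_iff_frequently.2 fun p hp => by
      have h1 := m1 p.1
      have h2 : ∀ᶠ q : ℝ × E3 in 𝓝 p, θ q.1 ∈ Icc (θ p.1 / 2) ((θ p.1 + T) / 2) :=
        ((s1.continuous.comp continuous_fst).tendsto p).eventually
          (Icc_mem_nhds (half_lt_self h1.1) (show θ p.1 < _ by linarith [h1.2]))
      exact ((h.cpt (θ p.1 / 2) ((θ p.1 + T) / 2) (half_pos h1.1)
        (by linarith [h1.2])).isClosed.mem_of_frequently_of_tendsto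
          (f := fun p : ℝ × E3 => (θ p.1, p.2)) ((hp.and_eventually h2).mono fun q hq =>
            ⟨hq.2, hq.1⟩) (s3.continuous.tendsto p)).2)
    fun p hp => by
      obtain ⟨u, su, h1, h2⟩ := h.loc _ (m1 p.1) _ hp
      refine ⟨_, su.comp s3, fun e => grad_ne_iff.1 h1 ?_,
        (s3.continuous.tendsto p).eventually (h2.mono fun q hq => hq.1)⟩
      have := Flw.fderiv_slice ((su.comp s3).differentiable (by simp) p)
      rw [e, ContinuousLinearMap.zero_comp] at this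
      exact this
  have su : ContDiffOn ℝ ∞ (fun p : ℝ × E3 => w (ψ p.1, p.2)) (Ioo 0 T ×ˢ univ) :=
    sw.comp_contDiffOn ((s2.comp contDiffOn_fst fun p hp => hp.1).prodMk contDiffOn_snd)
  have z1 : ∀ t ∈ Ioo 0 T, ∀ x, w (ψ t, x) = 0 ↔ x ∈ M t := fun t ht x => by
    rw [← hw, mem_ofPred_eq, i2 t ht]
  have key : ∀ t ∈ Ioo 0 T, ∀ x, w (ψ t, x) = 0 → ∃ (u : E3 → ℝ) (c : ℝ), ContDiff ℝ ∞ u ∧
      gradient u x ≠ 0 ∧ (∀ᶠ y in 𝓝 x, w (ψ t, y) = 0 ↔ u y = 0) ∧ c ≠ 0 ∧
      gradient (fun x => w (ψ t, x)) x = c • gradient u x ∧ deriv (fun s => w (ψ s, x)) t =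
        c * (‖gradient u x‖ * dvg (fun z => ‖gradient u z‖⁻¹ • gradient u z) x) := by
    intro t ht x hx
    have hm := (z1 t ht x).1 hx
    obtain ⟨u, s4, h1, h2⟩ := h.loc t ht x hm
    have d1 := s4.differentiable (by simp) (t, x)
    have d2 := (su.contDiffAt (Flw.mem_dom ht x)).differentiableAt (by simp)
    obtain ⟨c, hc⟩ := tan_prop (s4.contDiffAt.of_le one_le) (h2.self_of_nhds.1.1 hm)
      (fun e => grad_ne_iff.1 h1 (by
        have := Flw.fderiv_slice d1
        rw [e, ContinuousLinearMap.zero_comp] at this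
        exact this)) d2 (by
      filter_upwards [h2, Flw.mem_dom ht x] with q a1 a2 a3
      exact (z1 _ a2.1 _).2 (a1.1.2 a3))
    refine ⟨u t, c, s4.comp (contDiff_prodMk_right t), h1, ((continuous_const.prodMk
      continuous_id).continuousAt.eventually h2).mono fun y hy => (z1 t ht y).trans hy.1,
      fun e => rw' (ψ t, x) ((hw _).2 hx) ?_, grad_smul d1 d2 hc, ?_⟩
    · have e1 : w = (fun p : ℝ × E3 => w (ψ p.1, p.2)) ∘ fun p : ℝ × E3 => (θ p.1, p.2) :=
        funext fun p => by simp [i1]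
      rw [e1, fderiv_comp _ (by simpa only [i2 t ht] using d2) (s3.differentiable (by simp) _)]
      simp only [i2 t ht, hc, e, zero_smul, ContinuousLinearMap.zero_comp]
    · rw [(Flw.deriv_slice d2).deriv, hc, ← h2.self_of_nhds.2 hm, smul_apply, smul_eq_mul,
        ← (Flw.deriv_slice d1).deriv]
      rfl
  have reg : ∀ t ∈ Ioo 0 T, ∀ x, w (ψ t, x) = 0 → gradient (fun x => w (ψ t, x)) x ≠ 0 :=
    fun t ht x hx => by
      obtain ⟨u, c, -, h1, -, h2, h3, -⟩ := key t ht x hx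
      exact h3 ▸ smul_ne_zero h2 h1
  refine ⟨.of fun p => w (ψ p.1, p.2), Flw.of_ok su reg fun t ht x hx => ?_,
    fun t ht => Set.ext (z1 t ht)⟩
  obtain ⟨u, c, h1, h2, h3, -, h4, h5⟩ := key t ht x hx
  exact h5.trans (H_loc (Srf.of_ok (Flw.slice su ht) (reg t ht)) hx h1 h2 h3 h4).symm

/-- **Row CLO.** -/
theorem clo (cfl : CFL) (hui : HUI) (cnt : CNT) (gbx : GBX) (kct : KCT) (low : LOW) : CLO := by
  intro M T h a ha
  obtain ⟨F, hF, hM⟩ := cfl M T h
  obtain ⟨C, hC⟩ := gbx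
  have hK : ∀ c d, 0 < c → d < T → ∃ K, IsCompact K ∧ ∀ t ∈ Icc c d, (F.sl t).G ⊆ K :=
    fun c d hc hd => ⟨_, (h.cpt c d hc hd).image continuous_snd, fun t ht x hx =>
      ⟨(t, x), ⟨ht, hM t ⟨hc.trans_le ht.1, ht.2.trans_lt hd⟩ ▸ hx⟩, rfl⟩⟩
  have hG : ∀ t ∈ Ioo 0 T, IsCompact (F.sl t).G := fun t ht => by
    obtain ⟨K, h1, h2⟩ := hK t t ht.1 ht.2
    exact h1.of_isClosed_subset (hF.sl ht).closed (h2 t ⟨le_rfl, le_rfl⟩)
  have hf : ∀ t ∈ Ioo 0 T, IsFiniteMeasure (F.μ t) := fun t ht => Cfl.fin low (hF.sl ht) (hG t ht)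
  have a2 : a / 2 ∈ Ioo 0 T := ⟨half_pos ha.1, (half_lt_self ha.1).trans ha.2⟩
  have l0 : 0 ≤ 3 * (F.μ (a / 2)).real univ / a := div_nonneg (by positivity) ha.1.le
  have ar : ∀ t ∈ Ioo a T, AR (3 * (F.μ (a / 2)).real univ / a) (F.μ t) := fun t ht x r hr => by
    have ht' : t ∈ Ioo 0 T := ⟨ha.1.trans ht.1, ht.2⟩
    have hs : Icc (a / 2) t ⊆ Ioo 0 T := Icc_subset_Ioo a2.1 ht.2
    obtain ⟨K, k1, k2⟩ := hK _ t a2.1 ht.2
    obtain ⟨R, R0, hR⟩ := k1.isBounded.subset_closedBall_lt 0 0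
    let b : ContDiffBump (0 : E3) := ⟨R, R + 1, R0, lt_add_one R⟩
    obtain ⟨Λ, hΛ⟩ := isCompact_Icc.exists_bound_of_continuousOn ((cnt F 0 T (fun p => b p.2) _ hF
      (b.continuous.comp continuous_snd).continuousOn b.hasCompactSupport.isCompact
        fun _ y hy => image_eq_zero_of_notMem_tsupport hy).mono hs)
    have h1 := hui F 0 T (t + r ^ 2) (a / 2) t |Λ| x 0 hF a2.1 (by linarith [ht.1, ha.1]) ht.2
      (lt_add_of_pos_right _ (by positivity)) (fun s hs' ρ hρ => ?_) continuous_zero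
      HasCompactSupport.zero fun _ => ⟨le_rfl, zero_le_one⟩
    · have := hf _ ht'
      have := hf _ a2
      have h2 := le_gs (F.μ t) x hr
      have h3 := gs_le (F.μ (a / 2)) x √(t + r ^ 2 - a / 2)
      have h4 : a / 2 ≤ t + r ^ 2 - a / 2 := by linarith [ht.1, sq_nonneg r]
      simp only [Pi.zero_apply, zero_mul, integral_zero, intervalIntegral.integral_zero, add_zero,
        add_sub_cancel_left, Real.sqrt_sq hr.le] at h1
      rw [Real.sq_sqrt (a2.1.le.trans h4)] at h3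
      have h5 := (h2.trans (h1.trans h3)).trans (mul_le_mul_of_nonneg_right (inv_anti₀
        (mul_pos (by positivity) a2.1) (mul_le_mul_of_nonneg_left h4 (by positivity)))
          measureReal_nonneg)
      rw [inv_mul_le_iff₀ (by positivity)] at h5
      rw [← ofReal_measureReal]
      refine ENNReal.ofReal_le_ofReal ?_
      have h6 : 4 * Real.pi * r ^ 2 * ((4 * Real.pi * (a / 2))⁻¹ * (F.μ (a / 2)).real univ) =
          2 / 3 * (3 * (F.μ (a / 2)).real univ / a * r ^ 2) := by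
        have := ha.1.ne'
        field_simp
      nlinarith [mul_nonneg l0 (sq_nonneg r)]
    · have := hf _ (hs hs')
      rw [← ofReal_measureReal]
      refine ENNReal.ofReal_le_ofReal ((measureReal_mono (subset_univ _)).trans ?_)
      have h2 : ∫ y, b y ∂F.μ s = (F.μ s).real univ := by
        rw [Flw.μ, (hF.sl (hs hs')).int_congr (g := fun _ => (1 : ℝ)) fun y hy =>
          b.one_of_mem_closedBall (hR (k2 s hs' hy))]
        simp
      refine (h2 ▸ ((le_abs_self _).trans (hΛ s hs')).trans (le_abs_self Λ)).trans ?_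
      exact le_mul_of_one_le_right (abs_nonneg _) (one_le_pow₀ hρ)
  refine ⟨F, _, C * (1 + 3 * (F.μ (a / 2)).real univ / a + |(F.sl a).chi|),
    ⟨⟨hF.mono ha.1.le le_rfl, ar⟩, fun t ht => ?_⟩, fun t ht => hM t ⟨ha.1.trans ht.1, ht.2⟩⟩
  have ht' : t ∈ Ioo 0 T := ⟨ha.1.trans ht.1, ht.2⟩
  rw [kct F 0 T hF hK a ha t ht']
  exact hC _ _ (hF.sl ht') (hG t ht') (hM t ht' ▸ (h.conn t ht').isPreconnected) l0 (ar t ht)

end Vale.Agent.P218R
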