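import Vale.Agent.P218R.Base
import Mathlib.Geometry.Manifold.PartitionOfUnity

/-!
# P218R: the number of components outside a ball (row CMP, helper11)
-/

open MeasureTheory Metric Filter Topology Set
open scoped ContDiff ENNReal RealInnerProductSpace Manifold

noncomputable section

namespace Vale.Agent.P218R

namespace Cmp

section topo

variable {G O T : Set E3} {p x : E3}

theorem loc (hl : LC G) (hO : IsOpen O) (hx : x ∈ G ∩ O) : ∀ᶠ z in 𝓝 x, z ∈ G →
    (z ∈ connectedComponentIn (G ∩ O) p ↔ x ∈ connectedComponentIn (G ∩ O) p) := by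
  obtain ⟨V, h1, h2, h3⟩ := hl x hx.1 O (hO.mem_nhds hx.2)
  filter_upwards [h1] with z hz hG
  have s : V ∩ G ⊆ G ∩ O := fun w h => ⟨h.2, h2 h.1⟩
  have a : x ∈ V ∩ G := ⟨mem_of_mem_nhds h1, hx.1⟩
  exact ⟨fun h => connectedComponentIn_eq h ▸ h3.subset_connectedComponentIn ⟨hz, hG⟩ s a,
    fun h => connectedComponentIn_eq h ▸ h3.subset_connectedComponentIn a s ⟨hz, hG⟩⟩

theorem opn (hl : LC G) (hO : IsOpen O) :
    ∃ W, IsOpen W ∧ connectedComponentIn (G ∩ O) p = G ∩ W :=
  ⟨_, isOpen_setOfPred_eventually_nhds (p := fun z => z ∈ G → z ∈ connectedComponentIn (G ∩ O) p),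
    Subset.antisymm (fun _ h => ⟨(connectedComponentIn_subset _ _ h).1,
      (loc hl hO (connectedComponentIn_subset _ _ h)).mono fun _ a b => (a b).2 h⟩)
      fun _ h => h.2.self_of_nhds h.1⟩

theorem cls (hl : LC G) (hO : IsOpen O) (hx : x ∈ G ∩ O)
    (h : x ∈ closure (connectedComponentIn (G ∩ O) p)) : x ∈ connectedComponentIn (G ∩ O) p :=
  have ⟨_, a, b⟩ := ((mem_closure_iff_frequently.1 h).and_eventually (loc hl hO hx)).exists
  (b (connectedComponentIn_subset _ _ a).1).1 a

theorem clo (hl : LC G) (hG : IsClosed G) (hO : IsOpen O) (hT : IsClosed T) (h : T ⊆ O) :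
    IsClosed (connectedComponentIn (G ∩ O) p ∩ T) :=
  isClosed_of_closure_subset fun _ a =>
    have b := closure_minimal inter_subset_right hT a
    have c := closure_mono inter_subset_left a
    ⟨cls hl hO ⟨closure_minimal ((connectedComponentIn_subset _ _).trans inter_subset_left) hG c,
      h b⟩ c, b⟩

theorem all (hl : LC G) (hG : IsClosed G) (hc : IsPreconnected G) (hO : IsOpen O)
    (hT : IsClosed T) (h : T ⊆ O) (hp : p ∈ G ∩ O) (e : connectedComponentIn (G ∩ O) p ⊆ T) :
    connectedComponentIn (G ∩ O) p = G := by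
  obtain ⟨W, h1, h2⟩ := opn (p := p) hl hO
  have a := clo (p := p) hl hG hO hT h
  rw [inter_eq_left.2 e] at a
  refine ((connectedComponentIn_subset _ _).trans inter_subset_left).antisymm
    ((isPreconnected_iff_subset_of_disjoint_closed.1 hc _ _ a h1.isClosed_compl
      (fun z hz => ?_) ?_).resolve_right fun b => b hp.1 (h2.le (mem_connectedComponentIn hp)).2)
  · by_cases b : z ∈ W
    · exact .inl (h2.ge ⟨hz, b⟩)
    · exact .inr b
  · exact eq_empty_of_forall_notMem fun z hz => hz.2.2 (h2.le hz.2.1).2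

theorem top {f : E3 → ℝ} {c : ℝ} (hl : LC G) (hG : IsCompact G) (hf : Continuous f)
    (hp : p ∈ G ∩ {q | c < f q}) :
    ∃ x ∈ connectedComponentIn (G ∩ {q | c < f q}) p, IsLocalMaxOn f G x := by
  have s := (connectedComponentIn_subset (G ∩ {q | c < f q}) p).trans inter_subset_left
  have o := isOpen_lt continuous_const hf (f := fun _ => c)
  have m := subset_closure (mem_connectedComponentIn hp)
  obtain ⟨x, h1, h2⟩ := (hG.closure_of_subset s).exists_isMaxOn ⟨_, m⟩ hf.continuousOn
  have a : x ∈ G ∩ {q | c < f q} :=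
    ⟨closure_minimal s hG.isClosed h1, lt_of_lt_of_le (b := f p) hp.2 (h2 m)⟩
  have b := cls hl o a h1
  exact ⟨x, b, eventually_nhdsWithin_iff.2 ((loc hl o a).mono fun z h k =>
    h2 (subset_closure ((h k).2 b)))⟩

end topo

/-- a component through the centre of a ball has large area or large curvature -/
theorem big (M : MONO) : ∃ C > (0 : ℝ), ∀ (S : Srf) (O : Set E3) (p x : E3) (r : ℝ), S.Ok →
    LC S.G → IsOpen O → 0 < r → closedBall x (3 * r) ⊆ O →
    x ∈ connectedComponentIn (S.G ∩ O) p → 1 ≤ ENNReal.ofReal C *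
      ∫⁻ z in connectedComponentIn (S.G ∩ O) p ∩ closedBall x (3 * r),
        ENNReal.ofReal (1 / r ^ 2 + S.H z ^ 2) ∂S.μ := by
  obtain ⟨C, h0, M⟩ := M
  refine ⟨C, h0, fun S O p x r h hl hO hr hB hx => ?_⟩
  obtain ⟨W, w1, w2⟩ := opn (p := p) hl hO
  have c1 := clo (p := p) hl h.closed hO isClosed_closedBall hB
  obtain ⟨u, u0, u1, u2⟩ := exists_contMDiffMap_zero_one_nhds_of_isClosed (n := 1) 𝓘(ℝ, E3)
    (h.closed.inter w1.isClosed_compl) c1 (disjoint_left.2 fun z a b => a.2 (w2.le b.1).2)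
  have := M S u x r h u.contMDiff.contDiff (fun z => (u2 z).1)
    (connectedComponentIn_subset _ _ hx).1 hr
  rw [u1.self_of_nhdsSet x ⟨hx, mem_closedBall_self (by positivity)⟩, ENNReal.ofReal_one] at this
  refine (le_self_add.trans this).trans (mul_le_mul_right ?_ _)
  rw [← lintegral_indicator c1.measurableSet, ← lintegral_indicator measurableSet_ball]
  refine lintegral_mono_ae (h.ae.mono fun z hz => indicator_apply_le' (fun a => ?_)
    fun _ => zero_le)
  have t : ∀ c : ℝ, (∀ᶠ y in 𝓝 z, u y = c) → S.tg u z = 0 := fun c e => by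
    rw [Srf.tg, EventuallyEq.gradient_eq (f₁ := u) (f := fun _ => c) e]
    simp
  by_cases b : z ∈ W
  · have d : z ∈ connectedComponentIn (S.G ∩ O) p ∩ closedBall x (3 * r) :=
      ⟨w2.ge ⟨hz, b⟩, ball_subset_closedBall (ball_subset_ball (by linarith) a)⟩
    have e := u1.filter_mono (nhds_le_nhdsSet d)
    rw [indicator_of_mem d, t 1 e, e.self_of_nhds]
    simp
  · have e := u0.filter_mono (nhds_le_nhdsSet (s := S.G ∩ Wᶜ) ⟨hz, b⟩)
    rw [t 0 e, e.self_of_nhds]
    simp

end Cmp

open Cmp in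
/-- **CMP** -/
theorem cmp (M : MONO) (L : LO1) : CMP := by
  obtain ⟨C, h0, M⟩ := big M
  refine ⟨1600 * C + 1, by positivity, fun S Λ r ρ y h hG hc hΛ ar hr h2 h3 => ?_⟩
  have hl := (L S h).1
  have cf : Continuous (dq y) := by unfold dq; fun_prop
  have o := isOpen_lt continuous_const cf (f := fun _ => ρ ^ 2 / 2)
  have out : ∀ z, 3 * r < ‖z - y‖ → ρ ^ 2 / 2 < dq y z := fun z hz => by
    unfold dq; nlinarith
  set U := S.G ∩ {q | ρ ^ 2 / 2 < dq y q} with hU
  let A := {Γ ∈ connectedComponentIn U '' U | Γ ⊆ ball y (7 / 2 * r)}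
  let B := {Γ ∈ connectedComponentIn U '' U | ∃ x ∈ Γ, ‖x - y‖ = 7 / 2 * r}
  have dj : ∀ Γ ∈ connectedComponentIn U '' U, ∀ Γ' ∈ connectedComponentIn U '' U, ∀ z ∈ Γ,
      z ∈ Γ' → Γ = Γ' := by
    rintro _ ⟨p, -, rfl⟩ _ ⟨p', -, rfl⟩ z a b
    rw [connectedComponentIn_eq a, connectedComponentIn_eq b]
  have s : connectedComponentIn U '' U ⊆ A ∪ (B ∪ {S.G}) := by
    rintro _ ⟨p, hp, rfl⟩
    by_cases b : ∃ x ∈ connectedComponentIn U p, ‖x - y‖ = 7 / 2 * r
    · exact .inr (.inl ⟨⟨p, hp, rfl⟩, b⟩)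
    refine (isPreconnected_connectedComponentIn.subset_or_subset isOpen_ball
      (isClosed_closedBall (x := y) (ε := 7 / 2 * r)).isOpen_compl
      (disjoint_compl_right_iff_subset.2 ball_subset_closedBall) fun z hz => ?_).imp
      (fun a => ⟨⟨p, hp, rfl⟩, a⟩) fun a => .inr (all hl h.closed hc o
        (isOpen_ball (x := y) (ε := 7 / 2 * r)).isClosed_compl (fun z hz => out z ?_) hp
        (a.trans (compl_subset_compl.2 ball_subset_closedBall)))
    · simpa [dist_eq_norm] using lt_or_gt_of_ne fun e => b ⟨z, hz, e⟩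
    · simp only [mem_compl_iff, mem_ball_iff_norm, not_lt] at hz
      linarith
  have a : A.encard ≤ {x ∈ S.G | IsLocalMaxOn (dq y) S.G x ∧ ‖x - y‖ < 4 * r}.encard := by
    have : ∀ Γ ∈ A, ∃ x ∈ Γ, x ∈ S.G ∧ IsLocalMaxOn (dq y) S.G x ∧ ‖x - y‖ < 4 * r := by
      rintro _ ⟨⟨p, hp, rfl⟩, e⟩
      obtain ⟨x, a, b⟩ := top hl hG cf hp
      exact ⟨x, a, (connectedComponentIn_subset _ _ a).1, b,
        (mem_ball_iff_norm.1 (e a)).trans (by linarith)⟩
    choose! g g1 g2 using this
    exact encard_le_encard_of_injOn g2 fun Γ a Γ' b e => dj _ a.1 _ b.1 _ (g1 _ a) (e ▸ g1 _ b)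
  have := ar.fin
  have i : IntegrableOn (fun x => S.H x ^ 2) (closedBall y (5 * r)) S.μ :=
    (h.sH.continuous.pow 2).continuousOn.integrableOn_compact (isCompact_closedBall _ _)
  have i0 : 0 ≤ ∫ x in closedBall y (5 * r), S.H x ^ 2 ∂S.μ := integral_nonneg fun _ => sq_nonneg _
  have b : (B.encard : ℝ≥0∞) ≤
      ENNReal.ofReal (C * (1600 * Λ + ∫ x in closedBall y (5 * r), S.H x ^ 2 ∂S.μ)) := by
    let ν := (S.μ.restrict (closedBall y (5 * r))).withDensity
      fun z => ENNReal.ofReal (1 / (r / 8) ^ 2 + S.H z ^ 2)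
    have m : ∀ Γ : B, MeasurableSet Γ.1 := by
      rintro ⟨_, ⟨p, -, rfl⟩, -⟩
      obtain ⟨W, w1, w2⟩ := opn (p := p) hl o
      exact (congrArg _ w2).mpr (h.meas.inter w1.measurableSet)
    calc (B.encard : ℝ≥0∞) = ∑' _ : B, 1 := (ENNReal.tsum_set_one _).symm
      _ ≤ ∑' Γ : B, ENNReal.ofReal C * ν Γ := ENNReal.tsum_le_tsum fun Γ => by
        rw [withDensity_apply _ (m Γ), Measure.restrict_restrict (m Γ)]
        obtain ⟨_, ⟨p, -, rfl⟩, x, a, e⟩ := Γ
        refine (M S _ p x (r / 8) h hl o (by positivity) (fun z hz => out z ?_) a).trans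
          (mul_le_mul_right (lintegral_mono_set (inter_subset_inter_right _
            (closedBall_subset_closedBall' ?_))) _)
        · have := norm_sub_le_norm_sub_add_norm_sub x z y
          rw [mem_closedBall_iff_norm'] at hz
          linarith
        · rw [dist_eq_norm]
          linarith
      _ ≤ ENNReal.ofReal C * ν univ := by
        rw [ENNReal.tsum_mul_left]
        exact mul_le_mul_right (tsum_measure_le_measure_univ (fun Γ => (m Γ).nullMeasurableSet)
          fun Γ Γ' e => (disjoint_left.2 fun z a b =>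
            e (Subtype.ext (dj _ Γ.2.1 _ Γ'.2.1 z a b))).aedisjoint) _
      _ ≤ _ := by
        rw [withDensity_apply _ .univ, Measure.restrict_univ, ENNReal.ofReal_mul h0.le,
          ENNReal.ofReal_add (by positivity) i0, ofReal_integral_eq_lintegral_ofReal i
            (.of_forall fun _ => sq_nonneg _)]
        simp only [ENNReal.ofReal_add (show 0 ≤ 1 / (r / 8) ^ 2 by positivity) (sq_nonneg _)]
        rw [lintegral_add_left measurable_const, setLIntegral_const]
        gcongr
        refine (mul_le_mul_right (ar y _ (by positivity)) _).trans ?_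
        rw [← ENNReal.ofReal_mul (by positivity)]
        exact le_of_eq (congrArg _ (by field_simp; ring))
  have e : nc U ≤ A.encard + (B.encard + 1) := (encard_le_encard s).trans
    ((encard_union_le _ _).trans (by grw [encard_union_le, encard_singleton]))
  calc (nc U : ℝ≥0∞) ≤ A.encard + (B.encard + 1) := by exact_mod_cast e
    _ ≤ _ := add_le_add (by exact_mod_cast a) ((add_le_add_left b _).trans (by
      rw [← ENNReal.ofReal_one, ← ENNReal.ofReal_add (by positivity) zero_le_one]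
      exact ENNReal.ofReal_le_ofReal (by nlinarith [mul_nonneg h0.le hΛ, mul_nonneg h0.le i0])))

end Vale.Agent.P218R
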