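import Vale.Agent.P218R.Base

/-!
# P218R, rows DEG and KCT: the degree of the normal exponential map (helper76)
-/

set_option linter.all false

open MeasureTheory Metric Filter Topology Set
open scoped ContDiff ENNReal RealInnerProductSpace Convolution
open Vale.Agent.P366.Stmt (E)
open Vale.Agent.P366W

noncomputable section

namespace Vale.Agent.P218R

namespace Dg

/-! ### the pointwise identity -/

/-- the unit vectors -/
abbrev ee (i : Fin 3) : E3 := EuclideanSpace.single i 1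

lemma grad_ap (f : E3 → ℝ) (x : E3) (j : Fin 3) : gradient f x j = fderiv ℝ f x (ee j) := by
  rw [← inner_grad, EuclideanSpace.inner_single_right]
  simp

/-- the bracket of two covectors -/
def bb (n : E3) (a b : E3 → ℝ) : ℝ :=
  n 0 * (a (ee 1) * b (ee 2) - a (ee 2) * b (ee 1)) +
    n 1 * (a (ee 2) * b (ee 0) - a (ee 0) * b (ee 2)) +
    n 2 * (a (ee 0) * b (ee 1) - a (ee 1) * b (ee 0))

lemma br_bb (S : Srf) (a b : E3 → ℝ) (x : E3) :
    S.br a b x = bb (S.n x) (fderiv ℝ a x) (fderiv ℝ b x) := by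
  simp only [Srf.br, inner3, cr0, cr1, cr2, grad_ap, bb]

lemma alg (n v : E3) (M : E3 →L[ℝ] E3) (l : E3 →L[ℝ] ℝ) (γ s : ℝ) (h : ∀ u, ⟪n, M u⟫ = 0)
    (h3 : ⟪n, n⟫ = 1) :
    ∑ k, bb n (fun u => γ * cr v (M u) k + cr v n k * l (u + s • M u)) (fun u => (u + s • M u) k) =
      (l n * (1 + s * trc M + s ^ 2 * dt M) + γ * (trc M + 2 * s * dt M)) * ⟪v, n⟫ -
        l v * (1 + s * trc M + s ^ 2 * dt M) := by
  have h0 := h (ee 0)
  have h1 := h (ee 1)
  have h2 := h (ee 2)
  have eM : ∀ u i, M u i = u 0 * M (ee 0) i + u 1 * M (ee 1) i + u 2 * M (ee 2) i := fun u i => by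
    rw [map_eq_sum M u]
    simp [Fin.sum_univ_three]
  have el : ∀ u, l u = u 0 * l (ee 0) + u 1 * l (ee 1) + u 2 * l (ee 2) := fun u => by
    rw [map_eq_sum l u]
    simp [Fin.sum_univ_three]
  simp only [bb, dt, trc, ContinuousLinearMap.comp_apply, map_add, map_smul, inner3,
    Fin.sum_univ_three, eM (M _), el (M _), el n, el v, smul_eq_mul, cr0, cr1, cr2] at h0 h1 h2 h3 ⊢
  simp
  clear h eM el
  generalize M (ee 0) 0 = a, M (ee 1) 0 = b, M (ee 2) 0 = c, M (ee 0) 1 = d, M (ee 1) 1 = e,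
    M (ee 2) 1 = f, M (ee 0) 2 = g, M (ee 1) 2 = h, M (ee 2) 2 = i, l (ee 0) = p0, l (ee 1) = p1,
    l (ee 2) = p2, n 0 = n0, n 1 = n1, n 2 = n2, v 0 = v0, v 1 = v1, v 2 = v2 at *
  linear_combination
    (-s*(p1*(v0*n1-v1*n0)-p2*(v2*n0-v0*n2))-s^2*(((p0*b+p1*e+p2*h)*(v0*n1-v1*n0)-(p0*c+p1*f+p2*i)*
    (v2*n0-v0*n2))+(p1*((v1*n2-v2*n1)*c+(v2*n0-v0*n2)*f+(v0*n1-v1*n0)*i)-p2*((v1*n2-v2*n1)*b+(v2*
    n0-v0*n2)*e+(v0*n1-v1*n0)*h)))-γ*v0-2*s*γ*((a+e+i)*v0-(a*v0+b*v1+c*v2)))*h0+(-s*(p2*(v1*n2-v2*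
    n1)-p0*(v0*n1-v1*n0))-s^2*(((p0*c+p1*f+p2*i)*(v1*n2-v2*n1)-(p0*a+p1*d+p2*g)*(v0*n1-v1*n0))+
    (p2*((v1*n2-v2*n1)*a+(v2*n0-v0*n2)*d+(v0*n1-v1*n0)*g)-p0*((v1*n2-v2*n1)*c+(v2*n0-v0*n2)*f+(v0*
    n1-v1*n0)*i)))-γ*v1-2*s*γ*((a+e+i)*v1-(d*v0+e*v1+f*v2)))*h1+(-s*(p0*(v2*n0-v0*n2)-p1*(v1*n2-
    v2*n1))-s^2*(((p0*a+p1*d+p2*g)*(v2*n0-v0*n2)-(p0*b+p1*e+p2*h)*(v1*n2-v2*n1))+(p0*((v1*n2-v2*
    n1)*b+(v2*n0-v0*n2)*e+(v0*n1-v1*n0)*h)-p1*((v1*n2-v2*n1)*a+(v2*n0-v0*n2)*d+(v0*n1-v1*n0)*g)))-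
    γ*v2-2*s*γ*((a+e+i)*v2-(g*v0+h*v1+i*v2)))*h2+(-(1+s*(a+e+i)+s^2*(a*e+a*i+e*i-b*d-c*g-f*h))*
    (p0*v0+p1*v1+p2*v2))*h3

variable {S : Srf} {g : E3 → ℝ}

lemma HK (h : S.Ok) {x : E3} (hx : S.w x = 0) :
    S.H x = trc (fderiv ℝ S.n x) ∧ S.K x = dt (fderiv ℝ S.n x) := by
  have e : S.P x ∘L fderiv ℝ S.n x = fderiv ℝ S.n x :=
    ContinuousLinearMap.ext fun u => Srf.P_tan (h.n_dn hx u)
  have h1 : S.H x = trc (fderiv ℝ S.n x) := h.H_eq_dvg hx
  refine ⟨h1, ?_⟩
  rw [Srf.K, dt, dt, ← h1, Srf.H, Srf.A, ContinuousLinearMap.comp_assoc,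
    ← ContinuousLinearMap.comp_assoc (S.P x), e, ← ContinuousLinearMap.comp_assoc,
    trc_comm (_ ∘L _) (S.P x), ← ContinuousLinearMap.comp_assoc, e]

/-- the normal exponential map -/
def ex (S : Srf) (p : E3 × ℝ) : E3 := p.1 + p.2 • S.n p.1

/-- the first function in the bracket -/
def fa (S : Srf) (g : E3 → ℝ) (v : E3) (s : ℝ) (k : Fin 3) (z : E3) : ℝ :=
  g (z + s • S.n z) * cr v (S.n z) k

/-- the second function in the bracket -/
def fb (S : Srf) (s : ℝ) (k : Fin 3) (z : E3) : ℝ := (z + s • S.n z) k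

/-- a component of the cross product with a vector -/
def ck (v : E3) (k : Fin 3) : E3 →L[ℝ] ℝ := (EuclideanSpace.proj k : E3 →L[ℝ] ℝ) ∘L crL v

lemma sm_E (h : S.Ok) (s : ℝ) : ContDiff ℝ ∞ fun z => z + s • S.n z :=
  contDiff_id.add (h.sn.const_smul s)

lemma sm_fa (h : S.Ok) (hg : ContDiff ℝ 1 g) (v : E3) (s : ℝ) (k : Fin 3) :
    ContDiff ℝ 1 (fa S g v s k) :=
  (hg.comp ((sm_E h s).of_le one_le)).mul ((ck v k).contDiff.comp (h.sn.of_le one_le))

lemma sm_fb (h : S.Ok) (s : ℝ) (k : Fin 3) : ContDiff ℝ 2 (fb S s k) :=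
  ((EuclideanSpace.proj k : E3 →L[ℝ] ℝ).contDiff.comp (sm_E h s)).of_le two_le

/-- the derivative of `g (x + s n) J ⟨v, n⟩` in `s` -/
def WW (S : Srf) (g : E3 → ℝ) (v : E3) (p : E3 × ℝ) : ℝ :=
  (fderiv ℝ g (ex S p) (S.n p.1) * S.J p.1 p.2 +
    g (ex S p) * (S.H p.1 + 2 * p.2 * S.K p.1)) * ⟪v, S.n p.1⟫

lemma key (h : S.Ok) (hg : ContDiff ℝ 1 g) (v : E3) (s : ℝ) {x : E3} (hx : S.w x = 0) :
    ∑ k, S.br (fa S g v s k) (fb S s k) x =
      WW S g v (x, s) - fderiv ℝ g (ex S (x, s)) v * S.J x s := by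
  have d := (h.dn x).hasFDerivAt
  have dE := (hasFDerivAt_id x).add (d.const_smul s)
  have da : ∀ k, (fderiv ℝ (fa S g v s k) x : E3 → ℝ) = fun u =>
      g (x + s • S.n x) * cr v (fderiv ℝ S.n x u) k +
        cr v (S.n x) k * fderiv ℝ g (x + s • S.n x) (u + s • fderiv ℝ S.n x u) := fun k =>
    congrArg (fun l : E3 →L[ℝ] ℝ => (l : E3 → ℝ))
      (((hg.differentiable one_ne_zero _).hasFDerivAt.comp x dE).mul
        ((ck v k).hasFDerivAt.comp x d)).fderiv
  have db : ∀ k, (fderiv ℝ (fb S s k) x : E3 → ℝ) = fun u => (u + s • fderiv ℝ S.n x u) k :=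
    fun k => congrArg (fun l : E3 →L[ℝ] ℝ => (l : E3 → ℝ))
      ((EuclideanSpace.proj k : E3 →L[ℝ] ℝ).hasFDerivAt.comp x dE).fderiv
  simp only [br_bb, da, db, WW, Srf.J, (HK h hx).1, (HK h hx).2, ex]
  exact alg _ _ _ _ _ _ (h.n_dn hx) (h.nn hx)

lemma der (hg : ContDiff ℝ 1 g) (v x : E3) (s : ℝ) :
    HasDerivAt (fun s => g (ex S (x, s)) * S.J x s * ⟪v, S.n x⟫) (WW S g v (x, s)) s := by
  have h1 : HasDerivAt (fun s : ℝ => x + s • S.n x) (S.n x) s := by
    simpa using ((hasDerivAt_id s).smul_const (S.n x)).const_add x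
  have h2 : HasDerivAt (fun s => S.J x s) (S.H x + 2 * s * S.K x) s := by
    simpa [Srf.J] using (((hasDerivAt_id s).mul_const (S.H x)).const_add 1).fun_add
      ((hasDerivAt_pow 2 s).mul_const (S.K x))
  exact (((hg.differentiable one_ne_zero _).hasFDerivAt.comp_hasDerivAt s h1).mul h2).mul_const _

/-! ### integrals over the normal bundle -/

lemma cont_ex (h : S.Ok) : Continuous (ex S) :=
  continuous_fst.add (continuous_snd.smul (h.sn.continuous.comp continuous_fst))

lemma cont_J (h : S.Ok) : Continuous fun p : E3 × ℝ => S.J p.1 p.2 :=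
  (continuous_const.add (continuous_snd.mul (h.sH.continuous.comp continuous_fst))).add
    ((continuous_snd.pow 2).mul (h.sK.continuous.comp continuous_fst))

lemma abs_le (h : S.Ok) {p : E3 × ℝ} (hp : S.w p.1 = 0) : |p.2| ≤ ‖ex S p‖ + ‖p.1‖ := by
  have := norm_sub_le (ex S p) p.1
  rwa [ex, add_sub_cancel_left, norm_smul, h.norm_n hp, mul_one, Real.norm_eq_abs] at this

lemma cpt (h : S.Ok) (hG : IsCompact S.G) {K : Set E3} (hK : IsCompact K) :
    IsCompact {p : E3 × ℝ | S.w p.1 = 0 ∧ ex S p ∈ K} := by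
  obtain ⟨R, hR⟩ := hG.isBounded.exists_norm_le
  obtain ⟨R', hR'⟩ := hK.isBounded.exists_norm_le
  refine (hG.prod (isCompact_closedBall (0 : ℝ) (R' + R))).of_isClosed_subset
    ((h.closed.preimage continuous_fst).inter (hK.isClosed.preimage (cont_ex h)))
    fun p hp => ⟨hp.1, mem_closedBall_zero_iff.2 ((abs_le h hp.1).trans
      (add_le_add (hR' _ hp.2) (hR _ hp.1)))⟩

lemma ae_G (h : S.Ok) : ∀ᵐ p ∂S.μ.prod (volume : Measure ℝ), S.w p.1 = 0 :=
  Measure.quasiMeasurePreserving_fst.ae h.ae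

lemma fin (h : S.Ok) (hG : IsCompact S.G) [IsLocallyFiniteMeasure S.μ] : IsFiniteMeasure S.μ :=
  ⟨by
    rw [h.apply, univ_inter, ← inter_self S.G, ← h.apply]
    exact hG.measure_lt_top⟩

lemma integ (h : S.Ok) (hG : IsCompact S.G) [IsLocallyFiniteMeasure S.μ] {F : E3 × ℝ → ℝ}
    (hF : Continuous F) (hg : HasCompactSupport g) (h0 : ∀ p, ex S p ∉ tsupport g → F p = 0) :
    Integrable F (S.μ.prod volume) :=
  (hF.continuousOn.integrableOn_compact (cpt h hG hg)).integrable_of_ae_notMem_eq_zero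
    ((ae_G h).mono fun p hp hn => h0 p fun hk => hn ⟨hp, hk⟩)

lemma integ1 (h : S.Ok) (hG : IsCompact S.G) [IsLocallyFiniteMeasure S.μ] {F : E3 → ℝ}
    (hF : Continuous F) : Integrable F S.μ :=
  (hF.continuousOn.integrableOn_compact hG).integrable_of_ae_notMem_eq_zero
    (h.ae.mono fun p hp hn => (hn hp).elim)

lemma bra' (bra : BRA) (h : S.Ok) (hG : IsCompact S.G) {a b : E3 → ℝ} (ha : ContDiff ℝ 1 a)
    (hb : ContDiff ℝ 2 b) : ∫ x, S.br a b x ∂S.μ = 0 := by
  obtain ⟨R, R0, hR⟩ := hG.isBounded.subset_ball_lt 0 0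
  let χ : ContDiffBump (0 : E3) := ⟨R, R + 1, R0, lt_add_one R⟩
  rw [← bra S (fun x => a x * χ x) b h (ha.mul χ.contDiff) χ.hasCompactSupport.mul_left hb]
  refine h.int_congr fun x hx => ?_
  have e : (fun x => a x * χ x) =ᶠ[𝓝 x] a :=
    (χ.eventuallyEq_one_of_mem_ball (hR hx)).mono fun y hy => by simp [hy]
  rw [Srf.br, Srf.br, e.gradient_eq]

/-- the pull back of an exact form has integral zero -/
lemma exact (bra : BRA) (h : S.Ok) (hG : IsCompact S.G) [IsLocallyFiniteMeasure S.μ]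
    (hg : ContDiff ℝ 1 g) (hc : HasCompactSupport g) (v : E3) :
    ∫ p, fderiv ℝ g (ex S p) v * S.J p.1 p.2 ∂S.μ.prod volume = 0 := by
  haveI := fin h hG
  have c1 := (hg.continuous_fderiv one_ne_zero).comp (cont_ex h)
  have c2 := hg.continuous.comp (cont_ex h)
  have c3 := h.sn.continuous.comp (continuous_fst (X := E3) (Y := ℝ))
  have z1 : ∀ p, ex S p ∉ tsupport g → fderiv ℝ g (ex S p) = 0 := fun p hp =>
    image_eq_zero_of_notMem_tsupport fun k => hp (tsupport_fderiv_subset ℝ k)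
  have z2 : ∀ p, ex S p ∉ tsupport g → g (ex S p) = 0 := fun p =>
    image_eq_zero_of_notMem_tsupport
  have i1 : Integrable (fun p => fderiv ℝ g (ex S p) v * S.J p.1 p.2) (S.μ.prod volume) :=
    integ h hG ((c1.clm_apply continuous_const).mul (cont_J h)) hc fun p hp => by simp [z1 p hp]
  have i2 : Integrable (WW S g v) (S.μ.prod volume) :=
    integ h hG ((((c1.clm_apply c3).mul (cont_J h)).add (c2.mul
      ((h.sH.continuous.comp continuous_fst).add ((continuous_const.mul continuous_snd).mul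
        (h.sK.continuous.comp continuous_fst))))).mul (continuous_const.inner c3)) hc
      fun p hp => by simp [WW, z1 p hp, z2 p hp]
  have i3 : Integrable (fun p => g (ex S p) * S.J p.1 p.2 * ⟪v, S.n p.1⟫) (S.μ.prod volume) :=
    integ h hG ((c2.mul (cont_J h)).mul (continuous_const.inner c3)) hc
      fun p hp => by simp [z2 p hp]
  have e1 : ∫ p, WW S g v p ∂S.μ.prod volume = 0 := by
    rw [integral_prod _ i2]
    refine integral_eq_zero_of_ae ?_
    filter_upwards [i2.prod_right_ae, i3.prod_right_ae] with x k2 k3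
    exact integral_eq_zero_of_hasDerivAt_of_integrable (der hg v x) k2 k3
  have e2 : ∫ p, WW S g v p - fderiv ℝ g (ex S p) v * S.J p.1 p.2 ∂S.μ.prod volume = 0 := by
    refine (integral_prod_symm _ (i2.sub i1)).trans
      (integral_eq_zero_of_ae (.of_forall fun s => ?_))
    refine (h.int_congr fun x hx => (key h hg v s hx).symm).trans ?_
    rw [integral_finset_sum _ fun k _ =>
      integ1 h hG (h.cbr (sm_fa h hg v s k) ((sm_fb h s k).of_le one_le_two))]
    exact Finset.sum_eq_zero fun k _ => bra' bra h hG (sm_fa h hg v s k) (sm_fb h s k)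
  rwa [integral_sub i2 i1, e1, zero_sub, neg_eq_zero] at e2

/-! ### functions with vanishing weak derivative -/

lemma ae_const {f : E3 → ℝ} (hf : LocallyIntegrable f volume)
    (h : ∀ g : E3 → ℝ, ContDiff ℝ 1 g → HasCompactSupport g → ∀ v,
      ∫ y, fderiv ℝ g y v * f y = 0) : ∃ c, ∀ᵐ y, f y = c := by
  let φ : ℕ → ContDiffBump (0 : E3) := fun i =>
    ⟨1 / ((i : ℝ) + 1) / 2, 1 / ((i : ℝ) + 1), by positivity, half_lt_self (by positivity)⟩
  have h1 := ContDiffBump.ae_convolution_tendsto_right_of_locallyIntegrable (φ := φ) (K := 2)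
    tendsto_one_div_add_atTop_nhds_zero_nat (.of_forall fun i => by simp only [φ]; linarith) hf
  have h2 : ∀ i x, ((φ i).normed volume ⋆[ContinuousLinearMap.lsmul ℝ ℝ, volume] f) x =
      ((φ i).normed volume ⋆[ContinuousLinearMap.lsmul ℝ ℝ, volume] f) 0 := fun i x => by
    have s1 : ContDiff ℝ 1 ((φ i).normed volume) := (φ i).contDiff_normed
    have s2 := (φ i).hasCompactSupport_normed (μ := volume)
    rw [← convolution_flip]
    have d := s2.hasFDerivAt_convolution_right (ContinuousLinearMap.lsmul ℝ ℝ).flip hf s1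
    refine is_const_of_fderiv_eq_zero (𝕜 := ℝ) (fun x => (d x).differentiableAt) (fun x => ?_) _ _
    ext1 v
    rw [(d x).fderiv, convolution_precompR_apply _ hf (s2.fderiv ℝ)
      (s1.continuous_fderiv one_ne_zero), convolution_def, ContinuousLinearMap.zero_apply,
      ← h (fun t => (φ i).normed volume (x - t)) (s1.comp (contDiff_const.sub contDiff_id))
        (s2.comp_homeomorph (Homeomorph.subLeft x)) (-v)]
    refine integral_congr_ae (.of_forall fun t => ?_)
    have := ((s1.differentiable one_ne_zero _).hasFDerivAt.comp t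
      ((hasFDerivAt_id t).const_sub x)).fderiv
    simp only [show fderiv ℝ (fun t => (φ i).normed volume (x - t)) t = _ from this]
    simp
  refine ⟨limUnder atTop fun i =>
    ((φ i).normed volume ⋆[ContinuousLinearMap.lsmul ℝ ℝ, volume] f) 0, h1.mono fun y hy => ?_⟩
  simp only [h2 _ y] at hy
  exact hy.limUnder_eq.symm

/-! ### counting -/

/-- the number of critical points of a given sign -/
def NN (S : Srf) (σ : ℝ) (y : E3) : ℝ≥0∞ :=
  {x ∈ S.crit (dq y) | 0 < σ * dt (S.hs (dq y) x)}.encard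

lemma cnt (fn : FIN) (h : S.Ok) (σ : ℝ) (s : Set E3) (y : E3) :
    ∑' x : S.crit (dq y), (ex S ⁻¹' s ∩ {p | 0 < σ * S.J p.1 p.2}).indicator (fun _ => (1 : ℝ≥0∞))
      (x.1, ⟪y - x.1, S.n x.1⟫) = s.indicator (NN S σ) y := by
  have f := (fn S h).2.1 y
  by_cases hy : y ∈ s
  · rw [indicator_of_mem hy, NN, ← ENNReal.tsum_set_one, tsum_subtype _ fun _ => (1 : ℝ≥0∞),
      tsum_subtype _ fun x => (ex S ⁻¹' s ∩ {p | 0 < σ * S.J p.1 p.2}).indicator (fun _ => (1 : ℝ≥0∞))
        (x, ⟪y - x, S.n x⟫)]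
    refine tsum_congr fun x => ?_
    by_cases hx : x ∈ S.crit (dq y)
    · simp [indicator, hx, ex, (f x hx).1, (f x hx).2, hy]
    · simp [indicator, hx]
  · rw [indicator_of_notMem hy]
    refine ENNReal.tsum_eq_zero.2 fun x => indicator_of_notMem (fun k => hy ?_) _
    exact (f x.1 x.2).1 ▸ k.1

lemma area (ar : AR3) (fn : FIN) (h : S.Ok) (hG : IsCompact S.G) [IsLocallyFiniteMeasure S.μ]
    {σ : ℝ} (hσ : |σ| = 1) : LocallyIntegrable (fun y => (NN S σ y).toReal) volume ∧
    ∀ g : E3 → ℝ, Continuous g → ∫ p, g (ex S p) * max (σ * S.J p.1 p.2) 0 ∂S.μ.prod volume =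
      ∫ y, g y * (NN S σ y).toReal := by
  haveI := fin h hG
  have c1 : Continuous fun p : E3 × ℝ => σ * S.J p.1 p.2 := continuous_const.mul (cont_J h)
  have m1 := c1.measurable.ennreal_ofReal
  have m2 : ∀ s, MeasurableSet s → MeasurableSet (ex S ⁻¹' s ∩ {p | 0 < σ * S.J p.1 p.2}) :=
    fun s hs => ((cont_ex h).measurable hs).inter (measurableSet_lt measurable_const c1.measurable)
  have A := fun s hs => (ar S h).2 _ ((measurable_const (a := 1)).indicator (m2 s hs))
  simp only [cnt fn h] at A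
  have m3 : AEMeasurable (NN S σ) volume := by simpa using (A univ .univ).1
  have e : ∀ s, MeasurableSet s → ∫⁻ p in ex S ⁻¹' s, ENNReal.ofReal (σ * S.J p.1 p.2)
      ∂S.μ.prod volume = ∫⁻ y in s, NN S σ y := fun s hs => by
    rw [← lintegral_indicator hs, ← (A s hs).2,
      ← lintegral_indicator ((cont_ex h).measurable hs),
      lintegral_prod _ (m1.indicator ((cont_ex h).measurable hs)).aemeasurable]
    refine lintegral_congr fun x => lintegral_congr fun t => ?_
    by_cases k : ex S (x, t) ∈ s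
    · rcases lt_or_ge 0 (σ * S.J x t) with k' | k'
      · have : |S.J x t| = σ * S.J x t := by rw [← abs_of_pos k', abs_mul, hσ, one_mul]
        simp [indicator, k, k', this]
      · simp [indicator, k, k', k'.not_gt]
    · simp [indicator, k]
  have f : ∀ K, IsCompact K → ∫⁻ y in K, NN S σ y < ⊤ := fun K hK => by
    rw [← e K hK.measurableSet, setLIntegral_congr (s := ex S ⁻¹' K)
      (t := {p | S.w p.1 = 0 ∧ ex S p ∈ K}) ((ae_G h).mono fun p hp =>
        propext ⟨fun k => ⟨hp, k⟩, fun k => k.2⟩)]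
    exact (c1.continuousOn.integrableOn_compact (cpt h hG hK)).setLIntegral_lt_top
  have f' : ∀ᵐ y, NN S σ y < ⊤ := by
    rw [← Measure.restrict_univ (μ := volume), ← iUnion_closedBall_nat (0 : E3),
      ae_restrict_iUnion_iff]
    exact fun n => ae_lt_top' m3.restrict (f _ (isCompact_closedBall _ _)).ne
  refine ⟨locallyIntegrable_iff.2 fun K hK =>
    integrable_toReal_of_lintegral_ne_top m3.restrict (f K hK).ne, fun g hg => ?_⟩
  have e' : ((S.μ.prod volume).withDensity fun p => ENNReal.ofReal (σ * S.J p.1 p.2)).map (ex S) =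
      volume.withDensity (NN S σ) := by
    ext s hs
    rw [Measure.map_apply (cont_ex h).measurable hs, withDensity_apply _ hs,
      withDensity_apply _ ((cont_ex h).measurable hs), e s hs]
  have := congrArg (fun ν => ∫ y, g y ∂ν) e'
  simp only [integral_map (cont_ex h).aemeasurable hg.aestronglyMeasurable,
    integral_withDensity_eq_integral_toReal_smul₀ m3 f',
    integral_withDensity_eq_integral_toReal_smul m1 (.of_forall fun _ => ENNReal.ofReal_lt_top),
    ENNReal.toReal_ofReal', smul_eq_mul] at this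
  simpa only [mul_comm] using this

lemma toReal_enc {α : Type*} (s : Set α) : (s.encard : ℝ≥0∞).toReal = s.ncard := by
  rcases s.finite_or_infinite with h | h
  · rw [← h.cast_ncard_eq]
    simp
  · simp [h.encard_eq, h.ncard]

end Dg

open Dg

/-- **row DEG** -/
theorem deg (ar : AR3) (fn : FIN) (bra : BRA) (low : LOW) : DEG := fun S h hG => by
  haveI := (low S h).1
  haveI := fin h hG
  obtain ⟨l1, a1⟩ := area ar fn h hG (σ := 1) abs_one
  obtain ⟨l2, a2⟩ := area ar fn h hG (σ := -1) (by simp)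
  have e : ∀ y, (NN S 1 y).toReal - (NN S (-1) y).toReal =
      ((S.ext (dq y)).ncard : ℝ) - (S.sad (dq y)).ncard := fun y => by
    simp only [NN, toReal_enc, one_mul, neg_one_mul, neg_pos, Srf.ext, Srf.sad]
  have D : ∀ g : E3 → ℝ, Continuous g → HasCompactSupport g →
      ∫ p, g (ex S p) * S.J p.1 p.2 ∂S.μ.prod volume =
        ∫ y, g y * ((NN S 1 y).toReal - (NN S (-1) y).toReal) := fun g hg hc => by
    have i : ∀ σ : ℝ, Integrable (fun p => g (ex S p) * max (σ * S.J p.1 p.2) 0)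
        (S.μ.prod volume) := fun σ =>
      integ h hG ((hg.comp (cont_ex h)).mul ((continuous_const.mul (cont_J h)).max
        continuous_const)) hc fun p hp => by simp [image_eq_zero_of_notMem_tsupport hp]
    simp only [mul_sub]
    refine Eq.trans ?_ (integral_sub (l1.integrable_smul_left_of_hasCompactSupport hg hc)
      (l2.integrable_smul_left_of_hasCompactSupport hg hc)).symm
    simp only [smul_eq_mul]
    rw [← a1 g hg, ← a2 g hg, ← integral_sub (i 1) (i (-1))]
    simp only [← mul_sub, one_mul, neg_one_mul, max_zero_sub_max_neg_zero_eq_self]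
  obtain ⟨c, hc⟩ := ae_const (l1.sub l2) fun g hg hc v => by
    refine (D _ ((hg.continuous_fderiv one_ne_zero).clm_apply continuous_const)
      (hc.fderiv_apply ℝ v)).symm.trans (exact bra h hG hg hc v)
  have s1 : Continuous g0 := ContDiffBump.continuous_normed _
  have s2 : HasCompactSupport g0 := ContDiffBump.hasCompactSupport_normed _
  have k : S.chi = c := by
    refine (integral_prod (fun p => g0 (ex S p) * S.J p.1 p.2) (integ h hG
      ((s1.comp (cont_ex h)).mul (cont_J h)) s2 fun p hp => by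
        simp [image_eq_zero_of_notMem_tsupport hp])).symm.trans ((D g0 s1 s2).trans ?_)
    refine (integral_congr_ae (hc.mono fun y hy => congrArg (g0 y * ·) hy)).trans ?_
    rw [integral_mul_const, g0, ContDiffBump.integral_normed, one_mul]
  exact hc.mono fun y hy => (e y).symm.trans (hy.trans k.symm)

/-- **row KCT** -/
theorem kct (dg : DEG) (cn : CNT) : KCT := fun F a b h hK s hs t ht => by
  wlog st : s ≤ t generalizing s t
  · exact (this t ht s hs (not_le.1 st).le).symm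
  obtain ⟨K, kc, hK⟩ := hK s t hs.1 ht.2
  have sub : Icc s t ⊆ Ioo a b := Icc_subset_Ioo hs.1 ht.2
  obtain ⟨R, R0, hR⟩ := kc.isBounded.subset_ball_lt 0 0
  let χ : ContDiffBump (0 : E3) := ⟨R, R + 1, R0, lt_add_one R⟩
  have s1 : Continuous g0 := ContDiffBump.continuous_normed _
  have c := cn F a b (fun p => χ p.2 * ∫ r in -(2 + R)..2 + R,
    g0 (p.2 + r • F.n p) * (F.sl p.1).J p.2 r) _ h ?_ χ.hasCompactSupport
    fun _ x hx => by simp [image_eq_zero_of_notMem_tsupport hx]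
  · refine isPreconnected_Icc.constant_of_mapsTo
      Int.isClosedEmbedding_coe_real.isInducing.isDiscrete_range
      (f := fun r => (F.sl r).chi) ((c.mono sub).congr fun r hr => ?_) (fun r hr => ?_)
      (left_mem_Icc.2 st) (right_mem_Icc.2 st)
    · refine (h.sl (sub hr)).int_congr fun x hx => ?_
      have hx' := hR (hK r hr hx)
      rw [χ.one_of_mem_closedBall (ball_subset_closedBall hx'), one_mul]
      refine (intervalIntegral.integral_eq_integral_of_support_subset fun u hu => ?_).symm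
      have h1 : ex (F.sl r) (x, u) ∈ ball (0 : E3) 2 := by
        have := ContDiffBump.support_normed_eq (μ := volume)
          (⟨1, 2, one_pos, one_lt_two⟩ : ContDiffBump (0 : E3))
        exact this ▸ left_ne_zero_of_mul hu
      have h2 := abs_le (h.sl (sub hr)) (p := (x, u)) hx
      rw [mem_ball_zero_iff] at h1 hx'
      have h3 := abs_lt.1 (h2.trans_lt (add_lt_add h1 hx'))
      exact ⟨h3.1, h3.2.le⟩
    · obtain ⟨y, hy⟩ := (dg _ (h.sl (sub hr))
        (kc.of_isClosed_subset (h.sl (sub hr)).closed (hK r hr))).exists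
      exact ⟨((F.sl r).ext (dq y)).ncard - ((F.sl r).sad (dq y)).ncard, by
        push_cast
        exact hy⟩
  · refine (χ.continuous.comp continuous_snd).continuousOn.mul ?_
    rw [continuousOn_iff_continuous_restrict]
    have c1 := h.sn.continuousOn.restrict.comp (continuous_fst (Y := ℝ))
    have c2 := h.sH.continuousOn.restrict.comp (continuous_fst (Y := ℝ))
    have c3 := h.sK.continuousOn.restrict.comp (continuous_fst (Y := ℝ))
    refine intervalIntegral.continuous_parametric_intervalIntegral_of_continuous' ?_ _ _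
    exact (s1.comp ((continuous_snd.comp (continuous_subtype_val.comp continuous_fst)).add
      (continuous_snd.smul c1))).mul ((continuous_const.add (continuous_snd.mul c2)).add
        ((continuous_snd.pow 2).mul c3))

end Vale.Agent.P218R
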