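import Vale.Agent.P218R.Stm

/-!
# P218R, row DJ: a saddle which is alone on its level does not merge both ways
-/

open MeasureTheory Metric Filter Topology Set
open scoped ContDiff ENNReal RealInnerProductSpace Manifold

noncomputable section

namespace Vale.Agent.P218R

namespace Dj

/-- the two sides of the level set of `F`, with respect to one component of the superlevel set -/
theorem side {G V : Set E3} {F l : E3 → ℝ} {p : E3} (hV : V ∈ 𝓝 p) (hl : Continuous l)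
    (hA : IsConnected (V ∩ G ∩ {q | F p < F q ∧ 0 < l q}))
    (hB : IsConnected (V ∩ G ∩ {q | F p < F q ∧ l q < 0}))
    (hne : ∀ q ∈ V ∩ G, F p < F q → l q ≠ 0) (hM : Mrg G F p)
    (h1 : ∀ q ∈ G, F q = F p → q ≠ p → One G F q) :
    ∃ W W' : Set E3, IsOpen W ∧ IsOpen W' ∧
      (∀ q ∈ G, F q = F p → q ≠ p → (q ∈ W ↔ q ∉ W')) ∧
      ∀ q, V ∈ 𝓝 q → (0 < l q → q ∈ W) ∧ (l q < 0 → q ∈ W') := by
  obtain ⟨a, ha⟩ := hA.nonempty
  set O := connectedComponentIn (G ∩ {q | F p < F q}) a with hO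
  have hs : ∀ C : Set E3, IsPreconnected C → C ⊆ G ∩ {q | F p < F q} → ∀ y ∈ C, y ∈ O → C ⊆ O :=
    fun C h1 h2 y h3 h4 => by
      rw [hO, connectedComponentIn_eq h4]
      exact h1.subset_connectedComponentIn h3 h2
  have hAO := hs _ hA.isPreconnected (fun y hy => ⟨hy.1.2, hy.2.1⟩) a ha
    (mem_connectedComponentIn ⟨ha.1.2, ha.2.1⟩)
  have hBO : ∀ y ∈ V ∩ G ∩ {q | F p < F q ∧ l q < 0}, y ∉ O := fun y hy h => by
    have h2 := hs _ hB.isPreconnected (fun y hy => ⟨hy.1.2, hy.2.1⟩) y hy h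
    have h3 : V ∩ G ∩ {q | F p < F q} ⊆ O := fun z hz =>
      (lt_or_gt_of_ne (hne z hz.1 hz.2)).elim (fun e => h2 ⟨hz.1, hz.2, e⟩)
        fun e => hAO ⟨hz.1, hz.2, e⟩
    obtain ⟨q, hq, q', hq', h4⟩ := hM V hV
    exact h4 (connectedComponentIn_eq (h3 hq) ▸ h3 hq')
  refine ⟨interior {y | y ∈ G → F p < F y → y ∈ O}, interior {y | y ∈ G → F p < F y → y ∉ O},
    isOpen_interior, isOpen_interior, fun q hq e hp => ⟨fun h h' => ?_, fun h => ?_⟩,
    fun q hq => ⟨fun h => ?_, fun h => ?_⟩⟩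
  · obtain ⟨U, -, h2, ⟨y, hy⟩, -⟩ := h1 q hq e hp _
      (inter_mem (mem_interior_iff_mem_nhds.1 h) (mem_interior_iff_mem_nhds.1 h'))
    rw [e] at hy
    exact (h2 hy.1.1).2 hy.1.2 hy.2 ((h2 hy.1.1).1 hy.1.2 hy.2)
  · obtain ⟨U, hU, -, -, h2⟩ := h1 q hq e hp _ univ_mem
    rw [e] at h2
    refine mem_interior_iff_mem_nhds.2 (mem_of_superset hU fun y hy h3 h4 => by_contra fun h5 =>
      h (mem_interior_iff_mem_nhds.2 (mem_of_superset hU fun z hz h6 h7 h8 => h5 ?_)))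
    exact hs _ h2 (fun y hy => ⟨hy.1.2, hy.2⟩) z ⟨⟨hz, h6⟩, h7⟩ h8 ⟨⟨hy, h3⟩, h4⟩
  · refine mem_interior_iff_mem_nhds.2 ?_
    filter_upwards [hq, hl.continuousAt.eventually (lt_mem_nhds h)] with y h2 h3 h4 h5
    exact hAO ⟨⟨h2, h4⟩, h5, h3⟩
  · refine mem_interior_iff_mem_nhds.2 ?_
    filter_upwards [hq, hl.continuousAt.eventually (gt_mem_nhds h)] with y h2 h3 h4 h5
    exact hBO y ⟨⟨h2, h4⟩, h5, h3⟩

/-- the primitive of a bump function -/
theorem exists_prim (a : ℝ) {r : ℝ} (hr : 0 < r) : ∃ ρ b : ℝ → ℝ, ContDiff ℝ 2 ρ ∧ Continuous b ∧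
    (∀ t, HasDerivAt ρ (b t) t) ∧ (∀ t, 0 ≤ b t) ∧ 0 < b a ∧ (∀ t, r ≤ |t - a| → b t = 0) ∧
    ∀ t ≤ a - r, ρ t = 0 := by
  let b : ContDiffBump a := ⟨r / 2, r, half_pos hr, half_lt_self hr⟩
  have h1 : ∀ t, HasDerivAt (fun t => ∫ x in a - r..t, b x) (b t) t := fun t =>
    (b.continuous.integral_hasStrictDerivAt _ t).hasDerivAt
  have h2 : ∀ t, r ≤ |t - a| → b t = 0 := fun t h => b.zero_of_le_dist h
  refine ⟨fun t => ∫ x in a - r..t, b x, b, ?_, b.continuous, h1, fun t => b.nonneg, ?_, h2,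
    fun t ht => ?_⟩
  · rw [show (2 : WithTop ℕ∞) = 1 + 1 from rfl, contDiff_succ_iff_deriv]
    refine ⟨fun t => (h1 t).differentiableAt, by simp, ?_⟩
    rw [funext fun t => (h1 t).deriv]
    exact b.contDiff
  · rw [b.one_of_mem_closedBall (mem_closedBall_self (half_pos hr).le)]
    exact one_pos
  · refine (intervalIntegral.integral_congr (g := fun _ => 0) fun x hx => h2 x ?_).trans (by simp)
    rw [uIcc_of_ge ht] at hx
    exact le_trans (by linarith [hx.2]) (neg_le_abs _)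

theorem grad_comp {ζ : ℝ → ℝ} {u : E3 → ℝ} {b : ℝ} {x : E3} (hu : DifferentiableAt ℝ u x)
    (hζ : HasDerivAt ζ b (u x)) (k : ℝ) :
    gradient (fun y => ζ (u y) * k) x = (b * k) • gradient u x := by
  have h : HasFDerivAt (fun y => ζ (u y) * k) (k • b • fderiv ℝ u x) x :=
    (hζ.comp_hasFDerivAt x hu.hasFDerivAt).mul_const k
  rw [gradient, h.fderiv, smul_smul, map_smul, mul_comm, gradient]

theorem cr_smul (a b : ℝ) (u v : E3) : cr (a • u) (b • v) = (a * b) • cr u v := by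
  ext i
  fin_cases i <;> simp [cr] <;> ring

theorem cont_grad {f : E3 → ℝ} (hf : ContDiff ℝ 1 f) : Continuous (gradient f) :=
  (InnerProductSpace.toDual ℝ E3).symm.continuous.comp (hf.continuous_fderiv one_ne_zero)

theorem cont_br {S : Srf} (hS : S.Ok) {g h : E3 → ℝ} (hg : ContDiff ℝ 1 g) (hh : ContDiff ℝ 1 h) :
    Continuous (S.br g h) := by
  have h1 := cont_grad hg
  have h2 := cont_grad hh
  have h3 := hS.sn.continuous
  unfold Srf.br cr
  fun_prop

theorem crit_neg (S : Srf) (f : E3 → ℝ) : S.crit (-f) = S.crit f := by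
  ext x
  simp [Srf.crit, Srf.tg, gradient, fderiv_neg]

theorem dq_smooth (p : E3) : ContDiff ℝ ∞ (dq p) :=
  ((contDiff_norm_sq ℝ).comp (contDiff_id.sub contDiff_const)).div_const 2

end Dj

open Dj

/-- **Row DJ.** -/
theorem dj (bra : BRA) (lo1 : LO1) (low : LOW) : DJ := by
  rintro S f p hS hG hf - ⟨l₁, l₂, c1, c2, hs⟩ hc hM hM'
  obtain ⟨V, hV, -, a1, a2, a3, a4, a5, -⟩ := hs univ univ_mem
  have one : ∀ g, ContDiff ℝ ∞ g → S.crit g = S.crit f → ∀ q ∈ S.G, f q = f p → q ≠ p →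
      One S.G g q := fun g h1 h2 q hq e hp =>
    ((lo1 S hS).2 g q h1 hq).1 fun h => hp (hc q (h2 ▸ h) e)
  obtain ⟨W₁, W₁', o1, o1', w1, v1⟩ := side hV c1 a1 a2 (fun q hq => (a5 q hq).1) hM
    (one f hf rfl)
  obtain ⟨W₂, W₂', o2, o2', w2, v2⟩ := side (F := -f) hV c2 (by simpa using a3) (by simpa using a4)
    (fun q hq h => (a5 q hq).2.1 (neg_lt_neg_iff.1 h)) hM'
    fun q hq e => one _ hf.neg (crit_neg S f) q hq (neg_injective e)
  obtain ⟨η, hη, hb⟩ := Metric.mem_nhds_iff.1 hV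
  obtain ⟨V', -, hU, -, -, -, -, -, q₀, ⟨h0, g0⟩, e0, p1, p2, n0⟩ :=
    hs _ (ball_mem_nhds p (half_pos hη))
  have h0 := mem_ball_iff_norm.1 (hU h0)
  have hd := dq_smooth p
  have a0 : 0 < dq p q₀ := half_pos (pow_pos (norm_sub_pos_iff.2 n0) 2)
  have hn : ∀ y, dq p y ≤ 2 * dq p q₀ → V ∈ 𝓝 y := fun y hy => by
    refine mem_of_superset (isOpen_ball.mem_nhds (mem_ball_iff_norm.2 ?_)) hb
    unfold dq at hy
    exact lt_of_pow_lt_pow_left₀ 2 hη.le (by nlinarith [norm_nonneg (q₀ - p)])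
  have hbr := cont_br hS (hd.of_le (by simp)) (hf.of_le (by simp))
  -- the level set without a ball
  set K := S.G ∩ {y | f y = f p ∧ dq p q₀ / 2 ≤ dq p y} with hK
  have kc : IsClosed K := hG.isClosed.inter ((isClosed_eq hf.continuous continuous_const).inter
    (isClosed_le continuous_const hd.continuous))
  have kp : ∀ y ∈ K, y ≠ p := fun y hy e => by
    have := hy.2.2
    rw [e] at this
    simp only [dq, sub_self, norm_zero] at this a0
    linarith
  have kb : ∀ y ∈ K, y ∉ W₁' ∪ W₂' → dq p y ≤ 2 * dq p q₀ → 0 < S.br (dq p) f y :=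
    fun y hy h1 h2 => by
      have h3 := (a5 y ⟨mem_of_mem_nhds (hn y h2), hy.1⟩).2.2 hy.2.1 (kp y hy)
      have h4 := not_lt.1 fun h => h1 (.inl ((v1 y (hn y h2)).2 h))
      have h5 := not_lt.1 fun h => h1 (.inr ((v2 y (hn y h2)).2 h))
      exact pos_of_mul_pos_right h3 (mul_nonneg h4 h5)
  obtain ⟨R, hR⟩ := hG.isBounded.subset_ball 0
  obtain ⟨σ, s0, s1, s2⟩ := exists_contMDiffMap_zero_one_nhds_of_isClosed 𝓘(ℝ, E3) (n := ⊤)
    (s := K \ (W₁ ∩ W₂) ∪ {y | dq p y ≤ 2 * dq p q₀ ∧ S.br (dq p) f y ≤ 0} ∪ (ball 0 R)ᶜ)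
    (t := K \ (W₁' ∪ W₂'))
    (((kc.sdiff (o1.inter o2)).union ((isClosed_le hd.continuous continuous_const).inter
      (isClosed_le hbr continuous_const))).union isOpen_ball.isClosed_compl)
    (kc.sdiff (o1'.union o2')) (disjoint_left.2 fun y hy h => by
      rcases hy with (hy | hy) | hy
      · exact hy.2 ⟨(w1 y h.1.1 h.1.2.1 (kp y h.1)).2 fun e => h.2 (.inl e),
          (w2 y h.1.1 (congrArg Neg.neg h.1.2.1) (kp y h.1)).2 fun e => h.2 (.inr e)⟩
      · exact (kb y h.1 h.2 hy.1).not_ge hy.2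
      · exact hy (hR h.1.1))
  have sσ : ContDiff ℝ ∞ σ := σ.contMDiff.contDiff
  obtain ⟨ζ, b₁, z1, z2, z3, z4, z5, z6, z7⟩ := exists_prim (dq p q₀) (half_pos a0)
  -- near the level set `σ` is locally constant, or `ζ` vanishes
  set N := {x | ∀ᶠ y in 𝓝 x, ζ (dq p y) * σ y = ζ (dq p y) * σ x} with hN
  have nl : ∀ x ∈ S.G, f x = f p → x ∈ interior N := fun x hx e => by
    refine mem_interior_iff_mem_nhds.2 ?_
    rcases lt_or_ge (dq p x) (dq p q₀ / 2) with h | h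
    · filter_upwards [(hd.continuous.continuousAt.eventually (gt_mem_nhds h)).eventually_nhds]
        with y hy
      filter_upwards [hy] with z hz
      rw [z7 _ (by linarith), zero_mul, zero_mul]
    · have hk : x ∈ K := ⟨hx, e, h⟩
      have : ∃ k, ∀ᶠ y in 𝓝 x, σ y = k := by
        by_cases h1 : x ∈ W₁ ∩ W₂
        · exact ⟨1, s1.filter_mono (nhds_le_nhdsSet (mem_sdiff_of_mem hk fun h2 => h2.elim
            ((w1 x hx e (kp x hk)).1 h1.1) ((w2 x hx (congrArg Neg.neg e) (kp x hk)).1 h1.2)))⟩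
        · exact ⟨0, s0.filter_mono (nhds_le_nhdsSet (.inl (.inl ⟨hk, h1⟩)))⟩
      obtain ⟨k, hk⟩ := this
      filter_upwards [hk.eventually_nhds] with y hy
      filter_upwards [hy] with z hz
      rw [hz, hy.self_of_nhds]
  obtain ⟨δ, hδ, hδ'⟩ := (hG.diff (isOpen_interior (s := N))).exists_forall_le'
    (f := fun x => |f x - f p|) (a := 0) (hf.continuous.sub continuous_const).abs.continuousOn
    fun x hx => abs_pos.2 fun e => hx.2 (nl x hx.1 (sub_eq_zero.1 e))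
  obtain ⟨ρ, b₂, r1, r2, r3, r4, r5, r6, -⟩ := exists_prim (f p) hδ
  have hi := bra S (fun y => ζ (dq p y) * σ y) (fun y => ρ (f y) * 1) hS
    (((z1.of_le one_le_two).comp (hd.of_le (by simp))).mul (sσ.of_le (by simp)))
    (HasCompactSupport.intro (isCompact_closedBall 0 R) fun y hy => by
      simp [s0.self_of_nhdsSet y (.inr fun h => hy (ball_subset_closedBall h))])
    ((r1.comp (hf.of_le (by norm_cast))).mul contDiff_const)
  have hμ := (low S hS).1
  set J : E3 → ℝ := fun x => b₁ (dq p x) * σ x * b₂ (f x) * S.br (dq p) f x with hJ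
  have j1 : Continuous J :=
    (((z2.comp hd.continuous).mul sσ.continuous).mul (r2.comp hf.continuous)).mul hbr
  have j2 : ∀ x ∈ S.G, S.br (fun y => ζ (dq p y) * σ y) (fun y => ρ (f y) * 1) x = J x :=
    fun x hx => by
      rw [Srf.br, grad_comp (hf.differentiable (by simp) x) (r3 _), mul_one]
      by_cases h : x ∈ interior N
      · have h1 : x ∈ N := interior_subset h
        rw [Filter.EventuallyEq.gradient_eq h1,
          grad_comp (hd.differentiable (by simp) x) (z3 _), cr_smul, inner_smul_right]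
        rfl
      · rw [← one_smul ℝ (gradient (fun y => ζ (dq p y) * σ y) x), cr_smul, hJ]
        simp [r6 _ (hδ' x ⟨hx, h⟩)]
  have j3 : 0 ≤ J := fun x => by
    rcases le_or_gt 0 (S.br (dq p) f x) with h | h
    · exact mul_nonneg (mul_nonneg (mul_nonneg (z4 _) (s2 x).1) (r4 _)) h
    · rcases le_or_gt (dq p x) (2 * dq p q₀) with h1 | h1
      · simp [hJ, s0.self_of_nhdsSet x (.inl (.inr ⟨h1, h.le⟩))]
      · simp [hJ, z6 (dq p x) (le_trans (by linarith) (le_abs_self _))]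
  have k0 : q₀ ∈ K := ⟨g0, e0, half_le_self a0.le⟩
  have k1 : q₀ ∉ W₁' ∪ W₂' := fun h => h.elim
    ((w1 _ g0 e0 n0).1 ((v1 _ (hn _ (by linarith))).1 p1))
    ((w2 _ g0 (congrArg Neg.neg e0) n0).1 ((v2 _ (hn _ (by linarith))).1 p2))
  have j4 : 0 < J q₀ := by
    have := kb _ k0 k1 (by linarith)
    rw [hJ]
    simp only [s1.self_of_nhdsSet _ ⟨k0, k1⟩, e0]
    positivity
  rw [Srf.μ, setIntegral_congr_fun hG.measurableSet j2] at hi
  refine ((integral_pos_iff_support_of_nonneg (μ := S.μ) j3 (j1.integrable_of_hasCompactSupport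
    (HasCompactSupport.intro (isCompact_closedBall 0 R) fun y hy => ?_))).2 ?_).ne' hi
  · simp [hJ, s0.self_of_nhdsSet y (.inr fun h => hy (ball_subset_closedBall h))]
  · obtain ⟨ε, hε, h1⟩ := Metric.mem_nhds_iff.1 (j1.continuousAt.eventually_ne j4.ne')
    obtain ⟨r, h2, h3⟩ := (((low S hS).2 q₀ g0 1 (by linarith [Real.two_le_pi])).and
      (Ioo_mem_nhdsGT hε)).exists
    refine lt_of_lt_of_le (ENNReal.ofReal_pos.2 ?_)
      (h2.trans (measure_mono ((ball_subset_ball h3.2.le).trans h1)))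
    exact mul_pos one_pos (pow_pos h3.1 2)

end Vale.Agent.P218R
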