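import Vale.Agent.P218R.Cht
import Vale.Agent.P218R.Base
import Mathlib.Analysis.Calculus.DerivativeTest

/-!
# P218R: row FIN
-/

open MeasureTheory Metric Filter Topology Set
open scoped ContDiff ENNReal RealInnerProductSpace
open Vale.Agent.P366.Stmt (E)
open Vale.Agent.P366W

noncomputable section

namespace Vale.Agent.P218R

/-- nondegenerate critical points are isolated -/
theorem crit_isolated (grf : GRF) {S : Srf} (hS : S.Ok) {f : E3 → ℝ} (hf : ContDiff ℝ 2 f) {p : E3}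
    (hp : S.w p = 0) (hd : dt (S.hs f p) ≠ 0) : ∀ᶠ q in 𝓝[≠] p, q ∉ S.crit f := by
  obtain ⟨L, v, r₀, c⟩ := exists_cht grf hS hp
  rw [c.dt_hs hf] at hd
  have h1 := (c.hess hf).differentiableAt.hasFDerivAt
  obtain ⟨K, -, hK⟩ := LinearMap.exists_antilipschitzWith
    (fderiv ℝ (gradient (f ∘ gX p (S.n p) L v)) 0 : E 2 →ₗ[ℝ] E 2)
    (LinearMap.ker_eq_bot'.2 fun a ha => ker_of_d2 hd ha)
  have h2 := eventually_nhdsWithin_iff.1 (h1.eventually_ne (c := 0) ⟨K, hK⟩)
  rw [eventually_nhdsWithin_iff]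
  filter_upwards [Cht.tendsto_adj.eventually h2, Cht.tendsto_adj.eventually c.near, c.eq_X_near]
    with q h3 h4 h5 h6 h7
  have h8 := h5 h7.1
  refine h3 (fun h9 => h6 ?_) ((c.crit_iff h4 (hf.differentiable (by simp) _)).2 ?_)
  · rw [mem_singleton_iff] at h9 ⊢
    rw [← h8, h9, c.X0]
  · rw [h8]
    exact h7.2

theorem closed_crit {S : Srf} (hS : S.Ok) {f : E3 → ℝ} (hf : ContDiff ℝ 1 f) :
    IsClosed (S.crit f) :=
  hS.closed.inter (isClosed_eq (hS.ctg hf) continuous_const)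

theorem finite_crit (grf : GRF) {S : Srf} (hS : S.Ok) {f : E3 → ℝ} (hf : S.Morse f)
    (hG : IsCompact S.G) : (S.crit f).Finite := by
  refine (hG.of_isClosed_subset (closed_crit hS (hf.1.of_le one_le)) fun x hx => hx.1).finite ?_
  rw [isDiscrete_iff_nhdsNE]
  intro x hx
  rw [inf_principal_eq_bot]
  exact crit_isolated grf hS (hf.1.of_le two_le) hx.1 (hf.2 x hx)

theorem contDiff_dq (y : E3) : ContDiff ℝ ∞ (dq y) :=
  ((contDiff_id.sub contDiff_const).norm_sq ℝ).div_const 2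

theorem gradient_dq (y : E3) : gradient (dq y) = fun x => x - y := by
  funext x
  refine ext_inner_right ℝ fun a => ?_
  have h1 := (((hasFDerivAt_id x).sub_const y).norm_sq).mul_const (2⁻¹ : ℝ)
  have h2 : dq y = fun x => ‖id x - y‖ ^ 2 * 2⁻¹ := rfl
  rw [inner_grad, h2, h1.fderiv]
  simp [inner_sub_left]

theorem tg_dq (S : Srf) (y x : E3) : S.tg (dq y) x = S.P x (x - y) := by
  rw [Srf.tg, gradient_dq]

theorem hs_dq {S : Srf} (hS : S.Ok) (y : E3) {x : E3} (hx : S.w x = 0) :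
    S.hs (dq y) x = S.P x + ⟪y - x, S.n x⟫ • S.A x := by
  rw [hS.hs_eq hx ((contDiff_dq y).of_le two_le).contDiffAt, gradient_dq]
  have h1 : fderiv ℝ (fun x : E3 => x - y) x = ContinuousLinearMap.id ℝ E3 :=
    ((hasFDerivAt_id x).sub_const y).fderiv
  rw [h1, ContinuousLinearMap.id_comp, hS.PP hx, ← neg_sub x y, inner_neg_left,
    real_inner_comm (S.n x)]
  ext1 a
  simp [sub_eq_add_neg]

theorem dt_P_add {S : Srf} (hS : S.Ok) {x : E3} (hx : S.w x = 0) (s : ℝ) :
    dt (S.P x + s • S.A x) = S.J x s := by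
  have h1 : (S.P x + s • S.A x) ∘L (S.P x + s • S.A x) =
      S.P x + (2 * s) • S.A x + s ^ 2 • (S.A x ∘L S.A x) := by
    ext1 a
    simp only [ContinuousLinearMap.comp_apply, add_apply, smul_apply, map_add, map_smul,
      hS.P_P hx, hS.P_A hx, hS.A_P hx]
    module
  rw [dt, h1]
  simp only [trc_add, trc_smul, hS.trc_P hx, Srf.J, Srf.K, dt, Srf.H]
  ring

/-- the second derivative test -/
theorem hess_nonpos {N : ℕ} {g : E N → ℝ} (hg : ContDiff ℝ 2 g) (h : IsLocalMax g 0) (a : E N) :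
    ⟪fderiv ℝ (gradient g) 0 a, a⟫ ≤ 0 := by
  have h1 : ∀ t : ℝ, HasDerivAt (fun s : ℝ => s • a) a t := fun t => by
    simpa using (hasDerivAt_id t).smul_const a
  have h2 : deriv (fun s : ℝ => g (s • a)) = fun t => ⟪gradient g (t • a), a⟫ := by
    funext t
    rw [inner_grad]
    exact ((hg.differentiable (by simp) _).hasFDerivAt.comp_hasDerivAt t (h1 t)).deriv
  have h3 : HasDerivAt (fun t : ℝ => ⟪gradient g (t • a), a⟫)
      ⟪fderiv ℝ (gradient g) 0 a, a⟫ 0 := by
    have h4 : HasFDerivAt (gradient g) (fderiv ℝ (gradient g) 0) ((0 : ℝ) • a) := by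
      rw [zero_smul]
      exact ((contDiff_gradient (k := 1) hg).differentiable one_ne_zero 0).hasFDerivAt
    simpa using (h4.comp_hasDerivAt 0 (h1 0)).inner ℝ (hasDerivAt_const (0 : ℝ) a)
  have hc : Continuous fun s : ℝ => s • a := by fun_prop
  have h5 : IsLocalMax (fun s : ℝ => g (s • a)) 0 :=
    IsLocalMax.comp_continuous (g := fun s : ℝ => s • a) (by simpa using h) hc.continuousAt
  by_contra h6
  have h7 : IsLocalMin (fun s : ℝ => g (s • a)) 0 :=
    isLocalMin_of_deriv_deriv_pos (by rw [h2, h3.deriv]; exact not_le.1 h6) h5.deriv_eq_zero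
      (hg.continuous.comp hc).continuousAt
  have h8 := (eventuallyEq_of_isMinFilter_of_isMaxFilter h7 h5).deriv.deriv_eq
  rw [h2, h3.deriv] at h8
  simp only [deriv_const', deriv_const] at h8
  exact h6 h8.le

theorem max_test (grf : GRF) {S : Srf} (hS : S.Ok) {f : E3 → ℝ} {x : E3} (hf : ContDiff ℝ 2 f)
    (hx : S.w x = 0) (hm : IsLocalMaxOn f S.G x) : x ∈ S.crit f ∧ 0 ≤ dt (S.hs f x) := by
  obtain ⟨L, v, r₀, c⟩ := exists_cht grf hS hx
  have h1 : IsLocalMax (f ∘ gX x (S.n x) L v) 0 := by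
    have h2 := c.tendsto_X.eventually (eventually_nhdsWithin_iff.1 hm)
    filter_upwards [h2, c.near] with y h3 h4
    rw [Function.comp_apply, Function.comp_apply, c.X0]
    exact h3 (c.w_X h4)
  refine ⟨⟨hx, ?_⟩, ?_⟩
  · have h2 := (c.crit_iff (f := f) (y := 0) (by simpa using c.pos)
      (hf.differentiable (by simp) _)).1 (by rw [gradient, h1.fderiv_eq_zero, map_zero])
    rwa [c.X0] at h2
  · rw [c.dt_hs hf]
    exact d2_nonneg (hess_nonpos (hf.comp (c.smX.of_le two_le)) h1)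

/-- row FIN -/
theorem fin (grf : GRF) : FIN := by
  intro S hS
  refine ⟨fun f hf hG => finite_crit grf hS hf hG, fun y x hx => ⟨?_, ?_⟩, fun x s hx => ⟨hx, ?_⟩,
    fun f x hf hx hm => max_test grf hS hf hx hm⟩
  · have h1 := hx.2
    rw [tg_dq, Srf.P_apply, sub_eq_zero] at h1
    rw [← neg_sub x y, inner_neg_left, neg_smul, real_inner_comm, ← h1]
    abel
  · rw [hs_dq hS y hx.1, dt_P_add hS hx.1]
  · rw [tg_dq, sub_add_cancel_left, map_neg, map_smul, hS.P_n hx, smul_zero, neg_zero]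

end Vale.Agent.P218R
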