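import Vale.Agent.P218R.Base

/-!
# P218R: the local Gauss-Bonnet estimate for a closed surface
-/

open MeasureTheory Metric Filter Topology Set
open scoped ContDiff ENNReal RealInnerProductSpace
open Vale.Agent.P366.Stmt (E)

noncomputable section

namespace Vale.Agent.P218R

namespace Gbx

variable {S : Srf} {Λ r : ℝ} {y z : E3}

theorem tsum_ind {X Y : Type*} (C : Set X) (A : Set Y) (φ : X → Y) :
    ∑' x : C, A.indicator (1 : Y → ℝ≥0∞) (φ x.1) = ({x ∈ C | φ x ∈ A}.encard : ℝ≥0∞) := by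
  rw [← ENNReal.tsum_set_one, tsum_subtype C fun x => A.indicator (1 : Y → ℝ≥0∞) (φ x),
    tsum_subtype {x ∈ C | φ x ∈ A} fun _ => (1 : ℝ≥0∞)]
  refine tsum_congr fun x => ?_
  by_cases h1 : x ∈ C <;> by_cases h2 : φ x ∈ A <;> simp [indicator, h1, h2]

theorem enc {X : Type*} {s : Set X} (hs : s.Finite) :
    (s.encard : ℝ≥0∞) = ENNReal.ofReal s.ncard := by
  rw [← hs.cast_ncard_eq, ENat.toENNReal_coe, ENNReal.ofReal_natCast]

theorem two_of (a : ℝ) : 2 * ENNReal.ofReal a = ENNReal.ofReal (2 * a) := by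
  rw [ENNReal.ofReal_mul zero_le_two, ENNReal.ofReal_ofNat]

theorem split {X : Type*} {s : Set X} (hs : s.Finite) (P : X → Prop) :
    (s.ncard : ℝ) = {x ∈ s | P x}.ncard + {x ∈ s | ¬P x}.ncard := by
  rw [← ncard_inter_add_ncard_sdiff_eq_ncard s {x | P x} hs, Nat.cast_add]
  rfl

theorem morse_ext {f : E3 → ℝ} (hf : FIN) (hS : S.Ok) (hM : S.Morse f) {x : E3} (hx : x ∈ S.G)
    (h : IsLocalMaxOn f S.G x) : x ∈ S.ext f := by
  obtain ⟨h1, h2⟩ := (hf S hS).2.2.2 f x (hM.1.of_le two_le) hx h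
  exact ⟨h1, h2.lt_of_ne' (hM.2 x h1)⟩

/-- the count of the saddles in a ball -/
theorem count (hf : FIN) (hm : MOR) (hS : S.Ok) (hc : IsCompact S.G) (hp : IsPreconnected S.G)
    (hr : 0 < r) (hM : S.Morse (dq y)) {K : ℝ} (hK : 0 ≤ K)
    (hd : ((S.ext (dq y)).ncard : ℝ) - (S.sad (dq y)).ncard = S.chi)
    (hn : ∀ ρ, 2 * r ≤ ρ → ρ ≤ 3 * r → (nc (S.G ∩ {q | ρ ^ 2 / 2 < dq y q}) : ℝ≥0∞) ≤
      ({x ∈ S.G | IsLocalMaxOn (dq y) S.G x ∧ ‖x - y‖ < 4 * r}.encard : ℝ≥0∞) + ENNReal.ofReal K) :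
    ({x ∈ S.sad (dq y) | ‖x - y‖ ≤ 2 * r}.encard : ℝ≥0∞) ≤
      2 * ({x ∈ S.ext (dq y) | ‖x - y‖ < 4 * r}.encard : ℝ≥0∞) +
        ENNReal.ofReal (1 + |S.chi| + K) := by
  have h0 := (hf S hS).1 _ hM hc
  have fe : (S.ext (dq y)).Finite := h0.subset fun _ h => h.1
  have fs : (S.sad (dq y)).Finite := h0.subset fun _ h => h.1
  obtain ⟨ρ, ⟨a1, a2⟩, a3⟩ := (Icc_infinite (show 2 * r < 3 * r by linarith)).exists_notMem_finite
    (h0.image fun x => ‖x - y‖)
  have lt : ∀ x, ρ ^ 2 / 2 < dq y x ↔ ρ < ‖x - y‖ := fun x => by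
    rw [dq, div_lt_div_iff_of_pos_right two_pos, sq_lt_sq₀ (by linarith) (norm_nonneg _)]
  have h1 := hm S (dq y) (ρ ^ 2 / 2) hS hc hp hM fun x hx e => a3 ⟨x, hx, by
    rw [dq, div_left_inj' two_ne_zero, sq_eq_sq₀ (norm_nonneg _) (by linarith)] at e
    exact e⟩
  have h2 : ({x ∈ S.G | IsLocalMaxOn (dq y) S.G x ∧ ‖x - y‖ < 4 * r}.encard : ℝ≥0∞) ≤
      ({x ∈ S.ext (dq y) | ‖x - y‖ < 4 * r}.encard : ℝ≥0∞) :=
    ENat.toENNReal_le.2 (encard_le_encard fun x hx => ⟨morse_ext hf hS hM hx.1 hx.2.1, hx.2.2⟩)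
  rw [← ENat.toENNReal_le, ENat.toENNReal_add, ENat.toENNReal_add, ENat.toENNReal_one] at h1
  have h3 := h1.trans (add_le_add_left (add_le_add_right ((hn ρ a1 a2).trans
    (add_le_add_left h2 _)) _) _)
  rw [enc (fe.sep _), enc (fe.sep _), enc (fs.sep _), ← ENNReal.ofReal_one,
    ← ENNReal.ofReal_add (by positivity) hK, ← ENNReal.ofReal_add (by positivity) (by positivity),
    ← ENNReal.ofReal_add (by positivity) (by positivity),
    ENNReal.ofReal_le_ofReal_iff (by positivity)] at h3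
  rw [enc (fe.sep _), enc (fs.sep _), two_of, ← ENNReal.ofReal_add (by positivity) (by positivity)]
  refine ENNReal.ofReal_le_ofReal ?_
  rw [split fe fun x => ρ ^ 2 / 2 < dq y x, split fs fun x => ρ ^ 2 / 2 < dq y x] at hd
  have h4 : ({x ∈ S.sad (dq y) | ‖x - y‖ ≤ 2 * r}.ncard : ℝ) ≤
      {x ∈ S.sad (dq y) | ¬ρ ^ 2 / 2 < dq y x}.ncard :=
    Nat.cast_le.2 (ncard_le_ncard (fun x hx => ⟨hx.1, by rw [lt]; linarith [hx.2]⟩) (fs.sep _))
  have h5 : ({x ∈ S.ext (dq y) | ¬ρ ^ 2 / 2 < dq y x}.ncard : ℝ) ≤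
      {x ∈ S.ext (dq y) | ‖x - y‖ < 4 * r}.ncard :=
    Nat.cast_le.2 (ncard_le_ncard (fun x hx => ⟨hx.1, by
      have := hx.2; rw [lt] at this; linarith⟩) (fe.sep _))
  linarith [neg_abs_le S.chi]

theorem cJ (hS : S.Ok) : Continuous fun q : E3 × ℝ => S.J q.1 q.2 := by
  have := hS.sH.continuous
  have := hS.sK.continuous
  unfold Srf.J
  fun_prop

/-- the first test set -/
def A1 (S : Srf) (z : E3) (r : ℝ) : Set (E3 × ℝ) :=
  ball z r ×ˢ Icc r (2 * r) ∩ {q | S.J q.1 q.2 < 0}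

/-- the second test set -/
def A2 (S : Srf) (z : E3) (r : ℝ) : Set (E3 × ℝ) :=
  ball z (7 * r) ×ˢ Ioo (-(4 * r)) (4 * r) ∩ {q | 0 < S.J q.1 q.2}

theorem m1 (hS : S.Ok) : MeasurableSet (A1 S z r) :=
  (measurableSet_ball.prod measurableSet_Icc).inter
    (isOpen_lt (cJ hS) continuous_const).measurableSet

theorem m2 (hS : S.Ok) : MeasurableSet (A2 S z r) :=
  (measurableSet_ball.prod measurableSet_Ioo).inter
    (isOpen_lt continuous_const (cJ hS)).measurableSet

theorem ofReal_le {X : Type*} [MeasurableSpace X] {μ : Measure X} {g : X → ℝ}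
    (hg : Integrable g μ) : ENNReal.ofReal (∫ x, g x ∂μ) ≤ ∫⁻ x, ENNReal.ofReal (g x) ∂μ :=
  ENNReal.ofReal_le_of_le_toReal (by
    rw [integral_eq_lintegral_pos_part_sub_lintegral_neg_part hg]
    exact sub_le_self _ ENNReal.toReal_nonneg)

theorem low1 (hS : S.Ok) (hr : 0 < r) :
    ∫⁻ x in ball z r, ENNReal.ofReal (r * (r ^ 2 / 2 * S.A2 x - 3 / 2 - 4 * r ^ 2 * S.H x ^ 2)) ∂S.μ
      ≤ ∫⁻ x, (∫⁻ s, (A1 S z r).indicator 1 (x, s) * ENNReal.ofReal |S.J x s|) ∂S.μ := by
  refine (lintegral_mono_ae ?_).trans (setLIntegral_le_lintegral (ball z r) _)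
  filter_upwards [hS.ae_set _, ae_restrict_mem measurableSet_ball] with x h1 h2
  set m := r ^ 2 / 2 * S.A2 x - 3 / 2 - 4 * r ^ 2 * S.H x ^ 2 with hm
  calc ENNReal.ofReal (r * m) = ∫⁻ _ in Icc r (2 * r), ENNReal.ofReal m := by
        rw [setLIntegral_const, Real.volume_Icc, ENNReal.ofReal_mul hr.le, mul_comm]
        congr 2; ring
    _ ≤ ∫⁻ s in Icc r (2 * r), (A1 S z r).indicator 1 (x, s) * ENNReal.ofReal |S.J x s| := by
        refine setLIntegral_mono' measurableSet_Icc fun s hs => ?_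
        have h3 : m ≤ -S.J x s := by
          have e := Srf.A2_eq (S := S) x
          have e0 := hS.A2_nonneg h1
          have e1 : r ^ 2 ≤ s ^ 2 := by gcongr; exact hs.1
          have e2 : s ^ 2 ≤ (2 * r) ^ 2 := by gcongr; exacts [by linarith [hs.1], hs.2]
          have e3 : S.K x = (S.H x ^ 2 - S.A2 x) / 2 := by linarith
          rw [hm, Srf.J, e3]
          nlinarith [sq_nonneg (s * S.H x - 1), mul_le_mul_of_nonneg_right e1 e0,
            mul_le_mul_of_nonneg_right e2 (sq_nonneg (S.H x))]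
        rcases le_or_gt m 0 with h4 | h4
        · simp [ENNReal.ofReal_of_nonpos h4]
        · rw [indicator_of_mem (show (x, s) ∈ A1 S z r from ⟨⟨h2, hs⟩, show S.J x s < 0 by linarith⟩),
            Pi.one_apply, one_mul]
          exact ENNReal.ofReal_le_ofReal (h3.trans (neg_le_abs _))
    _ ≤ _ := setLIntegral_le_lintegral _ _

theorem up2 (hS : S.Ok) (hr : 0 < r) :
    ∫⁻ x, (∫⁻ s, (A2 S z r).indicator 1 (x, s) * ENNReal.ofReal |S.J x s|) ∂S.μ ≤
      ∫⁻ x in ball z (7 * r), ENNReal.ofReal (8 * r * (2 + 8 * r ^ 2 * S.H x ^ 2)) ∂S.μ := by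
  rw [← lintegral_indicator measurableSet_ball]
  refine lintegral_mono_ae ?_
  filter_upwards [hS.ae] with x h1
  by_cases h2 : x ∈ ball z (7 * r)
  · rw [indicator_of_mem h2]
    calc _ ≤ ∫⁻ s, (Ioo (-(4 * r)) (4 * r)).indicator
          (fun _ => ENNReal.ofReal (2 + 8 * r ^ 2 * S.H x ^ 2)) s := by
          refine lintegral_mono fun s => ?_
          by_cases h3 : (x, s) ∈ A2 S z r
          · have h4 : 0 < S.J x s := h3.2
            have h5 : s ∈ Ioo (-(4 * r)) (4 * r) := h3.1.2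
            simp only [indicator_of_mem h3, indicator_of_mem h5, Pi.one_apply, one_mul,
              abs_of_pos h4]
            refine ENNReal.ofReal_le_ofReal ?_
            have e1 : s ^ 2 ≤ (4 * r) ^ 2 := sq_le_sq' h5.1.le h5.2.le
            rw [Srf.J]
            nlinarith [sq_nonneg (s * S.H x / 2 - 1), mul_le_mul_of_nonneg_left (hS.K_le h1)
              (sq_nonneg s), mul_le_mul_of_nonneg_right e1 (sq_nonneg (S.H x))]
          · simp [indicator_of_notMem h3]
      _ = _ := by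
          rw [lintegral_indicator measurableSet_Ioo, setLIntegral_const, Real.volume_Ioo,
            ← ENNReal.ofReal_mul (by positivity)]
          congr 1; ring
  · rw [indicator_of_notMem h2]
    have : ∀ s, (x, s) ∉ A2 S z r := fun s h => h2 h.1.1
    simp [this]

theorem dist_crit (hf : FIN) (hS : S.Ok) {x : E3} (hx : x ∈ S.crit (dq y)) :
    ‖x - y‖ = |⟪y - x, S.n x⟫| := by
  have := ((hf S hS).2.1 y x hx).1
  conv_lhs => rw [← this]
  rw [sub_add_cancel_left, norm_neg, norm_smul, hS.norm_n hx.1, mul_one, Real.norm_eq_abs]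

theorem int_on (hA : AR Λ S.μ) {g : E3 → ℝ} (hg : Continuous g) (ρ : ℝ) :
    IntegrableOn g (closedBall z ρ) S.μ :=
  have := hA.fin
  hg.continuousOn.integrableOn_compact (isCompact_closedBall z ρ)

end Gbx

open Gbx

theorem gbx (h3 : AR3) (hf : FIN) (hd : DEG) (hm : MOR) (hc : CMP) : GBX := by
  obtain ⟨C, C0, hC⟩ := hc
  set V := (volume (ball (0 : E3) 1)).toReal with hV
  have V0 : 0 ≤ V := ENNReal.toReal_nonneg
  refine ⟨4000 + 54 * V * (1 + C), fun S Λ hS hK hp L0 hA z r hr => ?_⟩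
  set I := ∫ x in closedBall z (20 * r), S.H x ^ 2 ∂S.μ with hI
  have I0 : 0 ≤ I := by positivity
  have cH : Continuous fun x => S.H x ^ 2 := hS.sH.continuous.pow 2
  have hI' : ∀ s, s ⊆ closedBall z (20 * r) → ∫ x in s, S.H x ^ 2 ∂S.μ ≤ I := fun s hs =>
    setIntegral_mono_set (int_on hA cH _) (Eventually.of_forall fun x => sq_nonneg _)
      hs.eventuallyLE
  set K := 1 + |S.chi| + C * (1 + Λ + I) with hKd
  have K0 : 0 ≤ K := by positivity
  obtain ⟨g1, g2⟩ := h3 S hS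
  have e1 := (g2 _ (measurable_one.indicator (m1 (z := z) (r := r) hS))).2
  have e2 := (g2 _ (measurable_one.indicator (m2 (z := z) (r := r) hS))).2
  have key : ∫⁻ y : E3, ∑' x : S.crit (dq y), (A1 S z r).indicator 1 (x.1, ⟪y - x.1, S.n x.1⟫) ≤
      ∫⁻ y : E3, (2 * ∑' x : S.crit (dq y), (A2 S z r).indicator 1 (x.1, ⟪y - x.1, S.n x.1⟫) +
        (ball z (3 * r)).indicator (fun _ => ENNReal.ofReal K) y) := by
    refine lintegral_mono_ae ?_
    filter_upwards [g1, hd S hS hK] with y a1 a2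
    rw [tsum_ind _ _ fun x => (x, ⟪y - x, S.n x⟫), tsum_ind _ _ fun x => (x, ⟪y - x, S.n x⟫)]
    have b1 : ∀ x ∈ {x ∈ S.crit (dq y) | (x, ⟪y - x, S.n x⟫) ∈ A1 S z r},
        y ∈ ball z (3 * r) ∧ x ∈ S.sad (dq y) ∧ ‖x - y‖ ≤ 2 * r := fun x ⟨c1, ⟨c2, c3⟩, c4⟩ => by
      have c5 : ‖x - y‖ ≤ 2 * r := by
        rw [dist_crit hf hS c1, abs_of_nonneg (hr.le.trans c3.1)]; exact c3.2
      refine ⟨?_, ⟨c1, by rw [((hf S hS).2.1 y x c1).2]; exact c4⟩, c5⟩
      have := dist_triangle_left y z x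
      rw [dist_eq_norm x y] at this
      have c6 : dist x z < r := c2
      rw [mem_ball]; linarith
    by_cases hy : y ∈ ball z (3 * r)
    · rw [indicator_of_mem hy]
      refine (ENat.toENNReal_le.2 (encard_le_encard fun x hx => (b1 x hx).2)).trans
        ((count hf hm hS hK hp hr a1 (K := C * (1 + Λ + I)) (by positivity) a2 fun ρ k1 k2 =>
          (hC S Λ r ρ y hS hK hp L0 hA hr k1 k2).trans ?_).trans ?_)
      · gcongr
        exact hI' _ (closedBall_subset_closedBall' (by linarith [mem_ball.1 hy]))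
      · refine add_le_add_left (mul_le_mul_right (ENat.toENNReal_le.2 (encard_le_encard ?_)) _) _
        rintro x ⟨⟨c1, c2⟩, c3⟩
        refine ⟨c1, ⟨?_, abs_lt.1 ?_⟩, ?_⟩
        · have := dist_triangle x y z
          rw [dist_eq_norm x y] at this
          have c6 : dist y z < 3 * r := hy
          change dist x z < 7 * r
          linarith
        · rw [← dist_crit hf hS c1]; exact c3
        · rw [((hf S hS).2.1 y x c1).2] at c2; exact c2
    · rw [eq_empty_of_forall_notMem fun x hx => hy (b1 x hx).1]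
      simp
  rw [lintegral_add_right _ (measurable_const.indicator measurableSet_ball),
    lintegral_const_mul' _ _ (by simp), ← e1, ← e2, lintegral_indicator measurableSet_ball,
    setLIntegral_const, Measure.addHaar_ball_of_pos _ _ (by positivity : 0 < 3 * r),
    finrank_euclideanSpace_fin, ← ENNReal.ofReal_toReal (measure_ball_lt_top (x := (0 : E3))).ne,
    ← hV] at key
  have iA : IntegrableOn S.A2 (ball z r) S.μ :=
    (int_on hA hS.sA2.continuous r).mono_set ball_subset_closedBall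
  have iH : ∀ ρ, IntegrableOn (fun x => S.H x ^ 2) (ball z ρ) S.μ := fun ρ =>
    (int_on hA cH ρ).mono_set ball_subset_closedBall
  have i1 : ∀ ρ (c : ℝ), IntegrableOn (fun _ => c) (ball z ρ) S.μ := fun ρ c =>
    (int_on hA continuous_const ρ).mono_set ball_subset_closedBall
  have j1 := ((((iA.const_mul (r ^ 2 / 2)).sub (i1 r (3 / 2))).sub
    ((iH r).const_mul (4 * r ^ 2))).const_mul r)
  have j2 := (((i1 (7 * r) 2).add ((iH (7 * r)).const_mul (8 * r ^ 2))).const_mul (8 * r))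
  have k := ((ofReal_le j1).trans (low1 hS hr)).trans (key.trans (add_le_add_left
    (mul_le_mul_right ((up2 hS hr).trans_eq (ofReal_integral_eq_lintegral_ofReal j2
      (Eventually.of_forall fun x => by simp only [Pi.add_apply, Pi.zero_apply]; positivity)).symm)
        2) _))
  have p2 : 0 ≤ ∫ x in ball z (7 * r), 8 * r * (2 + 8 * r ^ 2 * S.H x ^ 2) ∂S.μ := by positivity
  simp only [Pi.add_apply, Pi.sub_apply] at k
  rw [two_of, ← ENNReal.ofReal_mul (by positivity), ← ENNReal.ofReal_mul K0,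
    ← ENNReal.ofReal_add (by positivity) (by positivity),
    ENNReal.ofReal_le_ofReal_iff (by positivity), integral_const_mul, integral_const_mul,
    integral_sub (f := fun x => r ^ 2 / 2 * S.A2 x - 3 / 2) ((iA.const_mul _).sub (i1 r _))
      ((iH r).const_mul _),
    integral_sub (iA.const_mul _) (i1 r _), integral_add (i1 _ _) ((iH _).const_mul _),
    integral_const_mul, integral_const_mul, integral_const_mul, setIntegral_const,
    setIntegral_const, smul_eq_mul, smul_eq_mul] at k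
  have q1 : S.μ.real (ball z r) ≤ Λ * r ^ 2 := hA.real L0 hr ball_subset_closedBall
  have q2 : S.μ.real (ball z (7 * r)) ≤ Λ * (7 * r) ^ 2 :=
    hA.real L0 (by positivity) ball_subset_closedBall
  have q3 := hI' (ball z r) (ball_subset_closedBall.trans (closedBall_subset_closedBall (by linarith)))
  have q4 := hI' (ball z (7 * r))
    (ball_subset_closedBall.trans (closedBall_subset_closedBall (by linarith)))
  set a := ∫ x in ball z r, S.A2 x ∂S.μ
  have r3 : 0 < r ^ 3 := by positivity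
  have q5 : r ^ 3 * a ≤ r ^ 3 * (3139 * Λ + 264 * I + 54 * V * K) := by
    nlinarith [mul_le_mul_of_nonneg_left q1 hr.le, mul_le_mul_of_nonneg_left q2 hr.le,
      mul_le_mul_of_nonneg_left q3 r3.le, mul_le_mul_of_nonneg_left q4 r3.le]
  refine (le_of_mul_le_mul_left q5 r3).trans ?_
  have x0 := abs_nonneg S.chi
  have q6 : K ≤ (1 + C) * ((1 + Λ + |S.chi|) * (1 + I)) := by
    rw [hKd]
    nlinarith [mul_nonneg L0 I0, mul_nonneg x0 I0, mul_nonneg C0.le x0,
      mul_nonneg C0.le (mul_nonneg L0 I0), mul_nonneg C0.le (mul_nonneg x0 I0)]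
  nlinarith [mul_le_mul_of_nonneg_left q6 V0, mul_nonneg L0 I0, mul_nonneg x0 I0]

end Vale.Agent.P218R
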