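import Vale.Agent.P218R.Lim0
import Mathlib.MeasureTheory.Integral.RieszMarkovKakutani.Real

/-!
# P218R: smooth limits of uniformly regular surfaces
-/

open MeasureTheory Metric Filter Topology Set
open scoped ContDiff ENNReal RealInnerProductSpace
open Vale.Agent.P366.Stmt (E)
open Vale.Agent.P366W

noncomputable section

namespace Vale.Agent.P218R.Lm

/-- point, normal, shape operator -/
abbrev Jt := E3 × E3 × (E3 →L[ℝ] E3)

/-- point and frame -/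
abbrev Pos := E3 × E3 × (E 2 →L[ℝ] E3)

/-- the normal of a graph -/
def nu (a : Pos) (g : E 2) : E3 := (√(1 + ‖g‖ ^ 2))⁻¹ • (a.2.1 - a.2.2 g)

/-- the coordinates of the projection to the tangent plane of a graph -/
def pj (a : Pos) (g : E 2) : E3 →L[ℝ] E 2 := ContinuousLinearMap.adjoint a.2.2 ∘L
  (ContinuousLinearMap.id ℝ E3 - (innerSL ℝ (nu a g)).smulRight (nu a g))

/-- the integrand in a chart -/
def jt (Ψ : Jt → ℝ) (q : Pos × E 2 × ℝ × E 2 × (E 2 →L[ℝ] E 2)) : ℝ :=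
  Ψ (q.1.1 + q.1.2.2 q.2.1 + q.2.2.1 • q.1.2.1, nu q.1 q.2.2.2.1, -(√(1 + ‖q.2.2.2.1‖ ^ 2))⁻¹ •
    (ContinuousLinearMap.adjoint (pj q.1 q.2.2.2.1) ∘L q.2.2.2.2 ∘L pj q.1 q.2.2.2.1)) *
      √(1 + ‖q.2.2.2.1‖ ^ 2)

/-- the jet of order two -/
def j2 (v : E 2 → ℝ) (y : E 2) : E 2 × ℝ × E 2 × (E 2 →L[ℝ] E 2) :=
  (y, v y, gradient v y, fderiv ℝ (gradient v) y)

theorem c_nu : Continuous fun q : Pos × E 2 => nu q.1 q.2 := by
  unfold nu; fun_prop (disch := intros; positivity)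

theorem c_pj : Continuous fun q : Pos × E 2 => pj q.1 q.2 :=
  (ContinuousLinearMap.adjoint.continuous.comp (by fun_prop)).clm_comp (continuous_const.sub
    ((ContinuousLinearMap.smulRightL ℝ E3 E3).continuous₂.comp
      (((innerSL ℝ).continuous.comp c_nu).prodMk c_nu)))

theorem c_jt {Ψ : Jt → ℝ} (h : Continuous Ψ) : Continuous (jt Ψ) := by
  have a : Continuous fun q : Pos × E 2 × ℝ × E 2 × (E 2 →L[ℝ] E 2) => (q.1, q.2.2.2.1) := by
    fun_prop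
  refine (h.comp (Continuous.prodMk ?_ ((c_nu.comp a).prodMk (Continuous.fun_smul ?_
    ((ContinuousLinearMap.adjoint.continuous.comp (c_pj.comp a)).clm_comp
      (Continuous.clm_comp ?_ (c_pj.comp a))))))).fun_mul ?_ <;>
    fun_prop (disch := intros; positivity)

theorem c_j2 {v : E 2 → ℝ} {O : Set (E 2)} (hO : IsOpen O) (h : ContDiffOn ℝ ∞ v O) :
    ContinuousOn (j2 v) O := by
  have a : ContDiffOn ℝ ∞ (gradient v) O :=
    (InnerProductSpace.toDual ℝ (E 2)).symm.toContinuousLinearEquiv.contDiff.comp_contDiffOn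
      (h.fderiv_of_isOpen hO (by simp))
  exact continuousOn_id.prodMk (h.continuousOn.prodMk (a.continuousOn.prodMk
    (a.continuousOn_fderiv_of_isOpen hO one_le)))

variable {S T : Srf} {x e : E3} {L : E 2 →ₗᵢ[ℝ] E3} {r h : ℝ} {v : E 2 → ℝ} {Ψ : Jt → ℝ}

theorem c_int (hS : S.Ok) (hΨ : Continuous Ψ) : Continuous fun z => Ψ (z, S.n z, S.A z) :=
  hΨ.comp (continuous_id.prodMk (hS.sn.continuous.prodMk hS.sA.continuous))

/-- the integral in a chart -/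
theorem int_eq (h1 : GRN) (h2 : AREA) (hS : S.Ok) (hF : Fr e L) (hG : S.Gr x e L r h v)
    (hv : ContDiffOn ℝ ∞ v (ball 0 r)) (hΨ : Continuous Ψ)
    (h0 : ∀ z ∉ cyl x e L r h, ∀ q, Ψ (z, q) = 0) : ∫ z, Ψ (z, S.n z, S.A z) ∂S.μ =
      ∫ y in ball 0 r, jt Ψ ((x, e, L.toContinuousLinearMap), j2 v y) := by
  rw [← setIntegral_eq_integral_of_forall_compl_eq_zero fun z hz => h0 z hz _, hS.restrict,
    (h2 S x e L r h v hF hG (hv.of_le one_le)).2 _ (c_int hS hΨ).measurable]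
  refine setIntegral_congr_fun measurableSet_ball fun y hy => ?_
  have hy' := mem_ball_zero_iff.1 hy
  obtain ⟨a1, a2, -⟩ := h1 S x e L r h v y hS hF hG hy'
    ((hv.contDiffAt (isOpen_ball.mem_nhds hy)).of_le two_le)
  have hz : S.w (gX x e L v y) = 0 := ((hG y hy').2 _ (hG y hy').1).2.2 rfl
  have e1 : ∀ u, pj (x, e, L.toContinuousLinearMap) (gradient v y) u =
      adj L (S.P (gX x e L v y) u) := fun u => by rw [Srf.P, a1]; rfl
  have e2 : ∀ u, S.P (gX x e L v y) u = L (adj L (S.P (gX x e L v y) u)) +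
      ⟪gradient v y, adj L (S.P (gX x e L v y) u)⟫ • e := fun u => by
    have := hS.n_P hz u
    rw [a1, real_inner_smul_left, inner_sub_left, mul_eq_zero, sub_eq_zero] at this
    rw [inner_adj, ← this.resolve_left (by positivity), hF.dec]
  have e3 : S.A (gX x e L v y) = -(√(1 + ‖gradient v y‖ ^ 2))⁻¹ • (ContinuousLinearMap.adjoint
      (pj (x, e, L.toContinuousLinearMap) (gradient v y)) ∘L fderiv ℝ (gradient v) y ∘L
        pj (x, e, L.toContinuousLinearMap) (gradient v y)) :=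
    ContinuousLinearMap.ext fun u => ext_inner_right ℝ fun u' => by
      rw [← hS.P_A hz, Srf.P_sym, ← hS.A_P hz, e2 u, e2 u', a2, smul_apply, real_inner_smul_left,
        ContinuousLinearMap.comp_apply, ContinuousLinearMap.adjoint_inner_left,
        ContinuousLinearMap.comp_apply, e1, e1]
  simp only [e3, a1]; rfl

theorem mem_cyl (hF : Fr e L) {z : E3} (hz : ‖z - x‖ < r) (hr : r ≤ h) : z ∈ cyl x e L r h :=
  (open_cyl hF).2 ⟨(hF.norm_adj _).trans_lt hz, (abs_real_inner_le_norm _ _).trans_lt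
    (by rw [hF.one, one_mul]; exact hz.trans_le hr)⟩

theorem G_sub (h3 : LOW) (hS : S.Ok) (hT : T.Ok) (e : S.μ = T.μ) : S.G ⊆ T.G := fun p hp => by
  by_contra c
  obtain ⟨ε, e0, a⟩ := Metric.isOpen_iff.1 hT.closed.isOpen_compl p c
  obtain ⟨ρ, b1, b2⟩ := (((h3 S hS).2 p hp 1 (by linarith [Real.pi_gt_three])).and
    (Ioo_mem_nhdsGT e0)).exists
  rw [e, hT.apply, disjoint_iff_inter_eq_empty.1 (subset_compl_iff_disjoint_right.1
    ((ball_subset_ball b2.2.le).trans a)), measure_empty, nonpos_iff_eq_zero,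
    ENNReal.ofReal_eq_zero] at b1
  nlinarith [b2.1]

variable {ι : Type} {U : Ultrafilter ι} {F : ι → Srf} {p : E3}

/-- the limit set -/
def GU (l : Filter ι) (F : ι → Srf) : Set E3 :=
  {p | ∀ ε > 0, ∀ᶠ i in l, ∃ x ∈ ball p ε, (F i).w x = 0}

theorem GU_closed : IsClosed (GU U F) := isClosed_of_closure_subset fun p hp ε e0 => by
  obtain ⟨q, a, b⟩ := Metric.mem_closure_iff.1 hp ε e0
  obtain ⟨δ, d0, c⟩ := exists_ball_subset_ball (mem_ball'.2 b)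
  exact (a δ d0).mono fun _ d => d.imp fun _ d => ⟨c d.1, d.2⟩

theorem near (hS : ∀ᶠ i in U, (F i).Ok) (hp : p ∈ GU U F) :
    ∃ x : ι → E3, Tendsto x U (𝓝 p) ∧ ∀ᶠ i in U, (F i).w (x i) = 0 := by
  obtain ⟨x, hx⟩ := Eventually.choice (l := U)
    (r := fun i x => x ∈ (F i).G ∧ infDist p (F i).G = dist p x)
    ((hS.and (hp 1 one_pos)).mono fun i ⟨a, z, _, b⟩ => a.closed.exists_infDist_eq_dist ⟨z, b⟩ p)
  refine ⟨x, Metric.tendsto_nhds.2 fun ε e0 => ?_, hx.mono fun _ a => a.1⟩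
  filter_upwards [hx, hp ε e0] with i a ⟨z, b, c⟩
  rw [dist_comm, ← a.2]
  exact (infDist_le_dist_of_mem (y := z) c).trans_lt (mem_ball'.1 b)

/-- the surface of a graph -/
theorem ex_graph (hF : Fr e L) (hr : 0 < r) (hv : ContDiffOn ℝ ∞ v (ball 0 r))
    (hb : ∀ y, ‖y‖ < r → |v y| < h) : ∃ Q : Srf, Q.Ok ∧ Q.Gr p e L (r / 2) h v := by
  let b : ContDiffBump (0 : E 2) := ⟨r / 2, 3 * r / 4, by positivity, by linarith⟩
  have h1 : ContDiff ℝ ∞ fun y => b y * v y := contDiff_iff_contDiffAt.2 fun y => by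
    by_cases hy : y ∈ ball (0 : E 2) r
    · exact b.contDiffAt.mul (hv.contDiffAt (isOpen_ball.mem_nhds hy))
    · refine contDiffAt_const (c := 0).congr_of_eventuallyEq (mem_of_superset
        (isClosed_closedBall.isOpen_compl.mem_nhds fun c => hy
          (closedBall_subset_ball (show 3 * r / 4 < r by linarith) c)) fun z hz => ?_)
      have : b z = 0 := b.zero_of_le_dist (not_le.1 (mt mem_closedBall.2 hz)).le
      simp [this]
  obtain ⟨f, hf⟩ : ∃ f : E3 → ℝ, f = fun z => ⟪e, z - p⟫ - b (adj L (z - p)) * v (adj L (z - p)) :=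
    ⟨_, rfl⟩
  have h2 : ContDiff ℝ ∞ f := hf ▸ (contDiff_const.inner ℝ (contDiff_id.sub contDiff_const)).sub
    (h1.comp ((adj L).contDiff.comp (contDiff_id.sub contDiff_const)))
  refine ⟨Srf.of f, Srf.of_ok h2 fun z _ => grad_ne_iff.2 fun c => ?_, fun y hy =>
    ⟨hb y (by linarith), fun s _ => ?_⟩⟩
  · have h3 := (h2.differentiable (by simp) z).lineDeriv_eq_fderiv (v := e)
    have h4 : (fun t : ℝ => f (z + t • e)) = fun t => f z + t := funext fun t => by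
      simp only [hf, add_sub_right_comm z, map_add, map_smul, hF.adj_e, smul_zero, add_zero,
        inner_add_right, inner_smul_right, hF.ee]
      ring
    simp [c, lineDeriv, h4] at h3
  · have : (Srf.of f).w (p + L y + s • e) = s - v y := by
      simp only [Srf.of, hf, add_assoc, add_sub_cancel_left, hF.adj_pt, hF.e_pt]
      rw [b.one_of_mem_closedBall (mem_closedBall_zero_iff.2 hy.le), one_mul]
    rw [this, sub_neg, sub_eq_zero]
    exact ⟨Iff.rfl, Iff.rfl⟩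

theorem cts {α β γ : Type} [TopologicalSpace β] [TopologicalSpace γ] {l : Filter α} {f : α → β}
    {b : β} (h : Tendsto f l (𝓝 b)) {g : β → γ} (hg : Continuous g) :
    Tendsto (fun i => g (f i)) l (𝓝 (g b)) := (hg.tendsto b).comp h

theorem frame_lim {x e : ι → E3} {L : ι → E 2 →ₗᵢ[ℝ] E3} (hx : Tendsto x U (𝓝 p))
    (h : ∀ᶠ i in U, Fr (e i) (L i)) : ∃ (e₀ : E3) (L₀ : E 2 →ₗᵢ[ℝ] E3), Fr e₀ L₀ ∧
      Tendsto (fun i => ((x i, e i, (L i).toContinuousLinearMap) : Pos)) U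
        (𝓝 (p, e₀, L₀.toContinuousLinearMap)) := by
  have := FiniteDimensional.proper_real (E 2 →L[ℝ] E3)
  obtain ⟨⟨e₀, M⟩, -, h2⟩ := ((isCompact_closedBall (0 : E3) 1).prod (isCompact_closedBall
    (0 : E 2 →L[ℝ] E3) 1)).ultrafilter_le_nhds' (U.map fun i => (e i, (L i).toContinuousLinearMap))
      (h.mono fun i a => ⟨mem_closedBall_zero_iff.2 a.one.le,
        mem_closedBall_zero_iff.2 (L i).norm_toContinuousLinearMap_le⟩)
  have h3 : Tendsto (fun i => ((x i, e i, (L i).toContinuousLinearMap) : Pos)) U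
    (𝓝 (p, e₀, M)) := hx.prodMk_nhds h2
  have k : ∀ {g : Pos → ℝ} {c : ℝ}, Continuous g →
      (∀ᶠ i in U, c = g (x i, e i, (L i).toContinuousLinearMap)) → g (p, e₀, M) = c :=
    fun a b => tendsto_nhds_unique ((a.tendsto _).comp h3) (tendsto_const_nhds.congr' b)
  exact ⟨e₀, ⟨M.toLinearMap, fun y => k (g := fun a => ‖a.2.2 y‖) (by fun_prop)
    (.of_forall fun i => ((L i).norm_map y).symm)⟩, ⟨k (g := fun a => ‖a.2.1‖) (by fun_prop)
      (h.mono fun i a => a.one.symm), fun y => k (g := fun a => ⟪a.2.1, a.2.2 y⟫) (by fun_prop)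
        (h.mono fun i a => (a.ort y).symm)⟩, h3⟩

theorem jet_lim {v : ι → E 2 → ℝ} (h : Bd U (ball 0 r) v) : ∃ v₀, ContDiffOn ℝ ∞ v₀ (ball 0 r) ∧
    CC U (ball 0 r) v v₀ ∧ CC U (ball 0 r) (fun i => j2 (v i)) (j2 v₀) := by
  have cv := convex_ball (0 : E 2) r
  have b1 := h.cc isOpen_ball cv
  have b3 : CC U (ball 0 r) (fun i => gradient (v i)) (gradient (lm U v)) := fun y hy =>
    ((InnerProductSpace.toDual ℝ (E 2)).symm.continuous.tendsto _).comp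
      (h.cc_fderiv isOpen_ball cv b1 y hy)
  have b4 : CC U (ball 0 r) (fun i => fderiv ℝ (gradient (v i))) (fderiv ℝ (gradient (lm U v))) :=
    Bd.cc_fderiv ((h.fderiv isOpen_ball).iso (InnerProductSpace.toDual ℝ (E 2)).symm)
      isOpen_ball cv b3
  exact ⟨_, h.smooth isOpen_ball cv, b1, fun y hy => tendsto_snd.prodMk_nhds
    ((b1 y hy).prodMk_nhds ((b3 y hy).prodMk_nhds (b4 y hy)))⟩

theorem mem_GU (hS : ∀ᶠ i in U, (F i).Ok) {x e : ι → E3} {L : ι → E 2 →ₗᵢ[ℝ] E3}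
    {v : ι → E 2 → ℝ} {e₀ : E3} {L₀ : E 2 →ₗᵢ[ℝ] E3} {v₀ : E 2 → ℝ} (h4 : Fr e₀ L₀)
    (h3 : Tendsto (fun i => ((x i, e i, (L i).toContinuousLinearMap) : Pos)) U
      (𝓝 (p, e₀, L₀.toContinuousLinearMap)))
    (hq : ∀ᶠ i in U, Fr (e i) (L i) ∧ (F i).Gr (x i) (e i) (L i) r r (v i))
    (b1 : CC U (ball 0 r) v v₀) {y : E 2} {s : ℝ} (hy : ‖y‖ < r) (hs : |s| < r) :
    s = v₀ y ↔ p + L₀ y + s • e₀ ∈ GU U F := by
  refine ⟨fun c ε e0 => ?_, fun c => ?_⟩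
  · have : Tendsto (fun i => x i + L i y + v i y • e i) U (𝓝 (p + L₀ y + v₀ y • e₀)) := by
      simpa only [LinearIsometry.coe_toContinuousLinearMap] using cts (h3.prodMk_nhds (b1.mov
        (mem_ball_zero_iff.2 hy) tendsto_const_nhds)) (by fun_prop :
          Continuous fun a : Pos × ℝ => a.1.1 + a.1.2.2 y + a.2 • a.1.2.1)
    rw [c]
    filter_upwards [hq, this (ball_mem_nhds _ e0)] with i a b
    exact ⟨_, b, ((a.2 y hy).2 _ (a.2 y hy).1).2.2 rfl⟩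
  obtain ⟨z, z1, z2⟩ := near hS c
  have t1 := cts (h3.prodMk_nhds z1) (g := fun a : Pos × E3 => ContinuousLinearMap.adjoint a.1.2.2
    (a.2 - a.1.1)) ((ContinuousLinearMap.adjoint.continuous.comp (by fun_prop)).clm_apply
      (by fun_prop))
  have t2 := cts (h3.prodMk_nhds z1)
    (by fun_prop : Continuous fun a : Pos × E3 => ⟪a.1.2.1, a.2 - a.1.1⟫)
  dsimp only at t1 t2
  rw [add_assoc, add_sub_cancel_left] at t1 t2
  rw [h4.adj_pt] at t1
  rw [h4.e_pt] at t2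
  refine tendsto_nhds_unique t2 ((b1.mov (mem_ball_zero_iff.2 hy) t1).congr' ?_)
  filter_upwards [hq, z2, t1.norm.eventually (gt_mem_nhds hy), t2.abs.eventually (gt_mem_nhds hs)]
    with i a b c d
  exact (((a.2 _ c).2 _ d).2.1 (by rwa [add_assoc, a.1.dec, add_sub_cancel])).symm

/-- the limit chart -/
theorem chart (hS : ∀ᶠ i in U, (F i).Ok) (hU : ULR U F) (hp : p ∈ GU U F) :
    ∃ (r : ℝ) (x e : ι → E3) (L : ι → E 2 →ₗᵢ[ℝ] E3) (v : ι → E 2 → ℝ) (e₀ : E3)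
      (L₀ : E 2 →ₗᵢ[ℝ] E3) (v₀ : E 2 → ℝ) (Q : Srf), 0 < r ∧ Fr e₀ L₀ ∧
      Tendsto (fun i => ((x i, e i, (L i).toContinuousLinearMap) : Pos)) U
        (𝓝 (p, e₀, L₀.toContinuousLinearMap)) ∧
      (∀ᶠ i in U, Fr (e i) (L i) ∧ (F i).Gr (x i) (e i) (L i) r r (v i) ∧
        ContDiffOn ℝ ∞ (v i) (ball 0 r)) ∧ ContDiffOn ℝ ∞ v₀ (ball 0 r) ∧
      CC U (ball 0 r) (fun i => j2 (v i)) (j2 v₀) ∧ Q.Ok ∧ Q.Gr p e₀ L₀ (r / 2) r v₀ ∧
      ∀ z ∈ cyl p e₀ L₀ (r / 2) r, Q.w z = 0 ↔ z ∈ GU U F := by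
  obtain ⟨δ, d0, r, r0, C, c0, -, hC⟩ := hU p
  obtain ⟨x, x1, x2⟩ := near hS hp
  have h1 : ∀ᶠ i in U, ∃ q : (E 2 →ₗᵢ[ℝ] E3) × (E 2 → ℝ), Fr ((F i).n (x i)) q.1 ∧
      ContDiffOn ℝ ∞ q.2 (ball 0 r) ∧ (F i).Gr (x i) ((F i).n (x i)) q.1 r r q.2 ∧
      ∀ k y, ‖y‖ < r → ‖iteratedFDeriv ℝ k q.2 y‖ ≤ C k * r / r ^ k := by
    filter_upwards [hC, x2, x1 (ball_mem_nhds p d0)] with i a b c
    obtain ⟨L, a1, v, a2⟩ := a _ c b
    exact ⟨(L, v), a1, a2⟩
  have : Nonempty ((E 2 →ₗᵢ[ℝ] E3) × (E 2 → ℝ)) := ⟨h1.exists.choose_spec.choose⟩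
  obtain ⟨q, hq⟩ := h1.choice
  obtain ⟨e₀, L₀, h4, h3⟩ := frame_lim x1 (hq.mono fun _ a => a.1)
  obtain ⟨v₀, b2, b1, b3⟩ := jet_lim (U := U) (r := r) (v := fun i => (q i).2)
    ⟨_, hq.mono fun i a => ⟨a.2.1, fun k y hy => a.2.2.2 k y (mem_ball_zero_iff.1 hy)⟩⟩
  obtain ⟨Q, q1, q2⟩ := ex_graph (p := p) (h := r) h4 r0 b2 fun y hy => (le_of_tendsto (b1.mov
    (mem_ball_zero_iff.2 hy) tendsto_const_nhds).abs (b := C 0 * r) (hq.mono fun i a => by
      simpa using a.2.2.2 0 y hy)).trans_lt (by nlinarith)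
  refine ⟨r, x, _, fun i => (q i).1, fun i => (q i).2, e₀, L₀, v₀, Q, r0, h4, h3,
    hq.mono fun i a => ⟨a.1, a.2.2.1, a.2.1⟩, b2, b3, q1, q2, ?_⟩
  rintro _ ⟨y, s, hy, hs, rfl⟩
  exact ((q2 y hy).2 s hs).2.trans
    (mem_GU hS h4 h3 (hq.mono fun i a => ⟨a.1, a.2.2.1⟩) b1 (by linarith) hs)

theorem ex_lim (h0 : ORI) (hS : ∀ᶠ i in U, (F i).Ok) (hU : ULR U F) :
    ∃ T : Srf, T.Ok ∧ T.G = GU U F := by
  obtain ⟨w, w1, w2, w3⟩ := h0 E3 (GU U F) GU_closed fun p hp => by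
    obtain ⟨r, -, -, -, -, e, L, v, Q, r0, a1, -, -, -, -, a2, -, a3⟩ := chart hS hU hp
    have c : p ∈ cyl p e L (r / 2) r := mem_cyl a1 (by simpa using r0) (by linarith)
    exact ⟨Q.w, a2.sw, grad_ne_iff.1 (a2.reg p ((a3 p c).2 hp)),
      mem_of_superset ((isOpen_cyl a1 _ _).mem_nhds c) fun z hz => (a3 z hz).symm⟩
  exact ⟨Srf.of w, Srf.of_ok w1 fun x hx => grad_ne_iff.2 (w3 x ((w2 x).2 hx)),
    Set.ext fun x => (w2 x).symm⟩

theorem loc (h1 : GRN) (h2 : AREA) (hS : ∀ᶠ i in U, (F i).Ok) (hU : ULR U F) (hT : T.Ok)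
    (hG : T.G = GU U F) (p : E3) : ∃ ρ > (0 : ℝ), ∀ Ψ : Jt → ℝ, Continuous Ψ →
      (∀ x ∉ ball p ρ, ∀ q, Ψ (x, q) = 0) → (∀ x n A, Ψ (x, -n, -A) = Ψ (x, n, A)) →
      Tendsto (fun i => ∫ x, Ψ (x, (F i).n x, (F i).A x) ∂(F i).μ) U
        (𝓝 (∫ x, Ψ (x, T.n x, T.A x) ∂T.μ)) := by
  by_cases hp : p ∈ GU U F
  swap
  · obtain ⟨ε, e0, a⟩ : ∃ ε > 0, ∀ᶠ i in U, ¬ ∃ x ∈ ball p ε, (F i).w x = 0 := by
      simpa only [GU, mem_ofPred_eq, not_forall, Ultrafilter.eventually_not, exists_prop] using hp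
    refine ⟨ε, e0, fun Ψ _ b _ => ?_⟩
    rw [hT.int_congr (g := fun _ => 0) fun x hx => b x (fun c => ?_) _, integral_zero]
    · refine tendsto_const_nhds.congr' ((hS.and a).mono fun i c => ?_)
      simp only [c.1.int_congr (g := fun _ => 0) fun x hx => b x (fun d => c.2 ⟨x, d, hx⟩) _,
        integral_zero]
    · obtain ⟨δ, d0, d⟩ := exists_ball_subset_ball c
      obtain ⟨i, f1, z, f2, f3⟩ := (a.and ((hG ▸ hx : x ∈ GU U F) δ d0)).exists
      exact f1 ⟨z, d f2, f3⟩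
  obtain ⟨r, x, e, L, v, e₀, L₀, v₀, Q, r0, a1, a2, a3, a4, a5, a6, a7, a8⟩ := chart hS hU hp
  refine ⟨r / 4, by positivity, fun Ψ b1 b2 b3 => ?_⟩
  have s1 : ball (0 : E 2) (r / 2) ⊆ ball 0 r := ball_subset_ball (by linarith)
  have s2 : closedBall (0 : E 2) (r / 2) ⊆ ball 0 r := closedBall_subset_ball (by linarith)
  have s3 : ∀ {x e : E3} {L : E 2 →ₗᵢ[ℝ] E3}, Fr e L → dist x p < r / 4 →
      ∀ z ∉ cyl x e L (r / 2) r, ∀ q, Ψ (z, q) = 0 := fun {x e L} c d z hz => b2 z fun f =>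
    hz (mem_cyl c (by linarith [dist_eq_norm z x, dist_triangle_right z x p, mem_ball.1 f])
      (by linarith))
  have s4 := s3 a1 (x := p) (by simpa using r0)
  have e1 : ∫ x, Ψ (x, T.n x, T.A x) ∂T.μ = ∫ x, Ψ (x, Q.n x, Q.A x) ∂Q.μ := by
    have e2 : ∀ z ∈ cyl p e₀ L₀ (r / 2) r, Q.w z = 0 ↔ T.w z = 0 := fun z hz => by
      rw [a8 z hz, ← hG]; rfl
    rw [← setIntegral_eq_integral_of_forall_compl_eq_zero fun z hz => s4 z hz _,
      ← setIntegral_eq_integral_of_forall_compl_eq_zero (μ := Q.μ) fun z hz => s4 z hz _,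
      hT.restrict, a6.restrict, show cyl p e₀ L₀ (r / 2) r ∩ T.G = cyl p e₀ L₀ (r / 2) r ∩ Q.G from
        Set.ext fun z => and_congr_right fun hz => (e2 z hz).symm]
    refine setIntegral_congr_fun ((isOpen_cyl a1 _ _).measurableSet.inter a6.meas) fun z hz => ?_
    obtain ⟨ε, c, d⟩ := a6.same hz.2 hT (mem_of_superset ((isOpen_cyl a1 _ _).mem_nhds hz.1) e2)
    obtain ⟨d1, -, d2⟩ := d.self_of_nhds hz.2
    rcases c with rfl | rfl
    · simp only [d1, d2, one_smul]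
    · simp only [d1, d2]; rw [neg_one_smul, neg_one_smul ℝ (Q.A z), b3]
  rw [e1, int_eq h1 h2 a6 a1 a7 (a4.mono s1) b1 s4]
  refine (CC.integral volume (isCompact_closedBall 0 (r / 2)) ball_subset_closedBall
    (F := fun i y => jt Ψ ((x i, e i, (L i).toContinuousLinearMap), j2 (v i) y))
    (fun y hy => ((c_jt b1).tendsto _).comp ((a2.comp tendsto_fst).prodMk_nhds (a5 y (s2 hy))))
    (a3.mono fun i c => (c_jt b1).comp_continuousOn (continuousOn_const.prodMk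
      ((c_j2 isOpen_ball c.2.2).mono s2))) ((c_jt b1).comp_continuousOn (continuousOn_const.prodMk
        ((c_j2 isOpen_ball a4).mono s2)))).congr' ?_
  filter_upwards [hS, a3, Metric.tendsto_nhds.1 ((continuous_fst.tendsto _).comp a2) (r / 4)
    (by positivity)] with i c d f
  exact (int_eq h1 h2 c d.1 (fun y hy => d.2.1 y (by linarith)) (d.2.2.mono s1) b1 (s3 d.1 f)).symm

theorem glob (h1 : GRN) (h2 : AREA) (h3 : LOW) (hS : ∀ᶠ i in U, (F i).Ok) (hU : ULR U F)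
    (hT : T.Ok) (hG : T.G = GU U F) {K : Set E3} (b1 : Continuous Ψ) (hK : IsCompact K)
    (b2 : ∀ x ∉ K, ∀ q, Ψ (x, q) = 0) (b3 : ∀ x n A, Ψ (x, -n, -A) = Ψ (x, n, A)) :
    Tendsto (fun i => ∫ x, Ψ (x, (F i).n x, (F i).A x) ∂(F i).μ) U
      (𝓝 (∫ x, Ψ (x, T.n x, T.A x) ∂T.μ)) := by
  choose ρ r0 hρ using loc h1 h2 hS hU hT hG
  obtain ⟨t, ht⟩ := hK.elim_finite_subcover (fun p => ball p (ρ p)) (fun _ => isOpen_ball)
    fun p _ => mem_iUnion.2 ⟨p, mem_ball_self (r0 p)⟩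
  obtain ⟨φ, hφ⟩ := PartitionOfUnity.exists_isSubordinate hK.isClosed
    (fun j : t => ball j.1 (ρ j)) (fun _ => isOpen_ball) (by rwa [iUnion_subtype])
  have e : ∀ S : Srf, S.Ok → ∫ x, Ψ (x, S.n x, S.A x) ∂S.μ =
      ∑ j, ∫ x, φ j x * Ψ (x, S.n x, S.A x) ∂S.μ := fun S hS => by
    have := (h3 S hS).1
    rw [← integral_finsetSum _ fun j _ => ((φ j).continuous.fun_mul
      (c_int hS b1)).integrable_of_hasCompactSupport
        (.intro hK fun x hx => by simp [b2 x hx])]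
    refine integral_congr_ae (.of_forall fun x => ?_)
    by_cases hx : x ∈ K
    · simp only [← Finset.sum_mul, ← finsum_eq_sum_of_fintype, φ.sum_eq_one hx, one_mul]
    · simp [b2 x hx]
  rw [e T hT]
  refine (tendsto_finsetSum _ fun (j : t) _ => hρ j (fun q => φ j q.1 * Ψ q) (by fun_prop)
    (fun x hx q => ?_) fun x n A => by simp only [b3]).congr' (hS.mono fun i a => (e _ a).symm)
  simp [image_eq_zero_of_notMem_tsupport fun c => hx (hφ j c)]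

end Lm

open Lm in
theorem lim (h0 : ORI) (h1 : GRN) (h2 : AREA) (h3 : LOW) : LIM := by
  intro ι l _ S κ hκ hS hU hc
  have ul : ∀ U : Ultrafilter ι, ↑U ≤ l → ULR U S := fun U h p =>
    let ⟨δ, d0, r, r0, C, c0, c1, a⟩ := hU p; ⟨δ, d0, r, r0, C, c0, c1, h a⟩
  have key : ∀ U : Ultrafilter ι, ↑U ≤ l → ∃ T : Srf, T.Ok ∧ T.G = GU U S ∧ κ = T.μ := fun U h => by
    obtain ⟨T, a1, a2⟩ := ex_lim h0 (h hS) (ul U h)
    have := (h3 T a1).1
    exact ⟨T, a1, a2, Measure.ext_of_integral_eq_on_compactlySupported fun f =>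
      tendsto_nhds_unique ((hc f f.continuous f.hasCompactSupport).mono_left h)
        (glob (Ψ := fun q => f q.1) h1 h2 h3 (h hS) (ul U h) a1 a2 (by fun_prop)
          f.hasCompactSupport (fun x hx _ => image_eq_zero_of_notMem_tsupport hx)
            fun _ _ _ => rfl)⟩
  obtain ⟨T, a1, -, a3⟩ := key (Ultrafilter.of l) (Ultrafilter.of_le l)
  refine ⟨T, a1, a3, fun Ψ K b1 b2 b3 b4 => (tendsto_iff_ultrafilter _ _ _).2 fun U h => ?_⟩
  obtain ⟨T', c1, c2, c3⟩ := key U h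
  exact glob h1 h2 h3 (h hS) (ul U h) a1 (((G_sub h3 a1 c1 (a3.symm.trans c3)).antisymm
    (G_sub h3 c1 a1 (c3.symm.trans a3))).trans c2) b1 b2 b3 b4

end Vale.Agent.P218R
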