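import Vale.Agent.P218R.Stm
import Vale.Agent.P366W.Gdiv

/-!
# P218R: functions in a chart
-/

open MeasureTheory Metric Filter Topology Set
open scoped ContDiff ENNReal RealInnerProductSpace
open Vale.Agent.P366.Stmt (E)
open Vale.Agent.P366W

noncomputable section

namespace Vale.Agent.P218R

namespace Ch

variable {S : Srf} {x : E3}

theorem P_apply (S : Srf) (x a : E3) : S.P x a = a - ⟪S.n x, a⟫ • S.n x := by simp [Srf.P]

theorem inner_P (S : Srf) (x a b : E3) : ⟪S.P x a, b⟫ = ⟪a, S.P x b⟫ := by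
  rw [P_apply, P_apply, inner_sub_left, inner_sub_right, real_inner_smul_left,
    real_inner_smul_right, real_inner_comm a (S.n x), mul_comm]

theorem nn_near (hS : S.Ok) (hx : S.w x = 0) : ∀ᶠ y in 𝓝 x, ⟪S.n y, S.n y⟫ = 1 := by
  have h1 := (smooth_gradient hS.sw).continuous.continuousAt.eventually_ne (hS.reg x hx)
  filter_upwards [h1, hS.nrm x hx] with y h2 h3
  have h4 : ‖gradient S.w y‖ ≠ 0 := norm_ne_zero_iff.2 h2
  rw [h3, real_inner_smul_left, real_inner_smul_right, real_inner_self_eq_norm_sq]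
  field_simp

theorem nn (hS : S.Ok) (hx : S.w x = 0) : ⟪S.n x, S.n x⟫ = 1 := (nn_near hS hx).self_of_nhds

theorem dn (hS : S.Ok) (x : E3) : DifferentiableAt ℝ S.n x := hS.sn.differentiable (by simp) x

theorem n_dn (hS : S.Ok) (hx : S.w x = 0) (a : E3) : ⟪S.n x, fderiv ℝ S.n x a⟫ = 0 := by
  have h1 : (fun y => ⟪S.n y, S.n y⟫) =ᶠ[𝓝 x] fun _ => (1 : ℝ) := nn_near hS hx
  have h2 := fderiv_inner_apply ℝ (dn hS x) (dn hS x) a
  rw [h1.fderiv_eq, real_inner_comm (S.n x)] at h2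
  simp only [fderiv_fun_const, Pi.zero_apply, zero_apply] at h2
  linarith

theorem n_P (hS : S.Ok) (hx : S.w x = 0) (a : E3) : ⟪S.n x, S.P x a⟫ = 0 := by
  rw [P_apply, inner_sub_right, real_inner_smul_right, nn hS hx, mul_one, sub_self]

theorem P_n (hS : S.Ok) (hx : S.w x = 0) : S.P x (S.n x) = 0 := by
  rw [P_apply, nn hS hx, one_smul, sub_self]

theorem P_of (S : Srf) {x a : E3} (h : ⟪S.n x, a⟫ = 0) : S.P x a = a := by
  rw [P_apply, h, zero_smul, sub_zero]

theorem tg_eq (S : Srf) (f : E3 → ℝ) :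
    S.tg f = fun x => gradient f x - ⟪S.n x, gradient f x⟫ • S.n x :=
  funext fun x => P_apply S x _

theorem contDiff_tg (hS : S.Ok) {f : E3 → ℝ} (hf : ContDiff ℝ 2 f) : ContDiff ℝ 1 (S.tg f) := by
  have h1 : ContDiff ℝ 1 (gradient f) := contDiff_gradient (k := 1) hf
  have h2 : ContDiff ℝ 1 S.n := hS.sn.of_le (by simp)
  rw [tg_eq]
  exact h1.sub ((h2.inner ℝ h1).smul h2)

theorem inner_tg (S : Srf) (f : E3 → ℝ) {x a : E3} (h : ⟪S.n x, a⟫ = 0) :
    ⟪S.tg f x, a⟫ = fderiv ℝ f x a := by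
  rw [Srf.tg, inner_P, P_of S h, inner_grad]

end Ch

open Ch

/-- the determinant of an endomorphism of the plane -/
def d2 (N : E 2 →L[ℝ] E 2) : ℝ :=
  N (EuclideanSpace.single 0 1) 0 * N (EuclideanSpace.single 1 1) 1 -
    N (EuclideanSpace.single 0 1) 1 * N (EuclideanSpace.single 1 1) 0

theorem d2_eq (N : E 2 →L[ℝ] E 2) : d2 N = (trc N ^ 2 - trc (N ∘L N)) / 2 := by
  simp only [trc, Fin.sum_univ_two, ContinuousLinearMap.comp_apply, d2]
  rw [map_eq_sum N (N (EuclideanSpace.single 0 1)), map_eq_sum N (N (EuclideanSpace.single 1 1))]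
  simp only [Fin.sum_univ_two, PiLp.add_apply, PiLp.smul_apply, smul_eq_mul]
  ring

theorem apply_two (N : E 2 →L[ℝ] E 2) (a : E 2) (i : Fin 2) :
    N a i = a 0 * N (EuclideanSpace.single 0 1) i + a 1 * N (EuclideanSpace.single 1 1) i := by
  rw [map_eq_sum N a]
  simp only [Fin.sum_univ_two, PiLp.add_apply, PiLp.smul_apply, smul_eq_mul]

theorem ker_of_d2 {N : E 2 →L[ℝ] E 2} (h : d2 N ≠ 0) {a : E 2} (ha : N a = 0) : a = 0 := by
  have h0 := apply_two N a 0
  have h1 := apply_two N a 1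
  rw [ha] at h0 h1
  simp only [PiLp.zero_apply] at h0 h1
  unfold d2 at h
  ext i
  fin_cases i
  · refine mul_left_cancel₀ h ?_
    simp only [Fin.zero_eta, PiLp.zero_apply, mul_zero]
    linear_combination -(N (EuclideanSpace.single 1 1) 1) * h0 +
      (N (EuclideanSpace.single 1 1) 0) * h1
  · refine mul_left_cancel₀ h ?_
    simp only [Fin.mk_one, PiLp.zero_apply, mul_zero]
    linear_combination (N (EuclideanSpace.single 0 1) 1) * h0 -
      (N (EuclideanSpace.single 0 1) 0) * h1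

theorem d2_nonneg {N : E 2 →L[ℝ] E 2} (h : ∀ a, ⟪N a, a⟫ ≤ 0) : 0 ≤ d2 N := by
  have key : ∀ s t : ℝ, s * s * N (EuclideanSpace.single 0 1) 0 +
      s * t * (N (EuclideanSpace.single 0 1) 1 + N (EuclideanSpace.single 1 1) 0) +
      t * t * N (EuclideanSpace.single 1 1) 1 ≤ 0 := fun s t => by
    have h1 := h !₂[s, t]
    rw [inner_eq_sum, Fin.sum_univ_two, apply_two N _ 0, apply_two N _ 1] at h1
    simp only [Matrix.cons_val_zero, Matrix.cons_val_one] at h1
    linarith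
  unfold d2
  generalize N (EuclideanSpace.single 0 1) 0 = a at key ⊢
  generalize N (EuclideanSpace.single 0 1) 1 = b at key ⊢
  generalize N (EuclideanSpace.single 1 1) 0 = c at key ⊢
  generalize N (EuclideanSpace.single 1 1) 1 = d at key ⊢
  have h1 : discrim a (b + c) d ≤ 0 := discrim_le_zero_of_nonpos fun s => by
    have := key s 1
    linarith
  unfold discrim at h1
  nlinarith [sq_nonneg (b - c)]

theorem dt_eq_d2 {e : E3} {L : E 2 →ₗᵢ[ℝ] E3} (h : Fr e L) {M : E3 →L[ℝ] E3} (h1 : M e = 0)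
    (h2 : ∀ x, ⟪e, M x⟫ = 0) : dt M = d2 (adj L ∘L M ∘L L.toContinuousLinearMap) := by
  have h3 : ∀ x, L (adj L (M x)) = M x := fun x => by
    have := h.dec (M x)
    rwa [h2, zero_smul, add_zero] at this
  have key : ∀ M' : E3 →L[ℝ] E3, M' e = 0 →
      trc M' = trc (adj L ∘L M' ∘L L.toContinuousLinearMap) := fun M' h4 => by
    rw [h.trc, h4, inner_zero_right, add_zero, trc]
    refine Finset.sum_congr rfl fun i _ => ?_
    rw [← inner_adj]
    simp [EuclideanSpace.inner_single_left]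
  rw [d2_eq, dt, key M h1, key (M ∘L M) (by simp [h1])]
  congr 3
  ext1 a
  simp [h3]

theorem hasFDerivAt_gX (p e : E3) (L : E 2 →ₗᵢ[ℝ] E3) {v : E 2 → ℝ} {y : E 2}
    (hv : DifferentiableAt ℝ v y) :
    HasFDerivAt (gX p e L v) (L.toContinuousLinearMap + (fderiv ℝ v y).smulRight e) y :=
  (L.toContinuousLinearMap.hasFDerivAt.const_add p).add (hv.hasFDerivAt.smul_const e)

theorem adj_gX {p e : E3} {L : E 2 →ₗᵢ[ℝ] E3} (h : Fr e L) (v : E 2 → ℝ) (y : E 2) :
    adj L (gX p e L v y - p) = y := by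
  rw [gX, add_assoc, add_sub_cancel_left, h.adj_pt]

/-- a chart about `p` -/
structure Cht (S : Srf) (p : E3) (L : E 2 →ₗᵢ[ℝ] E3) (v : E 2 → ℝ) (r₀ : ℝ) : Prop where
  ok : S.Ok
  mem : S.w p = 0
  fr : Fr (S.n p) L
  sm : ContDiff ℝ ∞ v
  v0 : v 0 = 0
  g0 : gradient v 0 = 0
  pos : 0 < r₀
  gr : ∀ r h, 0 < r → r ≤ h → h ≤ r₀ → S.Gr p (S.n p) L r h v

theorem exists_cht (grf : GRF) {S : Srf} {p : E3} (hS : S.Ok) (hp : S.w p = 0) :
    ∃ L v r₀, Cht S p L v r₀ := by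
  obtain ⟨L, h1, v, h2, h3, h4, r₀, h5, -, h6⟩ := grf S p 1 hS hp one_pos
  exact ⟨L, v, r₀, hS, hp, h1, h2, h3, h4, h5, h6⟩

namespace Cht

variable {S : Srf} {p : E3} {L : E 2 →ₗᵢ[ℝ] E3} {v : E 2 → ℝ} {r₀ : ℝ} (c : Cht S p L v r₀)
include c

theorem X0 : gX p (S.n p) L v 0 = p := by simp [gX, c.v0]

theorem smX : ContDiff ℝ ∞ (gX p (S.n p) L v) :=
  (contDiff_const.add L.contDiff).add (c.sm.smul contDiff_const)

theorem dv (y : E 2) : DifferentiableAt ℝ v y := c.sm.differentiable (by simp) y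

theorem fderiv_X (y a : E 2) :
    fderiv ℝ (gX p (S.n p) L v) y a = L a + ⟪gradient v y, a⟫ • S.n p := by
  rw [(hasFDerivAt_gX p (S.n p) L (c.dv y)).fderiv, inner_grad]
  simp

theorem w_X {y : E 2} (hy : ‖y‖ < r₀) : S.w (gX p (S.n p) L v y) = 0 := by
  obtain ⟨h1, h2⟩ := c.gr r₀ r₀ c.pos le_rfl le_rfl y hy
  exact (h2 _ h1).2.2 rfl

theorem near : ∀ᶠ y in 𝓝 (0 : E 2), ‖y‖ < r₀ :=
  continuous_norm.continuousAt.eventually (gt_mem_nhds (by simpa using c.pos))

theorem tendsto_X : Tendsto (gX p (S.n p) L v) (𝓝 0) (𝓝 p) := by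
  simpa only [c.X0] using c.smX.continuous.tendsto 0

omit c in
theorem tendsto_adj : Tendsto (fun q => adj L (q - p)) (𝓝 p) (𝓝 0) := by
  have : Continuous fun q => adj L (q - p) := by fun_prop
  simpa using this.tendsto p

/-- points of the surface in the cylinder are points of the graph -/
theorem eq_X {q : E3} (h1 : ‖adj L (q - p)‖ < r₀) (h2 : |⟪S.n p, q - p⟫| < r₀) (hq : S.w q = 0) :
    gX p (S.n p) L v (adj L (q - p)) = q := by
  have h3 : p + L (adj L (q - p)) + ⟪S.n p, q - p⟫ • S.n p = q := by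
    rw [add_assoc, c.fr.dec, add_sub_cancel]
  have h4 := ((c.gr r₀ r₀ c.pos le_rfl le_rfl _ h1).2 _ h2).2.1 (by rw [h3]; exact hq)
  rw [gX, ← h4, h3]

theorem eq_X_near : ∀ᶠ q in 𝓝 p, S.w q = 0 → gX p (S.n p) L v (adj L (q - p)) = q := by
  have h1 : Continuous fun q : E3 => |⟪S.n p, q - p⟫| := by fun_prop
  filter_upwards [tendsto_adj.eventually c.near,
    h1.continuousAt.eventually (gt_mem_nhds (show |⟪S.n p, p - p⟫| < r₀ by simpa using c.pos))]
    with q h2 h3 using c.eq_X h2 h3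

theorem tan {y : E 2} (hy : ‖y‖ < r₀) (a : E 2) :
    ⟪S.n (gX p (S.n p) L v y), L a + ⟪gradient v y, a⟫ • S.n p⟫ = 0 := by
  have h1 : (S.w ∘ gX p (S.n p) L v) =ᶠ[𝓝 y] fun _ => 0 := by
    filter_upwards [continuous_norm.continuousAt.eventually (gt_mem_nhds hy)] with z hz
      using c.w_X hz
  have h2 := h1.fderiv_eq (𝕜 := ℝ)
  rw [fderiv_comp y (c.ok.sw.differentiable (by simp) _) (c.smX.differentiable (by simp) _)] at h2
  have h3 := congrArg (fun T : E 2 →L[ℝ] ℝ => T a) h2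
  simp only [ContinuousLinearMap.comp_apply, c.fderiv_X, fderiv_fun_const, Pi.zero_apply,
    zero_apply] at h3
  rw [(c.ok.nrm _ (c.w_X hy)).self_of_nhds, real_inner_smul_left, inner_grad, h3, mul_zero]

/-- the gradient in the chart -/
theorem grad {f : E3 → ℝ} {y : E 2} (hy : ‖y‖ < r₀)
    (hf : DifferentiableAt ℝ f (gX p (S.n p) L v y)) (a : E 2) :
    ⟪gradient (f ∘ gX p (S.n p) L v) y, a⟫ =
      ⟪S.tg f (gX p (S.n p) L v y), L a + ⟪gradient v y, a⟫ • S.n p⟫ := by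
  rw [inner_tg S f (c.tan hy a), inner_grad, fderiv_comp y hf (c.smX.differentiable (by simp) _),
    ContinuousLinearMap.comp_apply, c.fderiv_X]

theorem grad_eq {f : E3 → ℝ} {y : E 2} (hy : ‖y‖ < r₀)
    (hf : DifferentiableAt ℝ f (gX p (S.n p) L v y)) :
    gradient (f ∘ gX p (S.n p) L v) y = adj L (S.tg f (gX p (S.n p) L v y)) +
      ⟪S.n p, S.tg f (gX p (S.n p) L v y)⟫ • gradient v y := by
  refine ext_inner_right ℝ fun a => ?_
  rw [c.grad hy hf, inner_add_right, inner_add_left, real_inner_smul_right, real_inner_smul_left,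
    real_inner_comm a (adj L _), inner_adj, real_inner_comm (L a), real_inner_comm (S.n p),
    mul_comm]

theorem grad0 {f : E3 → ℝ} (hf : DifferentiableAt ℝ f p) :
    gradient (f ∘ gX p (S.n p) L v) 0 = adj L (S.tg f p) := by
  rw [c.grad_eq (by simpa using c.pos) (by rwa [c.X0]), c.g0, smul_zero, add_zero, c.X0]

/-- critical points in the chart -/
theorem crit_iff {f : E3 → ℝ} {y : E 2} (hy : ‖y‖ < r₀)
    (hf : DifferentiableAt ℝ f (gX p (S.n p) L v y)) :
    gradient (f ∘ gX p (S.n p) L v) y = 0 ↔ S.tg f (gX p (S.n p) L v y) = 0 := by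
  refine ⟨fun h => ?_, fun h => by rw [c.grad_eq hy hf, h]; simp⟩
  have key : ∀ T : E3, (∀ a, ⟪T, L a + ⟪gradient v y, a⟫ • S.n p⟫ = 0) →
      T = ⟪S.n p, T⟫ • (L (-gradient v y) + (1 : ℝ) • S.n p) := fun T hT => by
    have h1 : adj L T = -(⟪S.n p, T⟫ • gradient v y) := by
      refine ext_inner_left ℝ fun a => ?_
      have h2 := hT a
      rw [inner_add_right, real_inner_smul_right] at h2
      rw [inner_adj, inner_neg_right, real_inner_smul_right, real_inner_comm T (L a),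
        real_inner_comm T (S.n p), real_inner_comm (gradient v y) a]
      linarith
    conv_lhs => rw [← c.fr.dec T, h1]
    simp
  have h1 := key _ (c.tan hy)
  have h2 := key _ fun a => by rw [← c.grad hy hf a, h, inner_zero_left]
  have h3 := n_P c.ok (c.w_X hy) (gradient f (gX p (S.n p) L v y))
  have h4 := nn c.ok (c.w_X hy)
  change ⟪_, S.tg f _⟫ = 0 at h3
  generalize S.n (gX p (S.n p) L v y) = n at h1 h3 h4
  generalize S.tg f (gX p (S.n p) L v y) = T at h2 h3 ⊢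
  generalize L (-gradient v y) + (1 : ℝ) • S.n p = u at h1 h2
  generalize ⟪S.n p, n⟫ = s at h1
  generalize ⟪S.n p, T⟫ = t at h2
  subst h1 h2
  simp only [real_inner_smul_left, real_inner_smul_right] at h3 h4
  have h5 : t = 0 := by linear_combination s * h3 - t * h4
  rw [h5, zero_smul]

/-- the Hessian in the chart -/
theorem hess {f : E3 → ℝ} (hf : ContDiff ℝ 2 f) :
    HasFDerivAt (gradient (f ∘ gX p (S.n p) L v))
      (adj L ∘L S.hs f p ∘L L.toContinuousLinearMap) 0 := by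
  have h1 : gradient (f ∘ gX p (S.n p) L v) =ᶠ[𝓝 0] fun y => adj L (S.tg f (gX p (S.n p) L v y)) +
      ⟪S.n p, S.tg f (gX p (S.n p) L v y)⟫ • gradient v y := by
    filter_upwards [c.near] with y hy using c.grad_eq hy (hf.differentiable (by simp) _)
  have h2 : HasFDerivAt (gX p (S.n p) L v) L.toContinuousLinearMap 0 := by
    refine (c.smX.differentiable (by simp) 0).hasFDerivAt.congr_fderiv ?_
    ext1 a
    rw [c.fderiv_X, c.g0]
    simp
  have h3 : HasFDerivAt (S.tg f) (fderiv ℝ (S.tg f) p) (gX p (S.n p) L v 0) := by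
    rw [c.X0]
    exact ((contDiff_tg c.ok hf).differentiable one_ne_zero p).hasFDerivAt
  have h4 := h3.comp 0 h2
  have h5 := ((smooth_gradient c.sm).differentiable (by simp) 0).hasFDerivAt
  have h6 := ((adj L).hasFDerivAt.comp 0 h4).add
    (((innerSL ℝ (S.n p)).hasFDerivAt.comp 0 h4).smul h5)
  refine HasFDerivAt.congr_of_eventuallyEq (h6.congr_fderiv ?_) h1
  ext1 a
  have h7 : ⟪S.n p, S.tg f p⟫ = 0 := n_P c.ok c.mem _
  have h8 : S.P p (L a) = L a := P_of S (c.fr.ort a)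
  have h9 : ∀ z, adj L (S.P p z) = adj L z := fun z => by
    rw [P_apply, map_sub, map_smul, c.fr.adj_e, smul_zero, sub_zero]
  simp [Srf.hs, c.X0, c.g0, h7, h8, h9]

theorem hess_inner {f : E3 → ℝ} (hf : ContDiff ℝ 2 f) (a b : E 2) :
    ⟪fderiv ℝ (gradient (f ∘ gX p (S.n p) L v)) 0 a, b⟫ = ⟪S.hs f p (L a), L b⟫ := by
  rw [(c.hess hf).fderiv, real_inner_comm, real_inner_comm (L b)]
  exact inner_adj L b _

theorem dt_hs {f : E3 → ℝ} (hf : ContDiff ℝ 2 f) :
    dt (S.hs f p) = d2 (fderiv ℝ (gradient (f ∘ gX p (S.n p) L v)) 0) := by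
  rw [(c.hess hf).fderiv]
  refine dt_eq_d2 c.fr ?_ fun x => n_P c.ok c.mem _
  simp [Srf.hs, P_n c.ok c.mem]

end Cht

/-- the Hessian is symmetric -/
theorem hess_symm {N : ℕ} {g : E N → ℝ} {y : E N} (hg : ContDiffAt ℝ 2 g y) (a b : E N) :
    ⟪fderiv ℝ (gradient g) y a, b⟫ = ⟪a, fderiv ℝ (gradient g) y b⟫ := by
  have h1 : DifferentiableAt ℝ (fderiv ℝ g) y :=
    (hg.fderiv_right (m := 1) le_rfl).differentiableAt one_ne_zero
  have key : ∀ a b, ⟪fderiv ℝ (gradient g) y a, b⟫ = fderiv ℝ (fderiv ℝ g) y a b := fun a b => by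
    have h2 := ((InnerProductSpace.toDual ℝ (E N)).symm.toContinuousLinearEquiv.hasFDerivAt.comp y
      h1.hasFDerivAt).fderiv
    have h3 : gradient g = (InnerProductSpace.toDual ℝ (E N)).symm.toContinuousLinearEquiv ∘
      fderiv ℝ g := rfl
    rw [h3, h2]
    simp
  rw [real_inner_comm _ a, key, key]
  exact (hg.isSymmSndFDerivAt (by simp)).eq a b

end Vale.Agent.P218R
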