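import Vale.Agent.P218R.Base
import Vale.Agent.P218R.Cht
import Vale.Agent.P218R.Grc

/-!
# P218R: superlevel sets near regular points and near extrema
-/

set_option linter.all false

open MeasureTheory Metric Filter Topology Set
open scoped ContDiff ENNReal RealInnerProductSpace
open Vale.Agent.P366.Stmt (E)
open Vale.Agent.P366W

noncomputable section

namespace Vale.Agent.P218R

namespace Lo1

/-- preimages of convex sets under submersions are locally connected -/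
theorem straight {X Y : Type*} [NormedAddCommGroup X] [NormedSpace ℝ X] [CompleteSpace X]
    [NormedAddCommGroup Y] [NormedSpace ℝ Y] [FiniteDimensional ℝ Y] {F : X → Y} {F' : X →L[ℝ] Y}
    {p : X} (hF : HasStrictFDerivAt F F' p) (hs : F'.range = ⊤) {C : Set Y} (hC : Convex ℝ C)
    (hp : F p ∈ closure C) {U : Set X} (hU : U ∈ 𝓝 p) :
    ∃ V ∈ 𝓝 p, V ⊆ U ∧ IsConnected (V ∩ F ⁻¹' C) := by
  have h1 := hF.mem_implicitToOpenPartialHomeomorph_source hs
  have h2 := hF.implicitToOpenPartialHomeomorph_fst hs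
  have h3 := hF.implicitToOpenPartialHomeomorph_self hs
  generalize hF.implicitToOpenPartialHomeomorph F F' hs = φ at h1 h2 h3
  obtain ⟨r, r0, hr⟩ := Metric.mem_nhds_iff.1 (inter_mem (φ.open_target.mem_nhds (φ.map_source h1))
    (φ.tendsto_symm h1 hU))
  refine ⟨φ.source ∩ φ ⁻¹' ball (φ p) r, inter_mem (φ.open_source.mem_nhds h1)
    (φ.continuousAt h1 (ball_mem_nhds _ r0)), fun x hx => φ.left_inv hx.1 ▸ (hr hx.2).2, ?_⟩
  have e : φ.source ∩ φ ⁻¹' ball (φ p) r ∩ F ⁻¹' C = φ.symm '' (ball (φ p) r ∩ C ×ˢ univ) := by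
    refine Subset.antisymm (fun x hx => ⟨φ x, ⟨hx.1.2, (h2 x).symm ▸ hx.2, trivial⟩,
      φ.left_inv hx.1.1⟩) ?_
    rintro _ ⟨z, ⟨a, b⟩, rfl⟩
    have c := φ.right_inv (hr a).1
    exact ⟨⟨φ.map_target (hr a).1, by rwa [mem_preimage, c]⟩, by rw [mem_preimage, ← h2, c]; exact b.1⟩
  rw [e]
  refine IsConnected.image (((convex_ball _ _).inter (hC.prod convex_univ)).isConnected ?_) _
    (φ.continuousOn_symm.mono fun z hz => (hr hz.1).1)
  refine mem_closure_iff.1 ?_ _ isOpen_ball (mem_ball_self r0)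
  rw [closure_prod_eq, h3]
  exact ⟨hp, subset_closure trivial⟩

theorem strict_max {g : E 2 → ℝ} {N : E 2 →L[ℝ] E 2} (hg : Differentiable ℝ g)
    (h0 : gradient g 0 = 0) (hN : HasFDerivAt (gradient g) N 0) {c : ℝ} (hc : 0 < c)
    (h : ∀ a, ⟪N a, a⟫ ≤ -c * ‖a‖ ^ 2) : ∀ᶠ y in 𝓝 0, y ≠ 0 → g y < g 0 := by
  obtain ⟨r, r0, hr⟩ := Metric.eventually_nhds_iff.1 (hN.isLittleO.def (half_pos hc))
  refine Metric.eventually_nhds_iff.2 ⟨r, r0, fun y hy y0 => ?_⟩
  have d : ∀ t : ℝ, HasDerivAt (fun t : ℝ => g (t • y)) ⟪gradient g (t • y), y⟫ t := fun t => by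
    have := (hg (t • y)).hasFDerivAt.comp_hasDerivAt t ((hasDerivAt_id' t).smul_const y)
    rwa [one_smul, ← inner_grad] at this
  obtain ⟨t, ⟨t0, t1⟩, e⟩ := exists_hasDerivAt_eq_slope _ _ zero_lt_one
    (fun t _ => (d t).continuousAt.continuousWithinAt) fun t _ => d t
  have h1 := hr (y := t • y) (by
    rw [dist_zero_right] at hy ⊢
    rw [norm_smul, Real.norm_of_nonneg t0.le]
    nlinarith [norm_nonneg y])
  rw [h0, sub_zero, sub_zero] at h1
  have h2 := (real_inner_le_norm _ (t • y)).trans (mul_le_mul_of_nonneg_right h1 (norm_nonneg _))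
  have h3 := h (t • y)
  have h4 : 0 < c * ‖t • y‖ ^ 2 := by have := smul_ne_zero t0.ne' y0; positivity
  rw [inner_sub_left, real_inner_smul_right, e, one_smul, zero_smul, sub_zero, div_one] at h2
  nlinarith

theorem cayley {N : E 2 →L[ℝ] E 2} (h : ∀ a b, ⟪N a, b⟫ = ⟪a, N b⟫) :
    (0 < d2 N → trc N ≠ 0) ∧ ∀ a, d2 N * ‖a‖ ^ 2 ≤ trc N * ⟪N a, a⟫ := by
  have e := h (EuclideanSpace.single 0 1) (EuclideanSpace.single 1 1)
  simp only [EuclideanSpace.inner_single_left, EuclideanSpace.inner_single_right, conj_trivial,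
    one_mul] at e
  refine ⟨fun a b => ?_, fun a => ?_⟩
  · simp only [d2, trc, Fin.sum_univ_two, e] at a b
    rw [eq_neg_of_add_eq_zero_left b] at a
    nlinarith [sq_nonneg (N (EuclideanSpace.single 1 1) 0), sq_nonneg (N (EuclideanSpace.single 1 1) 1)]
  rw [← real_inner_self_eq_norm_sq, inner_eq_sum, inner_eq_sum]
  simp only [d2, trc, Fin.sum_univ_two, apply_two N a, e]
  have := add_nonneg (sq_nonneg (N a 0)) (sq_nonneg (N a 1))
  simp only [apply_two N a, e] at this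
  linarith

theorem punct {r : ℝ} (hr : 0 < r) : IsConnected (ball (0 : E 2) r \ {0}) := by
  have e : ball (0 : E 2) r \ {0} = (fun z : ℝ × E 2 => z.1 • z.2) '' Ioo 0 r ×ˢ sphere 0 1 := by
    refine Subset.antisymm (fun y ⟨a, b⟩ => ⟨(‖y‖, ‖y‖⁻¹ • y), ⟨⟨norm_pos_iff.2 b,
      mem_ball_zero_iff.1 a⟩, mem_sphere_zero_iff_norm.2 (norm_smul_inv_norm b)⟩,
        smul_inv_smul₀ (norm_ne_zero_iff.2 b) y⟩) ?_
    rintro _ ⟨⟨t, u⟩, ⟨⟨a, b⟩, c⟩, rfl⟩
    have : ‖t • u‖ = t := by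
      rw [norm_smul, mem_sphere_zero_iff_norm.1 c, mul_one, Real.norm_of_nonneg a.le]
    exact ⟨mem_ball_zero_iff.2 (this.trans_lt b), norm_pos_iff.1 (a.trans_eq this.symm)⟩
  rw [e]
  exact ((isConnected_Ioo hr).prod (isConnected_sphere (by
    rw [← Module.finrank_eq_rank, finrank_euclideanSpace_fin]; norm_num) 0 one_pos.le)).image _
      (by fun_prop)

theorem top_one {S : Srf} {p : E3} {L : E 2 →ₗᵢ[ℝ] E3} {v : E 2 → ℝ} {r₀ : ℝ} (c : Cht S p L v r₀)
    {f : E3 → ℝ} (h : ∀ᶠ y in 𝓝 0, y ≠ 0 → (f ∘ gX p (S.n p) L v) y < (f ∘ gX p (S.n p) L v) 0) :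
    Top S.G f p ∧ One S.G (-f) p := by
  simp only [Function.comp, c.X0] at h
  refine ⟨?_, fun U hU => ?_⟩
  · filter_upwards [c.eq_X_near, Cht.tendsto_adj.eventually h] with q a b hq e
    exact a hq ▸ b fun z => e (by rw [← a hq, z, c.X0])
  obtain ⟨r, r0, hr⟩ := Metric.mem_nhds_iff.1 ((h.and c.near).and (c.tendsto_X hU))
  refine ⟨U ∩ ({q | _} ∩ (fun q => adj L (q - p)) ⁻¹' ball 0 r), inter_mem hU (inter_mem c.eq_X_near
    (Cht.tendsto_adj (ball_mem_nhds _ r0))), inter_subset_left, ?_⟩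
  refine Eq.subst (Subset.antisymm ?_ ?_).symm ((punct r0).image _ c.smX.continuous.continuousOn)
  · rintro q ⟨⟨⟨_, a, b⟩, d⟩, e⟩
    refine ⟨_, ⟨b, fun z : adj L (q - p) = 0 => ?_⟩, a d⟩
    exact lt_irrefl _ (show (-f) p < (-f) p by rwa [← a d, z, c.X0] at e)
  rintro _ ⟨y, ⟨a, b⟩, rfl⟩
  have e := adj_gX (p := p) c.fr v y
  exact ⟨⟨⟨(hr a).2, fun _ => by rw [e], by rwa [mem_preimage, e]⟩, c.w_X (hr a).1.2⟩,
    neg_lt_neg ((hr a).1.1 b)⟩

end Lo1

open Lo1

/-- **LO1** -/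
theorem lo1 : LO1 := fun S hS => by
  have hw : ∀ p, HasStrictFDerivAt S.w (fderiv ℝ S.w p) p := fun p =>
    hS.sw.contDiffAt.hasStrictFDerivAt (by simp)
  refine ⟨fun p hp U hU => (straight (hw p) (range_top (grad_ne_iff.1 (hS.reg p hp)))
    (convex_singleton 0) (subset_closure hp) hU).imp fun V h => ⟨h.1, h.2.1, h.2.2.2⟩,
      fun f p hf hp => ⟨fun h U hU => ?_, fun h => ?_⟩⟩
  · have h1 : ‖S.tg f p‖ ≠ 0 := norm_ne_zero_iff.2 fun e => h ⟨hp, e⟩
    have h2 : fderiv ℝ f p (S.tg f p) = ‖S.tg f p‖ ^ 2 := by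
      rw [← real_inner_self_eq_norm_sq, Ch.inner_tg S f (hS.n_tg hp f)]
    refine (straight ((hw p).prodMk (hf.contDiffAt.hasStrictFDerivAt (by simp)))
      (LinearMap.range_eq_top.2 fun z => ⟨(z.1 / ‖gradient S.w p‖) • S.n p + ((z.2 - z.1 /
        ‖gradient S.w p‖ * fderiv ℝ f p (S.n p)) / ‖S.tg f p‖ ^ 2) • S.tg f p, ?_⟩)
      ((convex_singleton 0).prod (convex_Ioi (f p))) ?_ hU).imp fun V h =>
        ⟨h.1, h.2.1, by rw [inter_assoc]; exact h.2.2⟩
    · have := (hS.gpos hp).ne'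
      refine Prod.ext ?_ ?_ <;> simp [hS.fderiv_w hp, hS.norm_n hp, hS.n_tg hp, h2, inner_add_right,
        inner_smul_right] <;> field_simp <;> ring
    · rw [closure_prod_eq, closure_Ioi]
      exact ⟨subset_closure hp, self_mem_Ici⟩
  obtain ⟨L, v, r₀, c⟩ := exists_cht grf hS hp
  have hg := hf.comp c.smX
  have hd := hg.differentiable (by simp)
  have h0 := c.grad0 (hf.differentiable (by simp) p)
  have h1 := ((smooth_gradient hg).differentiable (by simp) 0).hasFDerivAt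
  have h2 := c.dt_hs (hf.of_le two_le) ▸ h.2
  obtain ⟨h3, h4⟩ := cayley (hess_symm (hg.of_le two_le).contDiffAt (y := 0))
  rw [h.1.2, map_zero] at h0
  rcases (h3 h2).lt_or_gt with t | t
  · refine .inl (top_one c (strict_max hd h0 h1 (div_pos h2 (neg_pos.2 t)) fun a => ?_))
    rw [div_neg, neg_neg, div_mul_eq_mul_div, le_div_iff_of_neg t, mul_comm _ (trc _)]
    exact h4 a
  · have e : gradient (-f ∘ gX p (S.n p) L v) = -gradient (f ∘ gX p (S.n p) L v) := by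
      ext1 y
      rw [gradient, fderiv_neg, map_neg]
      rfl
    have := top_one c (f := -f) (strict_max hd.neg ((congrFun e 0).trans (neg_eq_zero.2 h0)) (e ▸ h1.neg) (div_pos h2 t) fun a => by
        rw [neg_apply, inner_neg_left, neg_mul, neg_le_neg_iff, div_mul_eq_mul_div, div_le_iff₀' t]
        exact h4 a)
    rw [neg_neg] at this
    exact .inr this.symm

end Vale.Agent.P218R
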