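import Vale.Agent.P218R.Lo2A
import Vale.Agent.P218R.Base
import Vale.Agent.P218R.Cht

/-!
# P218R: row LO2, saddles
-/

open MeasureTheory Metric Filter Topology Set
open scoped ContDiff ENNReal RealInnerProductSpace
open Vale.Agent.P366.Stmt (E)
open Vale.Agent.P366W

noncomputable section

namespace Vale.Agent.P218R

namespace Lo2

theorem gram {n a b : E3} (hn : ⟪n, n⟫ = 1) (ha : ⟪n, a⟫ = 0) (hb : ⟪n, b⟫ = 0) (u w : E3) :
    ⟪n, cr a b⟫ * ⟪n, cr u w⟫ = ⟪u, a⟫ * ⟪w, b⟫ - ⟪u, b⟫ * ⟪w, a⟫ := by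
  have : ⟪n, cr a b⟫ * ⟪n, cr u w⟫ = ⟪n, n⟫ * (⟪u, a⟫ * ⟪w, b⟫ - ⟪u, b⟫ * ⟪w, a⟫) -
      ⟪n, a⟫ * (⟪n, u⟫ * ⟪w, b⟫ - ⟪n, w⟫ * ⟪u, b⟫) +
      ⟪n, b⟫ * (⟪n, u⟫ * ⟪w, a⟫ - ⟪n, w⟫ * ⟪u, a⟫) := by
    simp only [inner3, cr0, cr1, cr2]
    ring
  rw [this, hn, ha, hb]
  ring

theorem frame {N : E 2 →L[ℝ] E 2} (sy : ∀ a b, ⟪N a, b⟫ = ⟪a, N b⟫) (h : d2 N < 0) :
    ∃ (u w : E 2) (A B : ℝ), 0 < A ∧ 0 < B ∧ ⟪u, u⟫ = A ∧ ⟪w, w⟫ = B ∧ ⟪u, w⟫ = 0 ∧
      ⟪N u, u⟫ = 1 ∧ ⟪N w, w⟫ = -1 ∧ ⟪N u, w⟫ = 0 ∧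
      ∀ y, (⟪u, y⟫ / A) • u + (⟪w, y⟫ / B) • w = y := by
  have e : N (EuclideanSpace.single 1 1) 0 = N (EuclideanSpace.single 0 1) 1 := by
    simpa [EuclideanSpace.inner_single_left, EuclideanSpace.inner_single_right] using
      sy (EuclideanSpace.single 1 1) (EuclideanSpace.single 0 1)
  rw [d2, e] at h
  obtain ⟨c, s, α, β, h1, h2, h3, h4, h5, h6⟩ := diag h
  refine ⟨!₂[α * c, α * s], !₂[-(β * s), β * c], α ^ 2 * (c ^ 2 + s ^ 2), β ^ 2 * (c ^ 2 + s ^ 2),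
    by positivity, by positivity, ?_, ?_, ?_, ?_, ?_, ?_, fun y => ?_⟩
  iterate 3
    simp only [inner_eq_sum, Fin.sum_univ_two, Matrix.cons_val_zero, Matrix.cons_val_one]
    ring
  · rw [inner_eq_sum, Fin.sum_univ_two, apply_two N _ 0, apply_two N _ 1, e]
    simp only [Matrix.cons_val_zero, Matrix.cons_val_one]
    linear_combination h5
  · rw [inner_eq_sum, Fin.sum_univ_two, apply_two N _ 0, apply_two N _ 1, e]
    simp only [Matrix.cons_val_zero, Matrix.cons_val_one]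
    linear_combination h6
  · rw [inner_eq_sum, Fin.sum_univ_two, apply_two N _ 0, apply_two N _ 1, e]
    simp only [Matrix.cons_val_zero, Matrix.cons_val_one]
    linear_combination α * β * h4
  · ext i
    fin_cases i <;> simp [inner_eq_sum, Fin.sum_univ_two] <;> field_simp <;> ring

theorem approx {Y : E 2 → E 2} {M : E 2 →L[ℝ] E 2} (h : HasFDerivAt Y M 0) (h0 : Y 0 = 0)
    (u w t : E 2) {ε : ℝ} (hε : 0 < ε) : ∀ᶠ z : ℝ × ℝ in 𝓝 0,
      |⟪Y (z.1 • u + z.2 • w), t⟫ - (z.1 * ⟪M u, t⟫ + z.2 * ⟪M w, t⟫)| ≤ ε * max |z.1| |z.2| := by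
  let T : ℝ × ℝ →L[ℝ] E 2 := (ContinuousLinearMap.fst ℝ ℝ ℝ).smulRight u +
    (ContinuousLinearMap.snd ℝ ℝ ℝ).smulRight w
  have h1 : HasFDerivAt Y M (T 0) := by rwa [map_zero]
  have h2 := ((innerSL ℝ t).hasFDerivAt.comp (0 : ℝ × ℝ) (h1.comp 0 T.hasFDerivAt)).isLittleO.def hε
  refine h2.mono fun z hz => ?_
  simpa [T, h0, Prod.norm_def, real_inner_comm t, inner_add_right, inner_smul_right] using hz

theorem grad_dq (p q : E3) : gradient (dq p) q = q - p := by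
  refine ext_inner_right ℝ fun a => ?_
  have := (((hasFDerivAt_id q).sub_const p).norm_sq.mul_const (2 : ℝ)⁻¹).fderiv
  rw [inner_grad, show dq p = fun x => ‖id x - p‖ ^ 2 * 2⁻¹ from rfl, this]
  simp [inner_sub_left]

theorem sm_dq (p : E3) : ContDiff ℝ 2 (dq p) :=
  ((contDiff_id.sub contDiff_const).norm_sq ℝ).div_const _

theorem ex_box {P : ℝ × ℝ → Prop} (h : ∀ᶠ z in 𝓝 0, P z) : ∃ d > 0, ∀ z ∈ box d, P z := by
  obtain ⟨d, d0, hd⟩ := Metric.eventually_nhds_iff.1 h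
  exact ⟨d, d0, fun z hz => hd (by simpa [Prod.norm_def, box] using hz)⟩

theorem ex_sign {t : ℝ} (h : t ≠ 0) : ∃ σ : ℝ, σ * σ = 1 ∧ σ * t < 0 := by
  rcases h.lt_or_gt with h | h
  exacts [⟨1, by norm_num, by linarith⟩, ⟨-1, by norm_num, by linarith⟩]

end Lo2

open Lo2 in
/-- **row LO2** -/
theorem lo2 (grf : GRF) : LO2 := by
  intro S f p hS hf hp
  obtain ⟨L, v, r₀, c⟩ := exists_cht grf hS hp.1.1
  have f2 : ContDiff ℝ 2 f := hf.of_le two_le
  set X := gX p (S.n p) L v with hX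
  have sg : ContDiff ℝ ∞ (f ∘ X) := hf.comp c.smX
  have hN := ((smooth_gradient sg).differentiable (by simp) 0).hasFDerivAt
  have g0 : gradient (f ∘ X) 0 = 0 := by
    rw [c.grad0 (hf.differentiable (by simp) p), hp.1.2, map_zero]
  obtain ⟨u, w, A, B, hA, hB, uu, ww, uw, n1, n2, n3, dec⟩ :=
    frame (hess_symm (sg.of_le two_le).contDiffAt) (c.dt_hs f2 ▸ hp.2)
  have n4 : ⟪fderiv ℝ (gradient (f ∘ X)) 0 w, u⟫ = 0 := by
    rw [hess_symm (sg.of_le two_le).contDiffAt, real_inner_comm, n3]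
  have wu : ⟪w, u⟫ = 0 := by rw [real_inner_comm, uw]
  have hD : HasFDerivAt (gradient (dq p ∘ X)) (ContinuousLinearMap.id ℝ _) 0 := by
    refine (c.hess (sm_dq p)).congr_fderiv ?_
    ext1 a
    have e : gradient (dq p) = fun q => q - p := funext (grad_dq p)
    simp [hS.hs_eq c.mem (sm_dq p).contDiffAt, e, fderiv_sub_const, Srf.P_tan (c.fr.ort a), adj_L]
  have d0 : gradient (dq p ∘ X) 0 = 0 := by
    rw [c.grad0 ((sm_dq p).differentiable (by simp) p), Srf.tg, grad_dq, sub_self, map_zero,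
      map_zero]
  set τ : E 2 → E 2 → E3 := fun a y => L a + ⟪gradient v y, a⟫ • S.n p with hτ
  set lam : E 2 → ℝ := fun y => ⟪S.n (X y), cr (τ u y) (τ w y)⟫ with hlam
  have cv := (smooth_gradient c.sm).continuous
  have cl : Continuous lam := (hS.sn.continuous.comp c.smX.continuous).inner
    (continuous_cr (by fun_prop) (by fun_prop))
  have r0 : ‖(0 : E 2)‖ < r₀ := by simpa using c.pos
  obtain ⟨σ, hσ, l0⟩ := ex_sign (t := lam 0) fun e => by
    have := gram (hS.nn (c.w_X r0)) (c.tan r0 u) (c.tan r0 w) (τ u 0) (τ w 0)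
    change lam 0 * lam 0 = _ at this
    simp only [e, hτ, c.g0, inner_zero_left, zero_smul, add_zero, L.inner_map_map, uu, ww,
      uw] at this
    linarith [mul_pos hA hB]
  have cT : Tendsto (fun z : ℝ × ℝ => z.1 • u + z.2 • w) (𝓝 0) (𝓝 0) :=
    Continuous.tendsto' (by fun_prop) _ _ (by simp)
  refine ⟨fun q => ⟪u, adj L (q - p)⟫ / A, fun q => σ * (⟪w, adj L (q - p)⟫ / B), by fun_prop,
    by fun_prop, fun U hU => ?_⟩
  have AB : 0 < (A + B) / 20 := by positivity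
  obtain ⟨d, dp, hd⟩ := ex_box ((cT.eventually (c.near.and ((c.tendsto_X.eventually hU).and
    (cl.continuousAt.eventually ((continuous_const_mul σ).continuousAt.eventually
      (gt_mem_nhds l0)))))).and (((approx hN g0 u w u (by norm_num : (0 : ℝ) < 1 / 10)).and
        (approx hN g0 u w w (by norm_num : (0 : ℝ) < 1 / 10))).and
          ((approx hD d0 u w u AB).and (approx hD d0 u w w AB))))
  simp only [n1, n2, n3, n4, ContinuousLinearMap.id_apply, uu, ww, uw, wu, mul_zero, add_zero,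
    zero_add, mul_one, mul_neg, sub_neg_eq_add] at hd
  set Φ : ℝ × ℝ → E3 := fun z => X (z.1 • u + z.2 • w) with hΦ
  have cΦ : Continuous Φ := c.smX.continuous.comp (by fun_prop)
  have dg := sg.differentiable (by simp)
  have sd : Sdl (fun x y => f (Φ (x, y)) - f p) (fun x y => ⟪gradient (f ∘ X) (x • u + y • w), u⟫)
      (fun x y => ⟪gradient (f ∘ X) (x • u + y • w), w⟫) d :=
    { k0 := by simp [hΦ, hX, c.X0]
      da := fun x y => by
        rw [inner_grad]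
        simpa using! ((dg (x • u + y • w)).hasFDerivAt.comp_hasDerivAt x
          (((hasDerivAt_id x).smul_const u).add_const (y • w))).sub_const (f p)
      db := fun x y => by
        rw [inner_grad]
        simpa using! ((dg (x • u + y • w)).hasFDerivAt.comp_hasDerivAt y
          (((hasDerivAt_id y).smul_const w).const_add (x • u))).sub_const (f p)
      ea := fun x y hx hy => (hd (x, y) ⟨hx, hy⟩).2.1.1.trans_eq (by ring)
      eb := fun x y hx hy => (hd (x, y) ⟨hx, hy⟩).2.1.2.trans_eq (by ring) }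
  have p1 : ∀ z, ⟪u, adj L (Φ z - p)⟫ / A = z.1 := fun z => by
    rw [hΦ, hX, adj_gX c.fr]
    rw [inner_add_right, real_inner_smul_right, real_inner_smul_right, uu, uw, mul_zero, add_zero,
      mul_div_cancel_right₀ _ hA.ne']
  have p2 : ∀ z, ⟪w, adj L (Φ z - p)⟫ / B = z.2 := fun z => by
    rw [hΦ, hX, adj_gX c.fr]
    rw [inner_add_right, real_inner_smul_right, real_inner_smul_right, ww, wu, mul_zero, zero_add,
      mul_div_cancel_right₀ _ hB.ne']
  have VG : (U \ S.G ∪ Φ '' box d) ∩ S.G = Φ '' box d := by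
    refine subset_antisymm (fun q hq => hq.1.resolve_left fun a => a.2 hq.2) ?_
    rintro _ ⟨z, hz, rfl⟩
    exact ⟨.inr ⟨z, hz, rfl⟩, c.w_X (hd z hz).1.1⟩
  have im : ∀ R : E3 → Prop, Φ '' box d ∩ {q | R q} = Φ '' {z ∈ box d | R (Φ z)} := fun R =>
    (image_inter_preimage Φ (box d) {q | R q}).symm
  refine ⟨U \ S.G ∪ Φ '' box d, ?_, union_subset sdiff_subset ?_, ?_⟩
  · have a1 : ContinuousAt (fun q => |⟪u, adj L (q - p)⟫ / A|) p := by fun_prop
    have a2 : ContinuousAt (fun q => |⟪w, adj L (q - p)⟫ / B|) p := by fun_prop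
    filter_upwards [hU, c.eq_X_near, a1.eventually (gt_mem_nhds (by simpa using dp)),
      a2.eventually (gt_mem_nhds (by simpa using dp))] with q b1 b2 b3 b4
    by_cases hq : q ∈ S.G
    · exact .inr ⟨(_, _), ⟨b3, b4⟩, by simp only [hΦ, dec]; exact b2 hq⟩
    · exact .inl ⟨b1, hq⟩
  · rintro _ ⟨z, hz, rfl⟩
    exact (hd z hz).1.2.1
  rw [VG]
  simp only [im, p1, p2]
  refine ⟨?_, ?_, ?_, ?_, ?_, ?_⟩
  · simpa using (sd.conn dp (one_mul 1)).image Φ cΦ.continuousOn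
  · simpa using (sd.conn dp (σ := -1) (by norm_num)).image Φ cΦ.continuousOn
  · simpa using (sd.conn' dp hσ).image Φ cΦ.continuousOn
  · simpa using (sd.conn' dp (σ := -σ) (by simpa using hσ)).image Φ cΦ.continuousOn
  · rintro _ ⟨⟨x, y⟩, hz, rfl⟩
    simp only [p1, p2]
    refine ⟨fun a b => ?_, fun a b => ?_, fun a b => ?_⟩
    · subst b
      linarith [sd.ne hz.2]
    · obtain rfl : y = 0 := (mul_eq_zero.1 b).resolve_left (left_ne_zero_of_mul (hσ ▸ one_ne_zero))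
      linarith [sd.swap.ne hz.1]
    · obtain ⟨⟨h1, -, h2⟩, -, h3, h4⟩ := hd (x, y) hz
      have j := sd.jac hz.1 hz.2 (sub_eq_zero.2 a) (fun e => b (by simp [e, hΦ, hX, c.X0])) hA hB
        (by rw [mul_comm A]; exact h3) (by rw [mul_comm B]; exact h4)
      have e := gram (hS.nn (c.w_X h1)) (c.tan h1 u) (c.tan h1 w) (S.tg (dq p) (Φ (x, y)))
        (S.tg f (Φ (x, y)))
      rw [← c.grad h1 (hf.differentiable (by simp) _), ← c.grad h1 (hf.differentiable (by simp) _),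
        ← c.grad h1 ((sm_dq p).differentiable (by simp) _),
        ← c.grad h1 ((sm_dq p).differentiable (by simp) _), ← Srf.br_eq] at e
      rw [← e] at j
      change x * y * (lam (x • u + y • w) * S.br (dq p) f (Φ (x, y))) < 0 at j
      generalize lam (x • u + y • w) = l at j h2
      generalize S.br (dq p) f (Φ (x, y)) = t at j ⊢
      refine pos_of_mul_neg_left (a := x * (σ * y) * t) (b := σ * l) ?_ h2.le
      calc _ = σ * σ * (x * y * (l * t)) := by ring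
        _ < 0 := by rwa [hσ, one_mul]
  · obtain ⟨z, hz, a1, a2, a3⟩ := sd.pt dp hσ
    refine ⟨Φ z, ⟨z, hz, rfl⟩, sub_eq_zero.1 a1, by rwa [p1], by rwa [p2], fun e => ?_⟩
    have := p1 z
    rw [e] at this
    simp at this
    linarith

end Vale.Agent.P218R
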