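import Vale.Agent.P218R.Base

/-!
# P218R: rows LOC and TF
-/

open MeasureTheory Metric Filter Topology Set
open scoped ContDiff ENNReal RealInnerProductSpace
open Vale.Agent.P366W (trc Fr)
open Vale.Agent.P218 (limitSet WeakTendsto)
open Vale.Agent.P218.H552 (NN ext)

noncomputable section

namespace Vale.Agent.P218R

namespace Loc

theorem gs_ext (κ : Measure E3) {s ρ : ℝ} (hs : s < 0) (p : E3) :
    gs (ext 2 κ s) (√(-s) • p) (√(-s) * ρ) = gs κ p ρ := by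
  have h : √(-s) ≠ 0 := (Real.sqrt_pos.2 (neg_pos.2 hs)).ne'
  rw [gs, gs, P218.H552.integral_ext 2 κ hs, ← mul_assoc]
  congr 1
  · by_cases c : ρ = 0
    · simp [c]
    · field_simp
  · refine integral_congr_ae (.of_forall fun y => congrArg Real.exp ?_)
    rw [← smul_sub, norm_smul, mul_pow, mul_pow, Real.norm_eq_abs, sq_abs, ← mul_neg,
      mul_left_comm, mul_div_mul_left _ _ (pow_ne_zero 2 h)]

theorem early {τ : ℕ → ℝ} (hτ : Tendsto τ atTop atTop) {a b s : ℝ} (hab : a < b) (hs : s < 0) :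
    ∀ᶠ i in atTop, s ∈ Ioo (Real.exp (τ i) ^ 2 * (a - b)) (Real.exp (τ i) ^ 2 * (b - b)) := by
  filter_upwards [(((tendsto_pow_atTop two_ne_zero).comp (Real.tendsto_exp_atTop.comp
    hτ)).atTop_mul_const_of_neg (sub_neg.2 hab)).eventually_lt_atBot s] with i hi
  exact ⟨hi, by rwa [sub_self, mul_zero]⟩

variable {μ : Measure E3} [IsLocallyFiniteMeasure μ] {g ψ : E3 → ℝ} {B K : Set E3}

theorem int_on (hg : Continuous g) (hK : IsCompact K) (hB : MeasurableSet B) (h : B ⊆ K) :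
    Integrable (B.indicator g) μ :=
  (integrable_indicator_iff hB).2 ((hg.continuousOn.integrableOn_compact hK).mono_set h)

theorem int_cut (hg : Continuous g) (hK : IsCompact K) (hψ : Continuous ψ)
    (h : ∀ x ∉ K, ψ x = 0) : Integrable (fun x => ψ x * g x) μ :=
  (hψ.mul hg).integrable_of_hasCompactSupport (HasCompactSupport.intro hK h).mul_right

theorem cut_le (hg : Continuous g) (h0 : ∀ᵐ x ∂μ, 0 ≤ g x) (hK : IsCompact K)
    (hB : MeasurableSet B) (h : B ⊆ K) (hψ : Continuous ψ) (h1 : ∀ x, ψ x ≤ 1)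
    (h2 : ∀ x ∉ B, ψ x = 0) : ∫ x, ψ x * g x ∂μ ≤ ∫ x in B, g x ∂μ := by
  rw [← integral_indicator hB]
  refine integral_mono_ae (int_cut hg hK hψ fun x hx => h2 x (mt (@h x) hx)) (int_on hg hK hB h)
    (h0.mono fun x hx => ?_)
  by_cases c : x ∈ B
  · simpa [c] using mul_le_of_le_one_left hx (h1 x)
  · simp [c, h2 x c]

theorem le_cut (hg : Continuous g) (h0 : ∀ x, 0 ≤ g x) (hK : IsCompact K)
    (hB : MeasurableSet B) (h : B ⊆ K) (hψ : Continuous ψ) (h1 : ∀ x, 0 ≤ ψ x)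
    (h2 : ∀ x ∈ B, ψ x = 1) (h3 : ∀ x ∉ K, ψ x = 0) : ∫ x in B, g x ∂μ ≤ ∫ x, ψ x * g x ∂μ := by
  rw [← integral_indicator hB]
  refine integral_mono (int_on hg hK hB h) (int_cut hg hK hψ h3) fun x => ?_
  by_cases c : x ∈ B
  · simp [c, h2 x c]
  · simpa [c] using mul_nonneg (h1 x) (h0 x)

theorem cut_lim (hg : Continuous g) (hK : IsCompact K) (hB : MeasurableSet B) {ψ : ℕ → E3 → ℝ}
    (hψ : ∀ n, Continuous (ψ n)) (h1 : ∀ n x, 0 ≤ ψ n x ∧ ψ n x ≤ 1) (h2 : ∀ n, ∀ x ∉ K, ψ n x = 0)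
    (h3 : ∀ x, ∀ᶠ n in atTop, ψ n x = B.indicator 1 x) :
    Tendsto (fun n => ∫ x, ψ n x * g x ∂μ) atTop (𝓝 (∫ x in B, g x ∂μ)) := by
  rw [← integral_indicator hB]
  refine tendsto_integral_of_dominated_convergence _
    (fun n => ((hψ n).mul hg).aestronglyMeasurable) (int_on hg.norm hK hK.measurableSet le_rfl)
    (fun n => .of_forall fun x => ?_) (.of_forall fun x => tendsto_const_nhds.congr'
      ((h3 x).mono fun n hn => ?_))
  · by_cases c : x ∈ K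
    · rw [indicator_of_mem c, norm_mul, Real.norm_of_nonneg (h1 n x).1]
      exact mul_le_of_le_one_left (norm_nonneg _) (h1 n x).2
    · simp [c, h2 n x c]
  · by_cases c : x ∈ B <;> simp [c, hn]

/-- cutoff functions -/
def ct (c : ℝ) (y : E3) (R : ℝ) (n : ℕ) (x : E3) : ℝ :=
  max 0 (min 1 (c + (n + 1) * (R - dist x y)))

variable {c R : ℝ} {y x : E3} {n : ℕ}

theorem ct_cont : Continuous (ct c y R n) := by unfold ct; fun_prop

theorem ct_mem : 0 ≤ ct c y R n x ∧ ct c y R n x ≤ 1 :=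
  ⟨le_max_left _ _, max_le zero_le_one (min_le_left _ _)⟩

theorem ct_zero (h : c + (n + 1) * (R - dist x y) ≤ 0) : ct c y R n x = 0 :=
  max_eq_left ((min_le_right _ _).trans h)

theorem ct_one (h : 1 ≤ c + (n + 1) * (R - dist x y)) : ct c y R n x = 1 := by
  rw [ct, min_eq_left h, max_eq_right zero_le_one]

theorem ct_out (hc : c ≤ 1) (x : E3) (h : x ∉ closedBall y (R + 1)) : ct c y R n x = 0 :=
  ct_zero (by nlinarith [not_le.1 (mt mem_closedBall.2 h), Nat.cast_nonneg (α := ℝ) n])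

theorem ct_in (x : E3) (h : x ∈ closedBall y R) : ct 1 y R n x = 1 :=
  ct_one (le_add_of_nonneg_right (mul_nonneg (by positivity) (sub_nonneg.2 h)))

theorem ct_off (x : E3) (h : x ∉ ball y R) : ct 0 y R n x = 0 :=
  ct_zero (by nlinarith [not_lt.1 (mt mem_ball.2 h), Nat.cast_nonneg (α := ℝ) n])

theorem big {d : ℝ} (h : 0 < d) : ∀ᶠ n : ℕ in atTop, 1 ≤ (n + 1) * d :=
  ((tendsto_atTop_add_const_right _ 1 tendsto_natCast_atTop_atTop).atTop_mul_const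
    h).eventually_ge_atTop 1

theorem ct_ball (x : E3) : ∀ᶠ n in atTop, ct 0 y R n x = (ball y R).indicator 1 x := by
  by_cases h : x ∈ ball y R
  · exact (big (sub_pos.2 h)).mono fun n hn => by
      rw [ct_one (by rwa [zero_add]), indicator_of_mem h, Pi.one_apply]
  · exact .of_forall fun n => by rw [ct_off x h, indicator_of_notMem h]

theorem ct_cball (x : E3) : ∀ᶠ n in atTop, ct 1 y R n x = (closedBall y R).indicator 1 x := by
  by_cases h : x ∈ closedBall y R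
  · exact .of_forall fun n => by rw [ct_in x h, indicator_of_mem h, Pi.one_apply]
  · exact (big (sub_pos.2 (not_le.1 (mt mem_closedBall.2 h)))).mono fun n hn => by
      rw [ct_zero (by linarith), indicator_of_notMem h]

theorem arith {η ρ n l r q d : ℝ} (h0 : 0 < η) (h1 : η ≤ 1 / 2) (r0 : 0 < ρ) (n0 : 0 ≤ n)
    (r2 : ρ * (2 * (n + 1)) < η) (l1 : 1 ≤ l) (l2 : l ≤ 1 + ρ ^ 2) (hr : r = η * ρ / 10)
    (q1 : ρ - r ≤ q) (q2 : q ≤ ρ + r) (a2 : d ≤ 2 * r + ρ ^ 2 * n) :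
    d + |q - l * ρ| ≤ η * (l * ρ) ∧ l * ρ ≤ 2 * q ∧ q ≤ 2 * (l * ρ) ∧ d ≤ l * ρ := by
  have r4 : 20 * r ≤ ρ := by nlinarith
  have r5 : ρ ≤ 1 / 4 := by nlinarith
  have b1 : ρ ≤ l * ρ := le_mul_of_one_le_left r0.le l1
  have b2 : l * ρ ≤ ρ + ρ ^ 2 := by nlinarith [mul_le_mul_of_nonneg_right l2 r0.le]
  have b3 := mul_lt_mul_of_pos_left r2 r0
  have b4 := mul_le_mul_of_nonneg_left b1 h0.le
  have b5 := mul_pos h0 r0
  have a3 : |q - l * ρ| ≤ r + ρ ^ 2 := abs_le.2 ⟨by linarith, by nlinarith⟩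
  have a4 : d + |q - l * ρ| ≤ η * (l * ρ) := by nlinarith
  exact ⟨a4, by nlinarith, by linarith, by nlinarith [abs_nonneg (q - l * ρ)]⟩

theorem step (hui : HUI) {F : Flw} {a Λ K η ρ l r t : ℝ} {p z : E3} (K0 : 0 ≤ K)
    (g1 : ∀ x' ρ', l * ρ ≤ 2 * ρ' → ρ' ≤ 2 * (l * ρ) → ‖x' - l • p‖ ≤ l * ρ →
      |gs (F.μ (-(1 + ρ ^ 2))) x' ρ' - gs (F.μ (-(1 + ρ ^ 2))) (l • p) (l * ρ)| ≤
        K * (‖x' - l • p‖ + |ρ' - l * ρ|) / (l * ρ)) (ok : F.OkA a 0 Λ) (i1 : a < -(1 + ρ ^ 2))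
    (h0 : 0 < η) (h1 : η ≤ 1 / 2) (r0 : 0 < ρ) (r2 : ρ * (2 * (‖p‖ + 1)) < η) (l1 : 1 ≤ l)
    (l2 : l ≤ 1 + ρ ^ 2) (hr : r = η * ρ / 10) (hz : z ∈ ball p (2 * r)) (t1 : r ≤ t)
    (t2 : t ≤ 2 * r) : gs (F.μ (-1 + r ^ 2 / 2 - 4 * r ^ 2)) z t ≤
      gs (F.μ (-(1 + ρ ^ 2))) (l • p) (l * ρ) + K * η := by
  have r3 : 0 < r := by rw [hr]; positivity
  have r4 : 20 * r ≤ ρ := by nlinarith
  have a1 := hui _ _ _ (-1 + r ^ 2 / 2 - 4 * r ^ 2 + t ^ 2) (-(1 + ρ ^ 2))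
    (-1 + r ^ 2 / 2 - 4 * r ^ 2) Λ z 0 ok.toOk i1 (by nlinarith) (by nlinarith) (by nlinarith)
    (fun s hs R hR => ok.ar s ⟨i1.trans_le hs.1, hs.2.trans_lt (by nlinarith)⟩ z R
      (by linarith)) continuous_const HasCompactSupport.zero (by simp)
  simp only [Pi.zero_apply, zero_mul, integral_zero, intervalIntegral.integral_zero, add_zero,
    add_sub_cancel_left, Real.sqrt_sq (r3.le.trans t1)] at a1
  obtain ⟨q, hq⟩ : ∃ q, q = √(-1 + r ^ 2 / 2 - 4 * r ^ 2 + t ^ 2 - -(1 + ρ ^ 2)) := ⟨_, rfl⟩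
  have a2 : ‖z - l • p‖ ≤ 2 * r + ρ ^ 2 * ‖p‖ := by
    rw [show z - l • p = z - p - (l - 1) • p by module]
    refine (norm_sub_le _ _).trans (add_le_add (mem_ball_iff_norm.1 hz).le ?_)
    rw [norm_smul, Real.norm_of_nonneg (by linarith)]
    gcongr
    linarith
  obtain ⟨a4, a5, a6, a7⟩ := arith h0 h1 r0 (norm_nonneg p) r2 l1 l2 hr
    (hq ▸ Real.le_sqrt_of_sq_le (by nlinarith) : ρ - r ≤ q)
    (hq ▸ Real.sqrt_le_iff.2 ⟨by positivity, by nlinarith⟩) a2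
  have a8 : K * (‖z - l • p‖ + |q - l * ρ|) / (l * ρ) ≤ K * η := by
    rw [div_le_iff₀ (by positivity), mul_assoc]
    gcongr
  rw [← hq] at a1
  linarith [(abs_le.1 (g1 z q a5 a6 a7)).2]

end Loc

open Loc

theorem loc (wh : WH) (hui : HUI) (slw : SLW) (gsl : GSL) (rsc : RSC) : LOC := fun Λ => by
  obtain ⟨ε, e0, wh⟩ := wh Λ
  refine ⟨ε / 3, by positivity, fun σ s0 => ?_⟩
  obtain ⟨c, c0, C, c1, c2, wh⟩ := wh σ s0
  refine ⟨C, c1, c2, fun F a b x₀ p τ κ hab hF hκ hτ hw hd => ?_⟩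
  obtain ⟨⟨K, K0, g1⟩, g2⟩ := gsl
  have L0 := le_max_right Λ 0
  obtain ⟨η, h0, h1, h2⟩ : ∃ η, 0 < η ∧ η ≤ 1 / 2 ∧ K * max Λ 0 * η ≤ ε / 3 :=
    ⟨min (1 / 2) (ε / 3 / (K * max Λ 0 + 1)), by positivity, min_le_left _ _, by
      have := (le_div_iff₀' (by positivity)).1 (min_le_right (1 / 2) (ε / 3 / (K * max Λ 0 + 1)))
      have : 0 < min (1 / 2) (ε / 3 / (K * max Λ 0 + 1)) := by positivity
      linarith⟩
  obtain ⟨ρ, r1, r0, r2⟩ := (hd.and_eventually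
    (Ioo_mem_nhdsGT (show 0 < η / (2 * (‖p‖ + 1)) by positivity))).exists
  rw [lt_div_iff₀ (by positivity)] at r2
  have n0 := norm_nonneg p
  have s1 : -(1 + ρ ^ 2) < 0 := by nlinarith
  have ok := fun i => ((rsc.2.2 F a b b _ x₀ (Real.exp_pos (τ i))).2.2.1 Λ hF)
  have l1 : 1 ≤ √(-(-(1 + ρ ^ 2))) := Real.one_le_sqrt.2 (by nlinarith)
  have l2 : √(-(-(1 + ρ ^ 2))) ≤ 1 + ρ ^ 2 := Real.sqrt_le_iff.2 ⟨by positivity, by nlinarith⟩
  have lim := (g2 ℕ atTop Λ _ _ (P218.H552.locFin_ext 2 κ s1) ((early hτ hab s1).mono fun i hi =>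
    (ok i).ar _ hi) (((slw F a b Λ x₀ hab hF).2 τ κ hτ hw).1 _ s1)).2
      (√(-(-(1 + ρ ^ 2))) • p) (√(-(-(1 + ρ ^ 2))) * ρ) (by positivity)
  rw [gs_ext κ s1] at lim
  generalize √(-(-(1 + ρ ^ 2))) = l at l1 l2 lim
  obtain ⟨r, hr⟩ : ∃ r, r = η * ρ / 10 := ⟨_, rfl⟩
  have r3 : 0 < r := by rw [hr]; positivity
  have r4 : 20 * r ≤ ρ := by nlinarith
  have r5 : ρ ≤ 1 := by nlinarith
  refine ⟨r, r3, c * r, by positivity, ?_⟩
  filter_upwards [early hτ hab s1, lim.eventually_lt_const (show _ < 1 + 2 * (ε / 3) by linarith)]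
    with i ⟨i1, _⟩ i3 y hy hy'
  refine (wh _ _ _ (-1 + r ^ 2 / 2) r p (ok i) r3 (by nlinarith)
    (by rw [sub_self, mul_zero]; nlinarith) (fun z hz t ⟨t1, t2⟩ => ?_) (-1)
    ⟨by nlinarith, by nlinarith⟩ y hy hy').imp fun L h =>
      ⟨h.1, h.2 _ ⟨by nlinarith [mul_pos c0 r3], le_rfl⟩⟩
  simp only [sub_self, mul_zero] at ok
  linarith [step hui (mul_nonneg K0.le L0) (g1 _ _ L0 (((ok i).ar _ ⟨i1, s1⟩).mono (le_max_left _ _)) (l • p) (l * ρ)
    (by positivity)).2.2 (ok i) i1 h0 h1 r0 r2 l1 l2 hr hz t1 t2]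

theorem tf (den : DEN) (lo : LOC) (lim : LIM) (slw : SLW) (gsl : GSL) (low : LOW) (rsc : RSC) :
    TF := by
  rintro F a b Λ G x₀ κ hab hF ⟨hκ, τ, hτ, hw⟩
  obtain ⟨σ, h1, h2, h3⟩ := ((slw F a b Λ x₀ hab hF.toOkA).2 τ κ hτ hw).2
  have hσ : Tendsto σ atTop atTop := tendsto_atTop_mono (fun i => (h1 i).1) hτ
  have ok : ∀ᶠ i in atTop, (F.rsl x₀ b (σ i)).Ok ∧ AR Λ (F.rsl x₀ b (σ i)).μ ∧
      (F.rsl x₀ b (σ i)).GBd G := (early hσ hab neg_one_lt_zero).mono fun i hi =>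
    have := (rsc.2.2 F a b b _ x₀ (Real.exp_pos (σ i))).2.2.2 Λ G hF
    ⟨this.sl hi, this.ar _ hi, this.gb _ hi⟩
  obtain ⟨ε, e0, lo⟩ := lo Λ
  obtain ⟨C, c0, c1, lo⟩ := lo (1 / 10) (by norm_num)
  obtain ⟨T, hT, rfl, cv⟩ := lim ℕ atTop (fun i => F.rsl x₀ b (σ i)) κ hκ (ok.mono fun _ h => h.1)
    (fun p => by
      obtain ⟨δ, d0, r, r0, h⟩ := lo F a b x₀ p σ κ hab hF.toOkA hκ hσ
        (by simpa only [NN, ← (rsc.2.2 F a b b _ x₀ (Real.exp_pos _)).1] using! h2)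
        (den F a b Λ G x₀ κ hab hF ⟨hκ, τ, hτ, hw⟩ p ε e0)
      exact ⟨δ, d0, r, r0, C, c0, c1, h⟩) h2
  have ct' := P366W.continuous_trc (N := 3)
  refine ⟨T, ⟨hT, fun p hp => by_contra fun hne => ?_,
    (gsl.2 ℕ atTop Λ _ _ hκ (ok.mono fun _ h => h.2.1) h2).1, fun y r r0 => ?_⟩, rfl⟩
  · have hK := isCompact_closedBall (0 : E3) (‖p‖ + 2)
    have o : ∀ x ∉ closedBall 0 (‖p‖ + 2), ct 1 p 1 0 x = 0 := fun x hx => ct_out le_rfl x
      (mt (fun h => closedBall_subset_closedBall' (by rw [dist_zero_right]; linarith) h) hx)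
    have c2 := hT.sφ.continuous.pow 2
    have n0 : ∀ x, 0 ≤ ct 1 p 1 0 x * T.φ x ^ 2 := fun x => mul_nonneg ct_mem.1 (sq_nonneg _)
    have z := (integral_eq_zero_iff_of_nonneg n0 (int_cut c2 hK ct_cont o)).1 (le_antisymm
      (le_of_tendsto_of_tendsto (cv (fun q => ct 1 p 1 0 q.1 * (trc q.2.2 - ⟪q.1, q.2.1⟫ / 2) ^ 2)
        _ ((ct_cont.comp continuous_fst).mul (by fun_prop)) hK (fun x hx q => by simp [o x hx])
        fun x n A => by simp only [trc_neg, inner_neg_right]; ring) (h3 (‖p‖ + 2))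
        (ok.mono fun i h => have := h.2.1.fin; cut_le (h.1.sφ.continuous.pow 2)
          (.of_forall fun _ => sq_nonneg _) hK hK.measurableSet le_rfl ct_cont (fun _ => ct_mem.2) o))
      (integral_nonneg n0))
    obtain ⟨δ, d0, hδ⟩ := Metric.eventually_nhds_iff_ball.1
      (((ct_cont (c := 1) (y := p) (R := 1) (n := 0)).mul c2).continuousAt.eventually_ne
        (show ct 1 p 1 0 p * T.φ p ^ 2 ≠ 0 by simp [ct_in, hne]))
    obtain ⟨r, r1, r2, r3⟩ := (((low T hT).2 p hp 1 (by linarith [Real.pi_gt_three])).and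
      (Ioo_mem_nhdsGT d0)).exists
    rw [measure_mono_null (fun x hx => hδ x (ball_subset_ball r3.le hx)) z] at r1
    exact absurd r1 (not_le.2 (ENNReal.ofReal_pos.2 (by positivity)))
  · obtain ⟨i, hi⟩ := ok.exists
    have G0 := hi.2.2.nonneg hi.1
    have k1 := isCompact_closedBall y (r + 1)
    have k2 := isCompact_closedBall y (20 * r + 1)
    refine le_of_tendsto_of_tendsto' (cut_lim hT.sA2.continuous k1 measurableSet_ball
      (fun _ => ct_cont) (fun _ _ => ct_mem) (fun _ => ct_out zero_le_one) ct_ball)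
      (((cut_lim (hT.sH.continuous.pow 2) k2 measurableSet_closedBall (fun _ => ct_cont)
        (fun _ _ => ct_mem) (fun _ => ct_out le_rfl) ct_cball).const_add 1).const_mul G) fun n => ?_
    refine le_of_tendsto_of_tendsto (cv (fun q => ct 0 y r n q.1 * trc (q.2.2 ∘L q.2.2)) _
      ((ct_cont.comp continuous_fst).mul (by fun_prop)) k1
      (fun x hx q => by simp [ct_out zero_le_one x hx]) fun x n A => by simp)
      (((cv (fun q => ct 1 y (20 * r) n q.1 * trc q.2.2 ^ 2) _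
      ((ct_cont.comp continuous_fst).mul (by fun_prop)) k2
      (fun x hx q => by simp [ct_out le_rfl x hx]) fun x n A => by simp [trc_neg]).const_add
        1).const_mul G) (ok.mono fun i h => ?_)
    have := h.2.1.fin
    exact (cut_le h.1.sA2.continuous (h.1.ae.mono fun x => h.1.A2_nonneg) k1 measurableSet_ball
      (ball_subset_closedBall.trans (closedBall_subset_closedBall (by linarith))) ct_cont
      (fun _ => ct_mem.2) ct_off).trans ((h.2.2 y r r0).trans (mul_le_mul_of_nonneg_left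
        (add_le_add_right (le_cut (h.1.sH.continuous.pow 2) (fun _ => sq_nonneg _) k2
          measurableSet_closedBall (closedBall_subset_closedBall (by linarith)) ct_cont
          (fun _ => ct_mem.1) ct_in (ct_out le_rfl)) 1) G0))

end Vale.Agent.P218R
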