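import Vale.Agent.P218R.Stm

/-!
# P218R: the topological Morse inequality
-/

open Filter Topology Set

namespace Vale.Agent.P218R

namespace Mi

theorem pick {X L : Type*} [DecidableEq L] (g : X → L) (S : Finset X) :
    ∃ Q : Finset X, Q ⊆ S ∧ InjOn g Q ∧ (S.image g).card = Q.card := by
  obtain ⟨Q, q1, q2, q3⟩ := Finset.exists_subset_injOn_image_eq_of_surjOn (f := g) (S : Set X)
    (S.image g) (Finset.coe_image (f := g) (s := S) ▸ surjOn_image _ _)
  exact ⟨Q, q1, q2, by rw [← q3, Finset.card_image_of_injOn q2]⟩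

theorem merge {L ι : Type*} [DecidableEq L] (a b : ι → L) (M : Finset ι) : ∃ m : L → L,
    (∀ i ∈ M, m (a i) = m (b i)) ∧ ∀ S : Finset L, S.card ≤ (S.image m).card + M.card := by
  classical
  induction M using Finset.induction_on with
  | empty => exact ⟨id, by simp, by simp⟩
  | insert i M hi ih =>
    obtain ⟨m, h1, h2⟩ := ih
    refine ⟨fun x => if m x = m (a i) then m (b i) else m x, fun j hj => ?_, fun S => ?_⟩
    · rcases Finset.mem_insert.1 hj with rfl | hj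
      · simp
      · simp only [h1 j hj]
    · refine (h2 S).trans ?_
      rw [Finset.card_insert_of_notMem hi, ← add_assoc, add_right_comm, add_le_add_iff_right]
      refine (Finset.card_le_card fun y hy => ?_).trans (Finset.card_insert_le (m (a i)) _)
      obtain ⟨x, hx, rfl⟩ := Finset.mem_image.1 hy
      by_cases h : m x = m (a i)
      · exact h ▸ Finset.mem_insert_self _ _
      · exact Finset.mem_insert_of_mem (Finset.mem_image.2 ⟨x, hx, if_neg h⟩)

variable {X : Type*} [TopologicalSpace X] {G T Z : Set X} {f : X → ℝ} {c : ℝ}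

/-- the superlevel set -/
def up (G : Set X) (f : X → ℝ) (c : ℝ) : Set X := G ∩ {q | c < f q}

/-- points in different components of the superlevel set -/
def Sep (G : Set X) (f : X → ℝ) (c : ℝ) (Q : Finset X) : Prop :=
  (Q : Set X) ⊆ up G f c ∧ InjOn (connectedComponentIn (up G f c)) Q

theorem loc (hf : Continuous f) (hl : LC G) {x : X} (hx : x ∈ up G f c) : ∀ᶠ y in 𝓝 x, y ∈ G →
    ∀ᶠ d in 𝓝[≥] c, y ∈ connectedComponentIn (up G f d) x ∧
      x ∈ connectedComponentIn (up G f d) y := by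
  obtain ⟨e, h1, h2⟩ := exists_between (show c < f x from hx.2)
  obtain ⟨V, hV, h3, h4⟩ := hl x hx.1 _ ((isOpen_lt continuous_const hf).mem_nhds h2)
  filter_upwards [hV] with y hy hG
  filter_upwards [mem_nhdsWithin_of_mem_nhds (Iio_mem_nhds h1)] with d hd
  have s : V ∩ G ⊆ up G f d := fun z hz =>
    ⟨hz.2, (lt_trans (show d < e from hd) (show e < f z from h3 hz.1) : d < f z)⟩
  have hx' : x ∈ V ∩ G := ⟨mem_of_mem_nhds hV, hx.1⟩
  exact ⟨h4.subset_connectedComponentIn hx' s ⟨hy, hG⟩,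
    h4.subset_connectedComponentIn ⟨hy, hG⟩ s hx'⟩

theorem down (hf : Continuous f) (hl : LC G) {Q : Finset X} (h : ∃ᶠ d in 𝓝[≥] c, Sep G f d Q) :
    Sep G f c Q := by
  obtain ⟨d, h1, h2⟩ := (h.and_eventually self_mem_nhdsWithin).exists
  have s : (Q : Set X) ⊆ up G f c := fun q hq => ⟨(h1.1 hq).1, lt_of_le_of_lt h2 (h1.1 hq).2⟩
  refine ⟨s, fun p hp q hq e => ?_⟩
  have := isPreconnected_connectedComponentIn.induction₂'
    (fun x y => ∀ᶠ d in 𝓝[≥] c, y ∈ connectedComponentIn (up G f d) x) (fun x hx => ?_) ?_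
    (mem_connectedComponentIn (s hp)) (e ▸ mem_connectedComponentIn (s hq))
  · obtain ⟨d, h3, h4⟩ := (h.and_eventually this).exists
    exact h3.2 hp hq (connectedComponentIn_eq h4)
  · filter_upwards [mem_nhdsWithin_of_mem_nhds (loc hf hl (connectedComponentIn_subset _ _ hx)),
      self_mem_nhdsWithin] with y h3 h4
    have := h3 (connectedComponentIn_subset _ _ h4).1
    exact ⟨this.mono fun _ => And.left, this.mono fun _ => And.right⟩
  · intro x y z _ _ _ h3 h4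
    filter_upwards [h3, h4] with d h3 h4
    rwa [connectedComponentIn_eq h3]

variable [T2Space X]

/-- locally constant labels survive slightly below the level -/
theorem label {L : Type*} (hG : IsCompact G) (hf : Continuous f) {l : X → L}
    (h : ∀ p ∈ G ∩ {q | c ≤ f q}, ∀ᶠ q in 𝓝 p, q ∈ G ∩ {q | c ≤ f q} → l q = l p) (p : X)
    (hp : p ∈ G ∩ {q | c ≤ f q}) : ∀ᶠ d in 𝓝[<] c, ∀ q ∈ G ∩ {q | c ≤ f q},
      q ∈ connectedComponentIn (up G f d) p → l q = l p := by
  have hF : IsCompact (G ∩ {q | c ≤ f q}) := hG.inter_right (isClosed_le continuous_const hf)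
  have k (P : L → Prop) : IsCompact {q ∈ G ∩ {q | c ≤ f q} | P (l q)} := by
    refine hF.of_isClosed_subset (isClosed_iff_frequently.2 fun x hx => ?_) (sep_subset _ _)
    have hx' := hF.isClosed.mem_of_frequently_of_tendsto (hx.mono fun _ => And.left) tendsto_id
    obtain ⟨y, h1, h2⟩ := (hx.and_eventually (h x hx')).exists
    exact ⟨hx', h2 h1.1 ▸ h1.2⟩
  obtain ⟨O, O', o1, o2, s1, s2, hd⟩ := SeparatedNhds.of_isCompact_isCompact (k (· = l p))
    (k (· ≠ l p)) (Set.disjoint_left.2 fun _ h h' => h'.2 h.2)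
  have : ∀ᶠ d in 𝓝 c, ∀ x ∈ G \ (O ∪ O'), f x < d := by
    refine (hG.diff (o1.union o2)).eventually_forall_of_forall_eventually fun x hx => ?_
    refine (isOpen_lt (hf.comp continuous_snd) continuous_fst).mem_nhds
      (show f x < c from not_le.1 fun h' => hx.2 ?_)
    by_cases e : l x = l p
    exacts [Or.inl (s1 ⟨⟨hx.1, h'⟩, e⟩), Or.inr (s2 ⟨⟨hx.1, h'⟩, e⟩)]
  filter_upwards [mem_nhdsWithin_of_mem_nhds this, self_mem_nhdsWithin] with d h1 h2 q hq h3
  by_contra e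
  refine Set.disjoint_left.1 hd (isPreconnected_connectedComponentIn.subset_left_of_subset_union
    o1 o2 hd (fun x hx => by_contra fun h4 => ?_) ⟨p, mem_connectedComponentIn
      (show p ∈ up G f d from ⟨hp.1, (lt_of_lt_of_le (show d < c from h2) hp.2 : d < f p)⟩),
        s1 ⟨hp, rfl⟩⟩ h3) (s2 ⟨hq, e⟩)
  have := connectedComponentIn_subset _ _ hx
  exact (h1 x ⟨this.1, h4⟩).not_gt this.2

/-- the hypotheses -/
structure Hyp (G T Z : Set X) (f : X → ℝ) : Prop where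
  cG : IsCompact G
  cf : Continuous f
  lc : LC G
  fT : T.Finite
  fZ : Z.Finite
  sT : T ⊆ G
  top : ∀ p ∈ T, Top G f p
  two : ∀ p ∈ Z, Two G f p
  one : ∀ p ∈ G, p ∉ T → p ∉ Z → One G f p

omit [T2Space X] in
/-- the local structure of the components -/
theorem Hyp.germ (h : Hyp G T Z f) {p : X} (hp : p ∈ G ∩ {q | c ≤ f q}) (hT : ¬ (p ∈ T ∧ f p = c)) :
    ∃ a b : Set X, (∀ᶠ q in 𝓝 p, q ∈ up G f c → connectedComponentIn (up G f c) q = a ∨
      connectedComponentIn (up G f c) q = b) ∧ (¬ (p ∈ Z ∧ f p = c ∧ Mrg G f p) → a = b) ∧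
      ∃ x ∈ up G f c, p ∈ closure (connectedComponentIn (up G f c) x) := by
  rcases (show c ≤ f p from hp.2).eq_or_lt with rfl | h1
  swap
  · exact ⟨_, _, (loc h.cf h.lc ⟨hp.1, h1⟩).mono fun q hq h2 => Or.inl (connectedComponentIn_eq
      ((hq h2.1).self_of_nhdsWithin self_mem_Ici).2), fun _ => rfl, p, ⟨hp.1, h1⟩,
        subset_closure (mem_connectedComponentIn ⟨hp.1, h1⟩)⟩
  have two : Two G f p := by
    by_cases hZ : p ∈ Z
    · exact h.two p hZ
    · intro U hU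
      obtain ⟨V, h1, h2, h3⟩ := h.one p hp.1 (fun h => hT ⟨h, rfl⟩) hZ U hU
      exact ⟨V, h1, h2, _, _, h3, h3, (union_self _).symm⟩
  have key : ∀ U ∈ 𝓝 p, ∃ x ∈ U ∩ up G f (f p), ∃ y ∈ U ∩ up G f (f p),
      (∀ᶠ q in 𝓝 p, q ∈ up G f (f p) → connectedComponentIn (up G f (f p)) q =
        connectedComponentIn (up G f (f p)) x ∨ connectedComponentIn (up G f (f p)) q =
        connectedComponentIn (up G f (f p)) y) := by
    intro U hU
    obtain ⟨V, h1, h2, A, B, hA, hB, e⟩ := two U hU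
    rw [inter_assoc] at e
    obtain ⟨x, hx⟩ := hA.1
    obtain ⟨y, hy⟩ := hB.1
    have sA : A ⊆ V ∩ up G f (f p) := subset_union_left.trans e.symm.subset
    have sB : B ⊆ V ∩ up G f (f p) := subset_union_right.trans e.symm.subset
    refine ⟨x, ⟨h2 (sA hx).1, (sA hx).2⟩, y, ⟨h2 (sB hy).1, (sB hy).2⟩, mem_of_superset h1
      fun q hq h3 => (e.subset ⟨hq, h3⟩).imp (fun h => ?_) fun h => ?_⟩
    · exact (connectedComponentIn_eq (hA.2.subset_connectedComponentIn hx
        (sA.trans inter_subset_right) h)).symm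
    · exact (connectedComponentIn_eq (hB.2.subset_connectedComponentIn hy
        (sB.trans inter_subset_right) h)).symm
  have cl : ∃ x ∈ up G f (f p), p ∈ closure (connectedComponentIn (up G f (f p)) x) := by
    obtain ⟨x, hx, y, hy, e⟩ := key univ univ_mem
    have : p ∈ closure (connectedComponentIn (up G f (f p)) x ∪
        connectedComponentIn (up G f (f p)) y) := mem_closure_iff_nhds.2 fun U hU => by
      obtain ⟨z, hz, -⟩ := key _ (inter_mem hU e)
      exact ⟨z, hz.1.1, (hz.1.2 hz.2).elim (fun h => Or.inl (h.subset (mem_connectedComponentIn hz.2)))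
        fun h => Or.inr (h.subset (mem_connectedComponentIn hz.2))⟩
    rw [closure_union] at this
    exact this.elim (fun h => ⟨x, hx.2, h⟩) fun h => ⟨y, hy.2, h⟩
  by_cases hm : p ∈ Z ∧ Mrg G f p
  · obtain ⟨x, -, y, -, e⟩ := key univ univ_mem
    exact ⟨_, _, e, fun h => (h ⟨hm.1, rfl, hm.2⟩).elim, cl⟩
  have : ∃ U ∈ 𝓝 p, ∀ q ∈ U ∩ up G f (f p), ∀ q' ∈ U ∩ up G f (f p),
      q' ∈ connectedComponentIn (up G f (f p)) q := by
    by_cases hZ : p ∈ Z
    · have : ¬ Mrg G f p := fun h => hm ⟨hZ, h⟩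
      simp only [Mrg, not_forall, not_exists, not_and, not_not, inter_assoc] at this
      obtain ⟨U, h1, h2⟩ := this
      exact ⟨U, h1, h2⟩
    · obtain ⟨V, h1, -, h3⟩ := h.one p hp.1 (fun h => hT ⟨h, rfl⟩) hZ univ univ_mem
      rw [inter_assoc] at h3
      exact ⟨V, h1, fun q hq => h3.2.subset_connectedComponentIn hq inter_subset_right⟩
  obtain ⟨U, h1, h2⟩ := this
  obtain ⟨x, hx, -⟩ := key U h1
  exact ⟨_, _, mem_of_superset h1 fun q hq h3 =>
    Or.inl (connectedComponentIn_eq (h2 q ⟨hq, h3⟩ x hx)), fun _ => rfl, cl⟩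

open Classical in
/-- crossing one level -/
theorem Hyp.cross (h : Hyp G T Z f) {Q : Finset X} (hQ : Sep G f c Q) :
    ∃ Q' : Finset X, Q' ⊆ Q ∪ h.fT.toFinset.filter (f · = c) ∧
      Q.card + (h.fT.toFinset.filter (f · = c)).card ≤
        Q'.card + (h.fZ.toFinset.filter fun p => f p = c ∧ Mrg G f p).card ∧
      ∀ᶠ d in 𝓝[<] c, Sep G f d Q' := by
  choose! a b h1 h2 x h3 h4 using fun p => h.germ (c := c) (p := p)
  obtain ⟨m, m1, m2⟩ := merge a b (h.fZ.toFinset.filter fun p => f p = c ∧ Mrg G f p)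
  let l : X → Set X := fun p => if p ∈ T ∧ f p = c then {p} else connectedComponentIn (up G f c) (x p)
  have e1 : ∀ p ∈ G ∩ {q | c ≤ f q}, ¬ (p ∈ T ∧ f p = c) → ∀ᶠ q in 𝓝 p, q ∈ G ∩ {q | c ≤ f q} →
      ¬ (q ∈ T ∧ f q = c) → l q = a p ∨ l q = b p := by
    intro p hp hT
    filter_upwards [(h1 p hp hT).eventually_nhds] with q hq h5 h6
    obtain ⟨y, y1, y2⟩ := mem_closure_iff_nhds.1 (h4 q h5 h6) _ hq
    simp only [l, if_neg h6, connectedComponentIn_eq y2]
    exact y1 (connectedComponentIn_subset _ _ y2)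
  have e2 : ∀ p ∈ G ∩ {q | c ≤ f q}, ∀ᶠ q in 𝓝 p, q ∈ G ∩ {q | c ≤ f q} → m (l q) = m (l p) := by
    intro p hp
    by_cases hT : p ∈ T ∧ f p = c
    · filter_upwards [h.top p hT.1] with q hq h5
      rw [by_contra fun e : q ≠ p => (hq h5.1 e).not_ge (hT.2 ▸ h5.2)]
    have e3 : m (a p) = m (b p) := by
      by_cases hm : p ∈ Z ∧ f p = c ∧ Mrg G f p
      · exact m1 p (by simpa using hm)
      · rw [h2 p hp hT hm]
    have e4 {y} (h : y = a p ∨ y = b p) : m y = m (a p) := h.elim (· ▸ rfl) (· ▸ e3.symm)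
    filter_upwards [e1 p hp hT, (h.fT.subset fun q (hq : q ∈ T ∧ f q = c) => hq.1).isClosed.isOpen_compl.mem_nhds
      hT] with q hq h5 h6
    rw [e4 (hq h6 h5), e4 ((e1 p hp hT).self_of_nhds hp hT)]
  have sF : ∀ p ∈ Q ∪ h.fT.toFinset.filter (f · = c), p ∈ G ∩ {q | c ≤ f q} := fun p hp =>
    (Finset.mem_union.1 hp).elim (fun h => ⟨(hQ.1 h).1, (le_of_lt (hQ.1 h).2 : c ≤ f p)⟩) fun hp => by
      simp only [Finset.mem_filter, Finite.mem_toFinset] at hp
      exact ⟨h.sT hp.1, hp.2.ge⟩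
  have n1 : ∀ q ∈ Q, ¬ (q ∈ T ∧ f q = c) := fun q hq h => (hQ.1 hq).2.ne' h.2
  have lQ : ∀ q ∈ Q, l q = connectedComponentIn (up G f c) q := by
    intro q hq
    have h5 := sF q (Finset.mem_union_left _ hq)
    have h6 := h2 q h5 (n1 q hq) fun h => (hQ.1 hq).2.ne' h.2.1
    have h7 := (e1 q h5 (n1 q hq)).self_of_nhds h5 (n1 q hq)
    have h8 := (h1 q h5 (n1 q hq)).self_of_nhds (hQ.1 hq)
    rw [← h6, or_self] at h7 h8
    rw [h7, h8]
  have lT : ∀ q ∈ h.fT.toFinset.filter (f · = c), l q = {q} ∧ f q = c := fun q hq => by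
    simp only [Finset.mem_filter, Finite.mem_toFinset] at hq
    exact ⟨if_pos hq, hq.2⟩
  have x1 : ∀ p ∈ Q, ∀ q ∈ h.fT.toFinset.filter (f · = c), l p ≠ l q := fun p hp q hq e => by
    rw [lQ p hp, (lT q hq).1] at e
    have : p = q := e.subset (mem_connectedComponentIn (hQ.1 hp))
    exact (hQ.1 hp).2.ne' (this ▸ (lT q hq).2)
  have inj : InjOn l (Q ∪ h.fT.toFinset.filter (f · = c) : Finset X) := by
    intro p hp q hq e
    rcases Finset.mem_union.1 hp with hp | hp <;> rcases Finset.mem_union.1 hq with hq | hq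
    · exact hQ.2 hp hq (by rw [← lQ p hp, e, lQ q hq])
    · exact (x1 p hp q hq e).elim
    · exact (x1 q hq p hp e.symm).elim
    · exact singleton_injective (by rw [← (lT p hp).1, e, (lT q hq).1])
  obtain ⟨Q', q1, q2, q3⟩ := pick (m ∘ l) (Q ∪ h.fT.toFinset.filter (f · = c))
  refine ⟨Q', q1, ?_, ?_⟩
  · have := m2 ((Q ∪ h.fT.toFinset.filter (f · = c)).image l)
    rwa [Finset.image_image, q3, Finset.card_image_of_injOn inj,
      Finset.card_union_of_disjoint (Finset.disjoint_left.2 fun p hp hq => x1 p hp p hq rfl)] at this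
  · filter_upwards [(Q'.eventually_all).2 fun p hp => label h.cG h.cf (l := m ∘ l) e2 p
      (sF p (q1 hp)), self_mem_nhdsWithin] with d h5 h6
    have s : (Q' : Set X) ⊆ up G f d := fun p hp =>
      ⟨(sF p (q1 hp)).1, (lt_of_lt_of_le (show d < c from h6) (sF p (q1 hp)).2 : d < f p)⟩
    exact ⟨s, fun p hp q hq e => q2 hp hq (h5 p hp q (sF q (q1 hq))
      (e ▸ mem_connectedComponentIn (s hq))).symm⟩

open Classical in
theorem Hyp.main (h : Hyp G T Z f) (c₁ : ℝ) (n : ℕ) : ∀ c₂, c₁ ≤ c₂ → ∀ Q, Sep G f c₂ Q →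
    ((h.fT.toFinset ∪ h.fZ.toFinset).filter fun p => f p ≤ c₂).card = n → ∃ Q', Sep G f c₁ Q' ∧
      Q.card + (h.fT.toFinset.filter fun p => c₁ < f p ∧ f p ≤ c₂).card ≤
        Q'.card + (h.fZ.toFinset.filter fun p => c₁ < f p ∧ f p ≤ c₂ ∧ Mrg G f p).card := by
  induction n using Nat.strong_induction_on with | _ n ih
  intro c₂ hc Q hQ hn
  let S := {c | c₁ ≤ c ∧ c ≤ c₂ ∧ Sep G f c Q ∧ ∀ p ∈ T, c < f p → c₂ < f p}
  have h2 : c₂ ∈ S := ⟨hc, le_rfl, hQ, fun _ _ h => h⟩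
  obtain ⟨c, hg⟩ := Real.exists_isGLB ⟨_, h2⟩ ⟨c₁, fun _ h => h.1⟩
  have fr := hg.frequently_mem ⟨_, h2⟩
  have c2 : c ≤ c₂ := hg.1 h2
  have s1 : Sep G f c Q := down h.cf h.lc (fr.mono fun _ h => h.2.2.1)
  have s2 : ∀ p ∈ T, c < f p → c₂ < f p := fun p hp h3 => by
    obtain ⟨d, h4, h5⟩ := (fr.and_eventually (mem_nhdsWithin_of_mem_nhds (Iio_mem_nhds h3))).exists
    exact h4.2.2.2 p hp h5
  rcases (hg.2 fun _ h => h.1 : c₁ ≤ c).eq_or_lt with rfl | c1
  · refine ⟨Q, s1, add_le_add le_rfl ((Finset.card_eq_zero.2 ?_).trans_le zero_le)⟩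
    exact Finset.filter_eq_empty_iff.2 fun p hp h3 =>
      (s2 p (h.fT.mem_toFinset.1 hp) h3.1).not_ge h3.2
  obtain ⟨Q', q1, q2, q3⟩ := h.cross s1
  have ev : ∀ᶠ d in 𝓝[<] c, ∀ p ∈ T, f p < c → f p ≤ d := (eventually_all_finite h.fT).2 fun p _ => by
    by_cases h3 : f p < c
    · exact mem_of_superset (mem_nhdsWithin_of_mem_nhds (Ici_mem_nhds h3)) fun _ h _ => h
    · exact Eventually.of_forall fun _ h => (h3 h).elim
  obtain ⟨d, ⟨d1, d2⟩, d3, d4⟩ := ((q3.and ev).and (Ioo_mem_nhdsLT c1)).exists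
  have lt : ((h.fT.toFinset ∪ h.fZ.toFinset).filter fun p => f p ≤ d).card < n := by
    rw [← hn]
    refine Finset.card_lt_card ((Finset.ssubset_iff_of_subset (Finset.monotone_filter_right _
      fun p _ hp => hp.trans (d4.le.trans c2))).2 (by_contra fun h3 => ?_))
    have h4 : ∀ p ∈ h.fT.toFinset ∪ h.fZ.toFinset, f p ≠ c := fun p hp e =>
      h3 ⟨p, Finset.mem_filter.2 ⟨hp, e ▸ c2⟩, fun h => d4.not_ge (e ▸ (Finset.mem_filter.1 h).2)⟩
    rw [Finset.filter_eq_empty_iff.2 fun p hp => h4 p (Finset.mem_union_left _ hp)] at q1 q2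
    rw [Finset.filter_eq_empty_iff.2 fun p hp h => h4 p (Finset.mem_union_right _ hp) h.1] at q2
    have e : Q' = Q := Finset.eq_of_subset_of_card_le (by simpa using q1) (by simpa using q2)
    rw [e] at d1
    refine d4.not_ge (hg.1 ⟨d3.le, d4.le.trans c2, d1, fun p hp h5 => s2 p hp ?_⟩)
    exact lt_of_le_of_ne (not_lt.1 fun h => h5.not_ge (d2 p hp h))
      (h4 p (Finset.mem_union_left _ (h.fT.mem_toFinset.2 hp))).symm
  obtain ⟨Q'', r1, r2⟩ := ih _ lt d d3.le Q' d1 rfl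
  refine ⟨Q'', r1, ?_⟩
  have a1 : (h.fT.toFinset.filter fun p => c₁ < f p ∧ f p ≤ c₂).card ≤
      (h.fT.toFinset.filter fun p => c₁ < f p ∧ f p ≤ d).card +
        (h.fT.toFinset.filter (f · = c)).card := by
    refine (Finset.card_le_card fun p hp => ?_).trans (Finset.card_union_le _ _)
    simp only [Finset.mem_union, Finset.mem_filter, Finite.mem_toFinset] at hp ⊢
    rcases lt_trichotomy (f p) c with h3 | h3 | h3
    exacts [Or.inl ⟨hp.1, hp.2.1, d2 p hp.1 h3⟩, Or.inr ⟨hp.1, h3⟩,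
      ((s2 p hp.1 h3).not_ge hp.2.2).elim]
  have a2 : (h.fZ.toFinset.filter fun p => c₁ < f p ∧ f p ≤ d ∧ Mrg G f p).card +
      (h.fZ.toFinset.filter fun p => f p = c ∧ Mrg G f p).card ≤
      (h.fZ.toFinset.filter fun p => c₁ < f p ∧ f p ≤ c₂ ∧ Mrg G f p).card := by
    rw [← Finset.card_union_of_disjoint (Finset.disjoint_filter.2 (by
      intro p _ h3 h4; exact d4.not_ge (h4.1 ▸ h3.2.1)))]
    refine Finset.card_le_card fun p hp => ?_
    simp only [Finset.mem_union, Finset.mem_filter] at hp ⊢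
    exact hp.elim (fun h => ⟨h.1, h.2.1, h.2.2.1.trans (d4.le.trans c2), h.2.2.2⟩)
      fun h => ⟨h.1, h.2.1 ▸ c1, h.2.1 ▸ c2, h.2.2⟩
  omega

end Mi

open Mi in
/-- **MI** -/
theorem mi : MI := by
  classical
  intro G T Z f h1 h2 h3 h4 h5 h6 h7 h8 h9 c₁ c₂ hc
  have h : Hyp G T Z f := ⟨h1, h2, h3, h4, h5, h6, h7, h8, h9⟩
  have key (n : ℕ) (hn : (n : ℕ∞) ≤ nc (up G f c₂)) : n + {p ∈ T | c₁ < f p ∧ f p ≤ c₂}.encard ≤
      nc (up G f c₁) + {p ∈ Z | c₁ < f p ∧ f p ≤ c₂ ∧ Mrg G f p}.encard := by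
    obtain ⟨t, t1, t2⟩ := exists_subset_encard_eq hn
    lift t to Finset (Set E3) using finite_of_encard_eq_coe t2
    obtain ⟨Q, q1, q2, q3⟩ := Finset.exists_subset_injOn_image_eq_of_surjOn _ t t1
    obtain ⟨Q', r1, r2⟩ := h.main c₁ _ c₂ hc Q ⟨q1, q2⟩ rfl
    have e1 : (Q'.card : ℕ∞) ≤ nc (up G f c₁) := by
      rw [← encard_coe_eq_coe_finsetCard, ← r1.2.encard_image]
      exact encard_le_encard (image_mono r1.1)
    rw [← t2, ← q3, encard_coe_eq_coe_finsetCard, Finset.card_image_of_injOn q2]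
    refine le_trans (le_of_eq ?_) ((Nat.cast_le.2 r2).trans ?_)
    · rw [Nat.cast_add, ← encard_coe_eq_coe_finsetCard (Finset.filter _ _)]
      simp
    · rw [Nat.cast_add, ← encard_coe_eq_coe_finsetCard (Finset.filter _ _)]
      exact add_le_add e1 (by simp)
  show nc (up G f c₂) + _ ≤ nc (up G f c₁) + _
  induction e : nc (up G f c₂) using ENat.recTopCoe with
  | top => exact le_top.trans (ENat.eq_top_iff_forall_ge.2 fun n =>
      le_self_add.trans (key n (e ▸ le_top))).ge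
  | coe n => exact key n e.ge

end Vale.Agent.P218R
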