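import Vale.Agent.P218R.Base

/-!
# P218R: separation of the critical values and the Morse inequality
-/

open MeasureTheory Metric Filter Topology Set
open scoped ContDiff ENNReal RealInnerProductSpace
open Vale.Agent.P366.Stmt (E)
open Vale.Agent.P366W

noncomputable section

namespace Vale.Agent.P218R

namespace Mor

/-- a smooth nonnegative function with prescribed locally constant values on a finite set -/
theorem ex_loc (β : E3 → ℝ) (hβ : ∀ p, 0 ≤ β p) {s : Set E3} (hs : s.Finite) :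
    ∃ b : E3 → ℝ, ContDiff ℝ ∞ b ∧ (∀ x, 0 ≤ b x) ∧ ∀ p ∈ s, b =ᶠ[𝓝 p] fun _ => β p := by
  induction s, hs using Set.Finite.induction_on with
  | empty => exact ⟨fun _ => 0, contDiff_const, fun _ => le_rfl, by simp⟩
  | @insert q s hq hs ih =>
    obtain ⟨b, h1, h2, h3⟩ := ih
    obtain ⟨r, hr, h4⟩ := Metric.isOpen_iff.1 hs.isClosed.isOpen_compl q hq
    let χ : ContDiffBump q := ⟨r / 4, r / 2, by positivity, by linarith⟩
    refine ⟨fun x => χ x * β q + (1 - χ x) * b x,
      (χ.contDiff.mul contDiff_const).add ((contDiff_const.sub χ.contDiff).mul h1),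
      fun x => add_nonneg (mul_nonneg χ.nonneg (hβ q))
        (mul_nonneg (sub_nonneg.2 χ.le_one) (h2 x)), fun p hp => ?_⟩
    rcases hp with rfl | hp
    · filter_upwards [χ.eventuallyEq_one] with x hx
      simp only [hx, Pi.one_apply, one_mul, sub_self, zero_mul, add_zero]
    · have h5 : r / 2 < dist p q := by
        have : ¬ dist p q < r := fun h => h4 h hp
        linarith [not_lt.1 this]
      have h6 : ∀ᶠ x in 𝓝 p, r / 2 < dist x q :=
        (continuous_id.dist continuous_const).continuousAt.eventually (lt_mem_nhds h5)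
      filter_upwards [h6, h3 p hp] with x hx e
      rw [χ.zero_of_le_dist hx.le, e]; simp

variable {S : Srf} {f g : E3 → ℝ} {x : E3}

theorem tg_congr (h : g =ᶠ[𝓝 x] f) : S.tg g =ᶠ[𝓝 x] S.tg f :=
  h.gradient.mono fun y e => by rw [Srf.tg, e, Srf.tg]

theorem hs_congr (h : g =ᶠ[𝓝 x] f) : S.hs g x = S.hs f x := by
  rw [Srf.hs, (tg_congr h).fderiv_eq, Srf.hs]

theorem tg_aff (hf : Differentiable ℝ f) (k d : ℝ) :
    S.tg (fun y => k * f y + d) = fun y => k • S.tg f y :=
  funext fun y => ext_inner_right ℝ fun v => by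
    rw [Srf.inner_tg, real_inner_smul_left, Srf.inner_tg, fderiv_add_const,
      fderiv_const_mul (hf y)]
    rfl

theorem hs_aff (h : S.Ok) (hf : ContDiff ℝ ∞ f) (k d : ℝ) :
    S.hs (fun y => k * f y + d) x = k • S.hs f x := by
  rw [Srf.hs, tg_aff (hf.differentiable (by simp)),
    fderiv_fun_const_smul ((h.stg' hf).differentiable (by simp) x), Srf.hs]
  ext1 v
  simp

theorem tg_add (hf : Differentiable ℝ f) (hg : Differentiable ℝ g) (k : ℝ) (y : E3) :
    S.tg (fun y => f y + k * g y) y = S.tg f y + k • S.tg g y :=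
  ext_inner_right ℝ fun v => by
    rw [Srf.inner_tg, inner_add_left, real_inner_smul_left, Srf.inner_tg, Srf.inner_tg,
      fderiv_fun_add (hf y) ((hg y).const_mul k), fderiv_const_mul (hg y)]
    rfl

theorem crit_neg (hf : Differentiable ℝ f) : S.crit (-f) = S.crit f := by
  have : -f = fun y => -1 * f y + 0 := funext fun y => by simp
  ext x
  simp only [Srf.crit, mem_ofPred_eq, this, tg_aff hf, neg_smul, one_smul, neg_eq_zero]

theorem nc_le {X : Type*} [TopologicalSpace X] {G : Set X} (h : IsPreconnected G) : nc G ≤ 1 :=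
  encard_le_one_iff_subsingleton.2 (by
    rintro _ ⟨x, hx, rfl⟩ _ ⟨y, hy, rfl⟩
    rw [h.connectedComponentIn hx, h.connectedComponentIn hy])

theorem two_of {p : E3} (h : Sad S f p) : Two S.G f p ∧ Two S.G (-f) p := by
  obtain ⟨l₁, l₂, -, -, h⟩ := h
  constructor
  · intro U hU
    obtain ⟨V, hV, a, b, c, -, -, d, -⟩ := h U hU
    refine ⟨V, hV, a, _, _, b, c, Set.ext fun q => ⟨fun hq => ?_, ?_⟩⟩
    · rcases lt_or_gt_of_ne ((d q hq.1).1 hq.2) with e | e
      exacts [.inr ⟨hq.1, hq.2, e⟩, .inl ⟨hq.1, hq.2, e⟩]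
    · rintro (hq | hq) <;> exact ⟨hq.1, hq.2.1⟩
  · intro U hU
    obtain ⟨V, hV, a, -, -, b, c, d, -⟩ := h U hU
    refine ⟨V, hV, a, _, _, b, c, Set.ext fun q => ⟨fun hq => ?_, ?_⟩⟩
    · have h1 : f q < f p := neg_lt_neg_iff.1 hq.2
      rcases lt_or_gt_of_ne ((d q hq.1).2.1 h1) with e | e
      exacts [.inr ⟨hq.1, h1, e⟩, .inl ⟨hq.1, h1, e⟩]
    · rintro (hq | hq) <;> exact ⟨hq.1, neg_lt_neg_iff.2 hq.2.1⟩

end Mor

open Mor

theorem sep (hF : FIN) : SEP := by
  intro S f c h hG hf hc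
  have hfin := (hF S h).1 f hf hG
  obtain ⟨β, hβ⟩ := Set.countable_iff_exists_injOn.1 hfin.countable
  obtain ⟨b, b1, b2, b3⟩ := ex_loc (fun p => (β p : ℝ)) (fun p => Nat.cast_nonneg _) hfin
  have df := hf.1.differentiable (by simp)
  have s1 : ContDiff ℝ ∞ fun y => (f y - c) * b y := (hf.1.sub contDiff_const).mul b1
  let U : Set E3 := {x | b =ᶠ[𝓝 x] fun _ => b x}
  have hU : IsOpen U := isOpen_iff_mem_nhds.2 fun x hx =>
    (eventually_eventually_nhds.2 hx).mono fun y hy => by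
      have e : b y = b x := hy.self_of_nhds
      exact hy.mono fun z hz => hz.trans e.symm
  have cU : ∀ p ∈ S.crit f, p ∈ U := fun p hp =>
    (b3 p hp).mono fun z hz => hz.trans (b3 p hp).self_of_nhds.symm
  have e1 : ∀ᶠ ε in 𝓝 (0 : ℝ), ∀ x ∈ S.G \ U,
      S.tg f x + ε • S.tg (fun y => (f y - c) * b y) x ≠ 0 :=
    (hG.diff hU).eventually_forall_of_forall_eventually fun x hx =>
      ContinuousAt.eventually_ne (((h.stg' hf.1).continuous.comp continuous_snd).add
        (continuous_fst.smul ((h.stg' s1).continuous.comp continuous_snd))).continuousAt (by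
          simpa using fun e => hx.2 (cU x ⟨hx.1, e⟩))
  have e2 : ∀ᶠ ε in 𝓝 (0 : ℝ), ∀ p ∈ S.crit f, ∀ q ∈ S.crit f, f p ≠ f q →
      f p + ε * ((f p - c) * b p) ≠ f q + ε * ((f q - c) * b q) :=
    (eventually_all_finite hfin).2 fun p _ => (eventually_all_finite hfin).2 fun q _ => by
      by_cases e : f p = f q
      · exact .of_forall fun _ a => absurd e a
      · have : ContinuousAt (fun ε : ℝ => f p + ε * ((f p - c) * b p) -
            (f q + ε * ((f q - c) * b q))) 0 := by fun_prop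
        exact (this.eventually_ne (y := 0) (by simpa [sub_eq_zero] using e)).mono
          fun _ a _ => sub_ne_zero.1 a
  obtain ⟨ε, ⟨h1, h2⟩, h0⟩ := (((e1.and e2).filter_mono nhdsWithin_le_nhds).and
    (self_mem_nhdsWithin (s := Ioi (0 : ℝ)))).exists
  have kp : ∀ x, 0 < 1 + ε * b x := fun x => by have := mul_nonneg (le_of_lt h0) (b2 x); linarith
  set g : E3 → ℝ := fun y => f y + ε * ((f y - c) * b y) with hg
  have sg : ContDiff ℝ ∞ g := hf.1.add (contDiff_const.mul s1)
  have lg : ∀ x ∈ U, g =ᶠ[𝓝 x] fun y => (1 + ε * b x) * f y + -(ε * b x * c) := fun x hx =>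
    hx.mono fun y e => by simp only [hg, e]; ring
  have cr : S.crit g = S.crit f := by
    ext x
    by_cases hx : x ∈ U
    · simp only [Srf.crit, mem_ofPred_eq, (tg_congr (lg x hx)).self_of_nhds, tg_aff df,
        smul_eq_zero, (kp x).ne', false_or]
    · exact ⟨fun a => absurd (tg_add df (s1.differentiable (by simp)) ε x ▸ a.2)
        (h1 x ⟨a.1, hx⟩), fun a => absurd (cU x a) hx⟩
  have dd : ∀ x ∈ S.crit f, dt (S.hs g x) = (1 + ε * b x) ^ 2 * dt (S.hs f x) := fun x hx => by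
    rw [hs_congr (lg x (cU x hx)), hs_aff h hf.1, dt_smul]
  have gc : ∀ x, g x - c = (1 + ε * b x) * (f x - c) := fun x => by simp only [hg]; ring
  refine ⟨g, ⟨sg, fun x hx => ?_⟩, ?_, ?_, ?_, fun x hx => ?_, fun x => ?_⟩
  · rw [cr] at hx
    rw [dd x hx]
    exact mul_ne_zero (pow_pos (kp x) 2).ne' (hf.2 x hx)
  · ext x
    simp only [Srf.ext, mem_ofPred_eq, cr]
    exact and_congr_right fun hx => by rw [dd x hx, mul_pos_iff_of_pos_left (pow_pos (kp x) 2)]
  · ext x
    simp only [Srf.sad, mem_ofPred_eq, cr]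
    exact and_congr_right fun hx => by
      rw [dd x hx, ← neg_pos, ← mul_neg, mul_pos_iff_of_pos_left (pow_pos (kp x) 2), neg_pos]
  · rw [cr]
    intro p hp q hq e
    have e3 : f p = f q := by_contra fun a => h2 p hp q hq a e
    have e4 : b p = b q := by
      have := gc p
      rw [e, gc q, e3, mul_left_inj' (sub_ne_zero.2 (hc q hq)), add_right_inj] at this
      exact (mul_left_cancel₀ (ne_of_gt h0) this).symm
    rw [(b3 p hp).self_of_nhds, (b3 q hq).self_of_nhds] at e4
    exact hβ hp hq (Nat.cast_injective e4)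
  · rw [cr] at hx
    rw [← sub_ne_zero, gc]
    exact mul_ne_zero (kp x).ne' (sub_ne_zero.2 (hc x hx))
  · rw [← sub_pos, gc, mul_pos_iff_of_pos_left (kp x), sub_pos]

theorem mor (hS : SEP) (hM : MI) (h1 : LO1) (h2 : LO2) (hD : DJ) (hF : FIN) : MOR := by
  intro S f c h hG hc hf hr
  obtain ⟨g, mg, e1, e2, inj, gc, cg⟩ := hS S f c h hG hf hr
  simp only [← e1, ← e2, ← cg]
  have hfin := (hF S h).1 g mg hG
  have cn := crit_neg (S := S) (mg.1.differentiable (by simp))
  have lc := (h1 S h).1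
  have tw : ∀ p ∈ S.sad g, Two S.G g p ∧ Two S.G (-g) p := fun p hp =>
    two_of (h2 S g p h mg.1 hp)
  have fs : (S.sad g).Finite := hfin.subset fun _ a => a.1
  have tri : ∀ p ∈ S.crit g, p ∉ S.sad g → p ∈ S.ext g := fun p hp a =>
    ⟨hp, lt_of_le_of_ne (not_lt.1 fun b => a ⟨hp, b⟩) (mg.2 p hp).symm⟩
  obtain ⟨R, hR⟩ := hG.exists_bound_of_continuousOn mg.1.continuous.continuousOn
  have hR' : ∀ p ∈ S.G, g p ≤ R := fun p hp => (le_abs_self _).trans (hR p hp)
  have m1 := hM S.G {p ∈ S.ext g | Top S.G g p} (S.sad g) g hG mg.1.continuous lc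
    (hfin.subset fun _ a => a.1.1) fs (fun _ a => a.1.1.1) (fun _ a => a.2)
    (fun p a => (tw p a).1) (fun p hp a b => by
      by_cases k : p ∈ S.crit g
      · exact (((h1 S h).2 g p mg.1 hp).2 (tri p k b)).elim (fun e => absurd ⟨tri p k b, e.1⟩ a)
          fun e => e.1
      · exact ((h1 S h).2 g p mg.1 hp).1 k) c (max c R) (le_max_left _ _)
  have m2 := hM S.G {p ∈ S.ext g | Top S.G (-g) p} (S.sad g) (-g) hG mg.1.continuous.neg lc
    (hfin.subset fun _ a => a.1.1) fs (fun _ a => a.1.1.1) (fun _ a => a.2)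
    (fun p a => (tw p a).2) (fun p hp a b => by
      by_cases k : p ∈ S.crit g
      · exact (((h1 S h).2 g p mg.1 hp).2 (tri p k b)).elim (fun e => e.2)
          fun e => absurd ⟨tri p k b, e.2⟩ a
      · exact ((h1 S h).2 (-g) p mg.1.neg hp).1 (cn ▸ k)) (-(max c R + 1)) (-c)
    (by linarith [le_max_left c R])
  have n2 : nc (S.G ∩ {q | -(max c R + 1) < (-g) q}) ≤ 1 := by
    rw [inter_eq_left.2 fun q hq => ?_]
    · exact nc_le hc
    · show -(max c R + 1) < -g q
      linarith [hR' q hq, le_max_right c R]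
  have m1' := le_add_self.trans m1
  have m2' := (le_add_self.trans m2).trans (add_le_add_left n2 _)
  have a1 : {x ∈ S.ext g | c < g x} ⊆
      {p ∈ {p ∈ S.ext g | Top S.G g p} | c < g p ∧ g p ≤ max c R} ∪
      {p ∈ {p ∈ S.ext g | Top S.G (-g) p} | -(max c R + 1) < (-g) p ∧ (-g) p ≤ -c} := by
    rintro p ⟨a, b⟩
    have k := (hR' p a.1.1).trans (le_max_right c R)
    rcases ((h1 S h).2 g p mg.1 a.1.1).2 a with e | e
    · exact .inl ⟨⟨a, e.1⟩, b, k⟩
    · exact .inr ⟨⟨a, e.2⟩, show -(max c R + 1) < -g p by linarith, neg_le_neg b.le⟩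
  have a2 : {p ∈ S.sad g | c < g p ∧ g p ≤ max c R ∧ Mrg S.G g p}.encard +
      {p ∈ S.sad g | -(max c R + 1) < (-g) p ∧ (-g) p ≤ -c ∧ Mrg S.G (-g) p}.encard ≤
      {x ∈ S.sad g | c < g x}.encard := by
    rw [← encard_union_eq (disjoint_left.2 fun p a b => hD S g p h hG mg.1 a.1.1.1
      (h2 S g p h mg.1 a.1) (fun q hq e => inj hq a.1.1 e) a.2.2.2 b.2.2.2)]
    refine encard_le_encard ?_
    rintro p (a | a)
    · exact ⟨a.1, a.2.1⟩
    · exact ⟨a.1, lt_of_le_of_ne (neg_le_neg_iff.1 a.2.2.1) (gc p a.1.1).symm⟩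
  refine ((encard_le_encard a1).trans (encard_union_le _ _)).trans ((add_le_add m1' m2').trans ?_)
  rw [add_add_add_comm, add_comm _ 1]
  exact add_le_add_right a2 _

end Vale.Agent.P218R
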