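import Vale.Agent.P218R.All0
import Vale.Agent.P218R.Brk
import Vale.Agent.P218R.Hui
import Vale.Agent.P218R.Sml
import Vale.Agent.P218R.Slw
import Vale.Agent.P218R.Loc
import Vale.Agent.P218R.Lim
import Vale.Agent.P218R.Cfl
import Vale.Agent.P218R.Ar3
import Vale.Agent.P218R.Fin
import Vale.Agent.P218R.Deg
import Vale.Agent.P218R.Mi
import Vale.Agent.P218R.Lo1
import Vale.Agent.P218R.Lo2
import Vale.Agent.P218R.Dj
import Vale.Agent.P218R.Mor
import Vale.Agent.P218R.Cmp
import Vale.Agent.P218R.Gbx

/-!
# P218R: the rows on flows, limits and the Gauss-Bonnet estimate, assembled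
-/

namespace Vale.Agent.P218R

theorem brk' : BRK := brk div' low'
theorem cnt' : CNT := cnt brk' low'
theorem hui' : HUI := hui brk' cnt' fv' low'
theorem hur' : HUR := hur brk' cnt' fv' low' rsc
theorem sml' : SML := sml grf area
theorem slw' : SLW := slw brk' fv' low' rsc hur'
theorem lim' : LIM := lim ori grn area low'
theorem cfl' : CFL := cfl ori
theorem fin' : FIN := fin grf
theorem ar3' : AR3 := ar3 grf grn area fin'
theorem deg' : DEG := deg ar3' fin' bra' low'
theorem kct' : KCT := kct deg' cnt'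
theorem mor' : MOR := mor (sep fin') mi lo1 (lo2 grf) (dj bra' lo1 low') fin'
theorem gbx' (h : MONO) : GBX := gbx ar3' fin' deg' mor' (cmp h lo1)
theorem clo' (h : MONO) : CLO := clo cfl' hui' cnt' (gbx' h) kct' low'
theorem loc' (h : WH) : LOC := loc h hui' slw' gsl rsc
theorem tf' (h : WH) (d : DEN) : TF := tf d (loc' h) lim' slw' gsl low' rsc

end Vale.Agent.P218R
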