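import Vale.Agent.P366W.Basic
import Vale.Agent.P218.H552.Bridge2

/-!
# P218R: smooth surfaces and smooth mean curvature flows in `ℝ³` as regular level sets
-/

open MeasureTheory Metric Filter Topology Set
open scoped ContDiff ENNReal RealInnerProductSpace
open Vale.Agent.P366.Stmt (E)
open Vale.Agent.P366W (trc dvg Fr)

noncomputable section

namespace Vale.Agent.P218R

abbrev E3 := E 3

/-- the normalised two-dimensional Hausdorff measure -/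
abbrev H2 : Measure E3 := μHE[2]

/-- the cross product -/
def cr (a b : E3) : E3 :=
  !₂[a 1 * b 2 - a 2 * b 1, a 2 * b 0 - a 0 * b 2, a 0 * b 1 - a 1 * b 0]

/-- the second elementary symmetric function of an endomorphism -/
def dt (M : E3 →L[ℝ] E3) : ℝ := (trc M ^ 2 - trc (M ∘L M)) / 2

/-- area ratios at most `Λ`, for all centres and radii -/
def AR (Λ : ℝ) (μ : Measure E3) : Prop :=
  ∀ x r, 0 < r → μ (closedBall x r) ≤ ENNReal.ofReal (Λ * r ^ 2)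

/-- the Gaussian density ratio, equal to `1` for a plane through `x` -/
def gs (μ : Measure E3) (x : E3) (ρ : ℝ) : ℝ :=
  (4 * Real.pi * ρ ^ 2)⁻¹ * ∫ y, Real.exp (-‖y - x‖ ^ 2 / (4 * ρ ^ 2)) ∂μ

/-- a surface `{w = 0}` with an extension `n` of its unit normal -/
structure Srf where
  w : E3 → ℝ
  n : E3 → E3

namespace Srf

variable (S : Srf)

/-- the surface -/
def G : Set E3 := {x | S.w x = 0}

/-- the area -/
def μ : Measure E3 := H2.restrict S.G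

/-- the projection to the tangent plane -/
def P (x : E3) : E3 →L[ℝ] E3 :=
  ContinuousLinearMap.id ℝ E3 - (innerSL ℝ (S.n x)).smulRight (S.n x)

/-- the shape operator -/
def A (x : E3) : E3 →L[ℝ] E3 := fderiv ℝ S.n x ∘L S.P x

/-- the mean curvature; the mean curvature vector is `-H n` -/
def H (x : E3) : ℝ := trc (S.A x)

/-- the square of the norm of the second fundamental form -/
def A2 (x : E3) : ℝ := trc (S.A x ∘L S.A x)

/-- the Gauss curvature -/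
def K (x : E3) : ℝ := dt (S.A x)

/-- the tangential divergence -/
def dv (Y : E3 → E3) (x : E3) : ℝ := trc (fderiv ℝ Y x ∘L S.P x)

/-- the tangential gradient -/
def tg (f : E3 → ℝ) (x : E3) : E3 := S.P x (gradient f x)

/-- the tangential Hessian -/
def hs (f : E3 → ℝ) (x : E3) : E3 →L[ℝ] E3 := S.P x ∘L fderiv ℝ (S.tg f) x ∘L S.P x

/-- the Poisson bracket `dg ∧ dh / dA` -/
def br (g h : E3 → ℝ) (x : E3) : ℝ := ⟪S.n x, cr (gradient g x) (gradient h x)⟫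

/-- the normal speed `H - ⟨x, n⟩ / 2` of the rescaled flow, up to sign -/
def φ (x : E3) : ℝ := S.H x - ⟪x, S.n x⟫ / 2

structure Ok : Prop where
  sw : ContDiff ℝ ∞ S.w
  sn : ContDiff ℝ ∞ S.n
  reg : ∀ x, S.w x = 0 → gradient S.w x ≠ 0
  nrm : ∀ x, S.w x = 0 → ∀ᶠ y in 𝓝 x, S.n y = ‖gradient S.w y‖⁻¹ • gradient S.w y

/-- the local Gauss-Bonnet bound -/
def GBd (G : ℝ) : Prop := ∀ y r, 0 < r →
  ∫ x in ball y r, S.A2 x ∂S.μ ≤ G * (1 + ∫ x in closedBall y (20 * r), S.H x ^ 2 ∂S.μ)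

/-- in the cylinder of radius `r` and height `h` about `p` the surface is the graph of `v` -/
def Gr (p e : E3) (L : E 2 →ₗᵢ[ℝ] E3) (r h : ℝ) (v : E 2 → ℝ) : Prop :=
  ∀ y, ‖y‖ < r → |v y| < h ∧ ∀ s, |s| < h →
    (S.w (p + L y + s • e) < 0 ↔ s < v y) ∧ (S.w (p + L y + s • e) = 0 ↔ s = v y)

/-- a single graph with scale invariant bounds for all derivatives -/
def Reg (p e : E3) (L : E 2 →ₗᵢ[ℝ] E3) (r : ℝ) (C : ℕ → ℝ) : Prop :=
  ∃ v : E 2 → ℝ, ContDiffOn ℝ ∞ v (ball 0 r) ∧ S.Gr p e L r r v ∧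
    ∀ k y, ‖y‖ < r → ‖iteratedFDeriv ℝ k v y‖ ≤ C k * r / r ^ k

/-- the surface `l (G - b)` -/
def sc (b : E3) (l : ℝ) : Srf := ⟨fun y => S.w (b + l⁻¹ • y), fun y => S.n (b + l⁻¹ • y)⟩

end Srf

/-- a self-shrinker with area ratios `≤ Λ` and Gauss-Bonnet constant `G` -/
structure Shr (S : Srf) (Λ G : ℝ) : Prop where
  ok : S.Ok
  eq : ∀ x, S.w x = 0 → S.φ x = 0
  ar : AR Λ S.μ
  gb : S.GBd G

/-- a moving surface `{u (t, ·) = 0}` -/
structure Flw where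
  u : ℝ × E3 → ℝ
  n : ℝ × E3 → E3

namespace Flw

variable (F : Flw)

/-- the time slice -/
def sl (t : ℝ) : Srf := ⟨fun x => F.u (t, x), fun x => F.n (t, x)⟩

/-- the area at time `t` -/
def μ (t : ℝ) : Measure E3 := (F.sl t).μ

/-- a smooth mean curvature flow on the time interval `(a, b)` -/
structure Ok (a b : ℝ) : Prop where
  su : ContDiffOn ℝ ∞ F.u (Ioo a b ×ˢ univ)
  sn : ContDiffOn ℝ ∞ F.n (Ioo a b ×ˢ univ)
  reg : ∀ t ∈ Ioo a b, ∀ x, F.u (t, x) = 0 → gradient (F.sl t).w x ≠ 0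
  nrm : ∀ t ∈ Ioo a b, ∀ x, F.u (t, x) = 0 → ∀ᶠ p in 𝓝 (t, x),
    F.n p = ‖gradient (F.sl p.1).w p.2‖⁻¹ • gradient (F.sl p.1).w p.2
  eq : ∀ t ∈ Ioo a b, ∀ x, F.u (t, x) = 0 →
    deriv (fun s => F.u (s, x)) t = ‖gradient (F.sl t).w x‖ * (F.sl t).H x

/-- a flow with area ratios `≤ Λ` -/
structure OkA (a b Λ : ℝ) : Prop extends F.Ok a b where
  ar : ∀ t ∈ Ioo a b, AR Λ (F.μ t)

/-- the class which is closed under smooth limits -/
structure Good (a b Λ G : ℝ) : Prop extends F.OkA a b Λ where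
  gb : ∀ t ∈ Ioo a b, (F.sl t).GBd G

/-- the parabolic rescaling about `(x₀, t₀)` -/
def rs (x₀ : E3) (t₀ l : ℝ) : Flw :=
  ⟨fun p => F.u (t₀ + p.1 / l ^ 2, x₀ + l⁻¹ • p.2), fun p => F.n (t₀ + p.1 / l ^ 2, x₀ + l⁻¹ • p.2)⟩

/-- the slice at time `-1` of the rescaling with the factor `e^τ`; its area is `NN 2 F.μ x₀ t₀ τ` -/
def rsl (x₀ : E3) (t₀ τ : ℝ) : Srf := (F.rs x₀ t₀ (Real.exp τ)).sl (-1)

/-- in the backward parabolic cylinder of size `r` about the point `x` of the slice at time `t`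
the flow is a single graph over the tangent plane at `(t, x)` -/
def Reg (t : ℝ) (x : E3) (r : ℝ) (C : ℕ → ℝ) : Prop :=
  ∃ L, Fr (F.n (t, x)) L ∧ ∀ s ∈ Ioc (t - r ^ 2) t, (F.sl s).Reg x (F.n (t, x)) L r C

end Flw

/-- the flow `√(-t) S` -/
def Srf.flow (S : Srf) : Flw :=
  ⟨fun p => S.w ((√(-p.1))⁻¹ • p.2), fun p => S.n ((√(-p.1))⁻¹ • p.2)⟩

/-- `(M t)_{0 < t < T}` is a smooth mean curvature flow of compact connected embedded surfaces:
the space-time track is proper over `(0, T)`, and locally it is the zero set of a smooth function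
`u` with nonvanishing spatial gradient for which `∂u/∂t = |∇u| div (∇u / |∇u|)` on the track -/
structure IsSmoothMCF (M : ℝ → Set E3) (T : ℝ) : Prop where
  pos : 0 < T
  conn : ∀ t ∈ Ioo 0 T, IsConnected (M t)
  cpt : ∀ a b, 0 < a → b < T → IsCompact {p : ℝ × E3 | p.1 ∈ Icc a b ∧ p.2 ∈ M p.1}
  loc : ∀ t ∈ Ioo 0 T, ∀ x ∈ M t, ∃ u : ℝ → E3 → ℝ, ContDiff ℝ ∞ (Function.uncurry u) ∧
    gradient (u t) x ≠ 0 ∧ ∀ᶠ p : ℝ × E3 in 𝓝 (t, x), (p.2 ∈ M p.1 ↔ u p.1 p.2 = 0) ∧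
      (p.2 ∈ M p.1 → deriv (fun s => u s p.2) p.1 = ‖gradient (u p.1) p.2‖ *
        dvg (fun z => ‖gradient (u p.1) z‖⁻¹ • gradient (u p.1) z) p.2)

/-! ### the interfaces between the blocks -/

open Vale.Agent.P218 (limitSet)
open Vale.Agent.P218.H552 (NN)

/-- **DEN**: multiplicity one everywhere -/
def DEN : Prop := ∀ (F : Flw) (a b Λ G : ℝ) (x₀ : E3) (κ : Measure E3), a < b → F.Good a b Λ G →
  κ ∈ limitSet (NN 2 F.μ x₀ b) → ∀ p, ∀ ε > 0, ∃ᶠ ρ in 𝓝[>] (0 : ℝ), gs κ p ρ ≤ 1 + ε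

/-- **WH**: White's regularity theorem -/
def WH : Prop := ∀ Λ : ℝ, ∃ ε > (0 : ℝ), ∀ σ > (0 : ℝ), ∃ c > (0 : ℝ), ∃ C : ℕ → ℝ,
  C 0 ≤ σ ∧ C 1 ≤ σ ∧ ∀ (F : Flw) (a b t r : ℝ) (x : E3), F.OkA a b Λ → 0 < r →
    a < t - 4 * r ^ 2 → t ≤ b →
    (∀ y ∈ ball x (2 * r), ∀ ρ ∈ Icc r (2 * r), gs (F.μ (t - 4 * r ^ 2)) y ρ ≤ 1 + ε) →
    ∀ s ∈ Ioo (t - r ^ 2) t, ∀ y ∈ ball x r, F.u (s, y) = 0 → F.Reg s y (c * r) C

/-- **TF**: tangent flows of good flows are smooth, of multiplicity one, and good -/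
def TF : Prop := ∀ (F : Flw) (a b Λ G : ℝ) (x₀ : E3) (κ : Measure E3), a < b → F.Good a b Λ G →
  κ ∈ limitSet (NN 2 F.μ x₀ b) → ∃ S, Shr S Λ G ∧ κ = S.μ

/-- **SSF**: the flow of a shrinker is good -/
def SSF : Prop := ∀ (S : Srf) (Λ G a : ℝ), Shr S Λ G → S.flow.Good a 0 Λ G

/-- **CLO**: closed flows are good -/
def CLO : Prop := ∀ (M : ℝ → Set E3) (T : ℝ), IsSmoothMCF M T → ∀ a ∈ Ioo 0 T,
  ∃ (F : Flw) (Λ G : ℝ), F.Good a T Λ G ∧ ∀ t ∈ Ioo a T, (F.sl t).G = M t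

end Vale.Agent.P218R
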