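import Vale.Agent.P218R.Base

/-!
# P218R: limits of families of smooth functions along an ultrafilter
-/

open MeasureTheory Metric Filter Topology Set
open scoped ContDiff

noncomputable section

namespace Vale.Agent.P218R.Lm

variable {ι X V : Type} [NormedAddCommGroup X] [NormedSpace ℝ X] [NormedAddCommGroup V]
  [NormedSpace ℝ V] {U : Ultrafilter ι} {l : Filter ι} {O : Set X} {f : ι → X → V} {g : X → V}

/-- uniform bounds of all derivatives on `O` -/
def Bd (l : Filter ι) (O : Set X) (f : ι → X → V) : Prop :=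
  ∃ B : ℕ → ℝ, ∀ᶠ i in l, ContDiffOn ℝ ∞ (f i) O ∧ ∀ k, ∀ y ∈ O, ‖iteratedFDeriv ℝ k (f i) y‖ ≤ B k

/-- the pointwise limit -/
def lm (U : Ultrafilter ι) (f : ι → X → V) (y : X) : V := limUnder U fun i => f i y

/-- continuous convergence on `O` -/
def CC {X V : Type} [TopologicalSpace X] [TopologicalSpace V] (l : Filter ι) (O : Set X)
    (f : ι → X → V) (g : X → V) : Prop :=
  ∀ y ∈ O, Tendsto (fun p : ι × X => f p.1 p.2) (l ×ˢ 𝓝 y) (𝓝 (g y))

section
variable {X V : Type} [TopologicalSpace X] [TopologicalSpace V] {O : Set X} {f : ι → X → V}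
  {g : X → V}

theorem CC.mov (h : CC l O f g) {y : X} (hy : y ∈ O) {z : ι → X} (hz : Tendsto z l (𝓝 y)) :
    Tendsto (fun i => f i (z i)) l (𝓝 (g y)) := (h y hy).comp (tendsto_id.prodMk hz)

theorem CC.cont [RegularSpace V] [l.NeBot] (h : CC l O f g) (hO : IsOpen O) : ContinuousOn g O :=
  fun y hy => ContinuousAt.continuousWithinAt ((closed_nhds_basis _).tendsto_right_iff.2
    fun W hW => by
      obtain ⟨pa, ha, pb, hb, H⟩ := eventually_prod_iff.1 (h y hy hW.1)
      filter_upwards [hb, hO.mem_nhds hy] with z a b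
      exact hW.2.mem_of_tendsto (h.mov b tendsto_const_nhds) (ha.mono fun i c => H c a))

end

theorem Bd.fderiv (h : Bd l O f) (hO : IsOpen O) : Bd l O fun i => fderiv ℝ (f i) :=
  h.elim fun B h => ⟨fun k => B (k + 1), h.mono fun _ a => ⟨a.1.fderiv_of_isOpen hO (by simp),
    fun k y hy => (norm_iteratedFDeriv_fderiv ..).trans_le (a.2 _ y hy)⟩⟩

theorem Bd.iso {W : Type} [NormedAddCommGroup W] [NormedSpace ℝ W] (h : Bd l O f)
    (T : V ≃ₗᵢ[ℝ] W) : Bd l O fun i => T ∘ f i :=
  h.imp fun _ h => h.mono fun _ a => ⟨T.toContinuousLinearEquiv.contDiff.comp_contDiffOn a.1,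
    fun k y hy => (T.norm_iteratedFDeriv_comp_left _ _ _).trans_le (a.2 k y hy)⟩

variable [FiniteDimensional ℝ V]

theorem Bd.cc (h : Bd U O f) (hO : IsOpen O) (hc : Convex ℝ O) : CC U O f (lm U f) := by
  have := FiniteDimensional.proper_real V
  obtain ⟨B, h⟩ := h
  intro y hy
  have h1 : Tendsto (fun i => f i y) U (𝓝 (lm U f y)) := tendsto_nhds_limUnder
    (((isCompact_closedBall (0 : V) (B 0)).ultrafilter_le_nhds' (U.map fun i => f i y)
      (h.mono fun i a => by simpa using a.2 0 y hy)).imp fun _ a => a.2)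
  have h2 : Tendsto (fun p : ι × X => f p.1 p.2 - f p.1 y) (U ×ˢ 𝓝 y) (𝓝 0) := by
    refine squeeze_zero_norm' (a := fun p => B 1 * ‖p.2 - y‖) ?_ ?_
    · filter_upwards [tendsto_fst.eventually h, tendsto_snd.eventually (hO.mem_nhds hy)] with p a b
      exact hc.norm_image_sub_le_of_norm_fderiv_le (fun z hz =>
        (a.1.contDiffAt (hO.mem_nhds hz)).differentiableAt (by simp))
        (fun z hz => by simpa using a.2 1 z hz) hy b
    · simpa using (tendsto_sub_nhds_zero_iff.2
        (tendsto_snd (f := (U : Filter ι)) (g := 𝓝 y))).norm.const_mul (B 1)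
  simpa using h2.add (h1.comp tendsto_fst)

variable [FiniteDimensional ℝ X]

theorem Bd.hasFDerivAt (h : Bd U O f) (hO : IsOpen O) (hc : Convex ℝ O) {y : X} (hy : y ∈ O) :
    HasFDerivAt (lm U f) (lm U (fun i => _root_.fderiv ℝ (f i)) y) y := by
  have h1 := (h.fderiv hO).cc hO hc
  refine hasFDerivAt_of_tendstoUniformlyOnFilter (f := f) (f' := fun i => _root_.fderiv ℝ (f i))
    (l := (U : Filter ι)) (tendstoUniformlyOnFilter_iff_tendsto.2 ((((h1.cont hO).continuousAt
      (hO.mem_nhds hy)).tendsto.comp tendsto_snd).prodMk_nhds (h1 y hy) |>.mono_right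
        (nhds_le_uniformity _))) ?_
    (mem_of_superset (hO.mem_nhds hy) fun z hz => (h.cc hO hc).mov hz tendsto_const_nhds)
  filter_upwards [tendsto_fst.eventually h.choose_spec, tendsto_snd.eventually (hO.mem_nhds hy)]
    with p a b
  exact ((a.1.contDiffAt (hO.mem_nhds b)).differentiableAt (by simp)).hasFDerivAt

theorem Bd.smooth (h : Bd U O f) (hO : IsOpen O) (hc : Convex ℝ O) :
    ContDiffOn ℝ ∞ (lm U f) O := by
  refine contDiffOn_infty.2 fun k => ?_
  induction k generalizing V with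
  | zero => exact contDiffOn_zero.2 ((h.cc hO hc).cont hO)
  | succ k ih =>
    rw [Nat.cast_succ, contDiffOn_succ_iff_fderiv_of_isOpen hO]
    exact ⟨fun x hx => (h.hasFDerivAt hO hc hx).differentiableAt.differentiableWithinAt, by simp,
      (ih (h.fderiv hO)).congr fun x hx => (h.hasFDerivAt hO hc hx).fderiv⟩

theorem Bd.cc_fderiv (h : Bd U O f) (hO : IsOpen O) (hc : Convex ℝ O) (e : CC U O f g) :
    CC U O (fun i => _root_.fderiv ℝ (f i)) (_root_.fderiv ℝ g) := fun y hy => by
  have : g =ᶠ[𝓝 y] lm U f := mem_of_superset (hO.mem_nhds hy) fun z hz =>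
    tendsto_nhds_unique (e z hz) (h.cc hO hc z hz)
  rw [this.fderiv_eq, (h.hasFDerivAt hO hc hy).fderiv]
  exact (h.fderiv hO).cc hO hc y hy

/-- continuous convergence gives the convergence of the integrals, for every filter -/
theorem CC.integral {X : Type} [MetricSpace X] [MeasurableSpace X] [BorelSpace X]
    (μ : Measure X) [IsFiniteMeasureOnCompacts μ] {K s : Set X} (hK : IsCompact K) (hs : s ⊆ K)
    {F : ι → X → ℝ} {G : X → ℝ} (h : CC l K F G) (hF : ∀ᶠ i in l, ContinuousOn (F i) K)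
    (hG : ContinuousOn G K) : Tendsto (fun i => ∫ y in s, F i y ∂μ) l (𝓝 (∫ y in s, G y ∂μ)) := by
  have h1 : TendstoUniformlyOn F G l K :=
    (tendstoLocallyUniformlyOn_iff_tendstoUniformlyOn_of_compact hK).1
      (tendstoLocallyUniformlyOn_iff_forall_tendsto.2 fun y hy =>
        (((hG y hy).tendsto.comp tendsto_snd).prodMk_nhds ((h y hy).mono_left
          (prod_mono_right _ nhdsWithin_le_nhds))).mono_right (nhds_le_uniformity _))
  refine Metric.tendsto_nhds.2 fun ε e0 => ?_
  have m0 : 0 ≤ μ.real s := measureReal_nonneg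
  filter_upwards [hF, Metric.tendstoUniformlyOn_iff.1 h1 (ε / (μ.real s + 1)) (by positivity)]
    with i a b
  rw [dist_comm, dist_eq_norm, ← integral_sub ((hG.integrableOn_compact hK).mono_set hs)
    ((a.integrableOn_compact hK).mono_set hs)]
  refine (norm_setIntegral_le_of_norm_le_const ((measure_mono hs).trans_lt hK.measure_lt_top)
    fun y hy => (dist_eq_norm (G y) _ ▸ b y (hs hy)).le).trans_lt ?_
  rw [div_mul_eq_mul_div, div_lt_iff₀ (by positivity)]
  linarith

end Vale.Agent.P218R.Lm
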