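import Mathlib.Analysis.Calculus.MeanValue
import Mathlib.Analysis.Calculus.Deriv.MeanValue
import Mathlib.Analysis.Convex.PathConnected
import Mathlib.Analysis.Calculus.Deriv.Pow
import Mathlib.Algebra.QuadraticDiscriminant

/-!
# P218R: a saddle in the plane
-/

open Set

noncomputable section

namespace Vale.Agent.P218R.Lo2

/-- `k` is close to `(x² - y²) / 2` in the box of size `d`, with partial derivatives `a`, `b` -/
structure Sdl (k a b : ℝ → ℝ → ℝ) (d : ℝ) : Prop where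
  k0 : k 0 0 = 0
  da : ∀ x y, HasDerivAt (fun x => k x y) (a x y) x
  db : ∀ x y, HasDerivAt (k x) (b x y) y
  ea : ∀ x y, |x| < d → |y| < d → |a x y - x| ≤ max |x| |y| / 10
  eb : ∀ x y, |x| < d → |y| < d → |b x y + y| ≤ max |x| |y| / 10

theorem mvt {φ φ' : ℝ → ℝ} {y C : ℝ} (h : ∀ t, HasDerivAt φ (φ' t) t)
    (b : ∀ t, |t| ≤ |y| → |φ' t| ≤ C) : |φ y - φ 0| ≤ C * |y| := by
  simpa using (convex_closedBall (0 : ℝ) |y|).norm_image_sub_le_of_norm_hasDerivWithin_le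
    (x := 0) (y := y) (fun t _ => (h t).hasDerivWithinAt) (fun t ht => b t (by simpa using ht))
    (by simp) (by simp)

/-- the box -/
def box (d : ℝ) : Set (ℝ × ℝ) := {z | |z.1| < d ∧ |z.2| < d}

namespace Sdl

variable {k a b : ℝ → ℝ → ℝ} {d x y : ℝ} (h : Sdl k a b d)
include h

theorem swap : Sdl (fun x y => -k y x) (fun x y => -b y x) (fun x y => -a y x) d where
  k0 := by simp [h.k0]
  da x y := (h.db y x).neg
  db x y := (h.da y x).neg
  ea x y hx hy := by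
    rw [max_comm, ← abs_neg]
    convert h.eb y x hy hx using 2
    ring
  eb x y hx hy := by
    rw [max_comm, ← abs_neg]
    convert h.ea y x hy hx using 2
    ring

theorem est (hx : |x| < d) (hy : |y| < d) :
    |k x y - (x ^ 2 - y ^ 2) / 2| ≤ max |x| |y| ^ 2 / 5 := by
  have d0 : |(0 : ℝ)| < d := by simpa using (abs_nonneg x).trans_lt hx
  have h1 := mvt (φ := fun t => k t 0 - t ^ 2 / 2) (φ' := fun t => a t 0 - t) (y := x)
    (C := max |x| |y| / 10)
    (fun t => (h.da t 0).sub (by simpa using (hasDerivAt_pow 2 t).div_const 2))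
    fun t ht => (h.ea t 0 (ht.trans_lt hx) d0).trans (div_le_div_of_nonneg_right
      (max_le_max ht (abs_zero.trans_le (abs_nonneg y))) (by norm_num))
  have h2 := mvt (φ := fun t => k x t + t ^ 2 / 2) (φ' := fun t => b x t + t) (y := y)
    (C := max |x| |y| / 10)
    (fun t => (h.db x t).add (by simpa using (hasDerivAt_pow 2 t).div_const 2))
    fun t ht => (h.eb x t hx (ht.trans_lt hy)).trans (by gcongr)
  simp only [h.k0] at h1 h2
  have m1 := le_max_left |x| |y|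
  have m2 := le_max_right |x| |y|
  have m0 := (abs_nonneg x).trans m1
  generalize max |x| |y| = N at *
  rw [abs_le] at h1 h2 ⊢
  constructor <;> nlinarith [h1.1, h1.2, h2.1, h2.2, mul_le_mul_of_nonneg_left m1 m0,
    mul_le_mul_of_nonneg_left m2 m0]

theorem pos (hx : |x| < d) (h0 : x ≠ 0) (hy : |y| ≤ |x| / 2) : 0 < k x y := by
  have x0 := abs_pos.2 h0
  have := (abs_le.1 (h.est hx (y := y) (by linarith))).1
  rw [max_eq_left (by linarith), sq_abs] at this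
  nlinarith [sq_abs x, sq_abs y, abs_nonneg y]

theorem ne (hy : |y| < d) : k 0 y ≤ 0 := by
  have := (abs_le.1 (h.est (x := 0) (by simpa using (abs_nonneg y).trans_lt hy) hy)).2
  rw [abs_zero, max_eq_right (abs_nonneg y), sq_abs] at this
  nlinarith [sq_nonneg y]

theorem vert (hx : |x| < d) (hy : |y| < d) (h0 : x ≠ 0) (hk : 0 < k x y) {s : ℝ} (s0 : 0 ≤ s)
    (s1 : s ≤ 1) : 0 < k x (s * y) := by
  rcases le_or_gt |s * y| (|x| / 2) with c | c
  · exact h.pos hx h0 c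
  rcases s1.eq_or_lt with rfl | s1
  · simpa using hk
  have dφ : ∀ t, HasDerivAt (fun t => k x (t * y)) (b x (t * y) * y) t := fun t =>
    (h.db x (t * y)).comp t (hasDerivAt_mul_const y)
  obtain ⟨t, ht, e⟩ := exists_hasDerivAt_eq_slope _ _ s1
    (fun t _ => (dφ t).continuousAt.continuousWithinAt) fun t _ => dφ t
  have t0 : 0 < t := s0.trans_lt ht.1
  have y0 := abs_nonneg y
  rw [abs_mul, abs_of_nonneg s0] at c
  have e1 : |t * y| = t * |y| := by rw [abs_mul, abs_of_pos t0]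
  have e2 := h.eb x (t * y) hx (by nlinarith [ht.2])
  have e3 : max |x| |t * y| ≤ 2 * (t * |y|) :=
    max_le (by nlinarith [ht.1]) (by nlinarith [mul_nonneg t0.le y0])
  have e4 : (b x (t * y) + t * y) * y ≤ 2 * (t * |y|) / 10 * |y| :=
    (le_abs_self _).trans (by rw [abs_mul]; gcongr; linarith)
  have e5 : b x (t * y) * y ≤ 0 := by nlinarith [sq_abs y, mul_nonneg t0.le (sq_nonneg y)]
  rw [e, one_mul, div_nonpos_iff] at e5
  rcases e5 with e5 | e5 <;> linarith [e5.1, e5.2]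

theorem conn (d0 : 0 < d) {σ : ℝ} (hσ : σ * σ = 1) :
    IsConnected {z ∈ box d | 0 < k z.1 z.2 ∧ 0 < σ * z.1} := by
  have a1 : |σ| = 1 := by nlinarith [abs_mul_abs_self σ, abs_nonneg σ]
  set I : Set (ℝ × ℝ) := {x | |x| < d ∧ 0 < σ * x} ×ˢ {0}
  have cI : Convex ℝ I := by
    refine Convex.prod (Convex.inter (s := {x | |x| < d}) ?_ ?_) (convex_singleton _)
    · simpa [Metric.ball] using convex_ball (0 : ℝ) d
    · exact convex_halfSpace_gt ⟨mul_add σ, fun c x => mul_left_comm σ c x⟩ 0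
  have sI : I ⊆ {z ∈ box d | 0 < k z.1 z.2 ∧ 0 < σ * z.1} := by
    rintro ⟨x, y⟩ ⟨⟨h1, h2⟩, rfl⟩
    exact ⟨⟨h1, by simpa using d0⟩, h.pos h1 (right_ne_zero_of_mul h2.ne') (by simp; positivity), h2⟩
  have m0 : (σ * (d / 2), 0) ∈ I := ⟨⟨by
    rw [abs_mul, a1, abs_of_pos (half_pos d0)]; linarith, by
    rw [← mul_assoc, hσ]; linarith⟩, rfl⟩
  refine ⟨⟨_, sI m0⟩, isPreconnected_of_forall (σ * (d / 2), 0) ?_⟩
  rintro ⟨x, y⟩ ⟨⟨h1, h2⟩, h3, h4⟩
  refine ⟨I ∪ (fun s : ℝ => (x, s * y)) '' Icc 0 1, union_subset sI ?_, .inl m0,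
    .inr ⟨1, by simp, by simp⟩, IsPreconnected.union (x, 0) ⟨⟨h1, h4⟩, rfl⟩ ⟨0, by simp, by simp⟩
      cI.isPreconnected (isPreconnected_Icc.image _ (by fun_prop))⟩
  rintro _ ⟨s, hs, rfl⟩
  refine ⟨⟨h1, lt_of_le_of_lt ?_ h2⟩, h.vert h1 h2 (right_ne_zero_of_mul h4.ne') h3 hs.1 hs.2, h4⟩
  rw [abs_mul, abs_of_nonneg hs.1]
  exact mul_le_of_le_one_left (abs_nonneg _) hs.2

theorem conn' (d0 : 0 < d) {σ : ℝ} (hσ : σ * σ = 1) :
    IsConnected {z ∈ box d | k z.1 z.2 < 0 ∧ 0 < σ * z.2} := by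
  convert (h.swap.conn d0 hσ).image Prod.swap continuous_swap.continuousOn
  ext ⟨x, y⟩
  simp [box, and_comm]

theorem pt (d0 : 0 < d) {σ : ℝ} (hσ : σ * σ = 1) :
    ∃ z ∈ box d, k z.1 z.2 = 0 ∧ 0 < z.1 ∧ 0 < σ * z.2 := by
  have a1 : |σ| = 1 := by nlinarith [abs_mul_abs_self σ, abs_nonneg σ]
  have e1 : |d / 4| = d / 4 := abs_of_pos (by positivity)
  have e2 : ∀ s, 0 ≤ s → |s * σ| = s := fun s hs => by rw [abs_mul, a1, mul_one, abs_of_nonneg hs]
  have p1 : 0 < k (d / 4) (0 * σ) := h.pos (by linarith) (by positivity) (by simp; positivity)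
  have p2 : 0 < -k (d / 4) (d / 2 * σ) := h.swap.pos (x := d / 2 * σ) (y := d / 4)
    (by rw [e2 _ (by positivity)]; linarith) (abs_pos.1 (by rw [e2 _ (by positivity)]; linarith))
    (by rw [e2 _ (by positivity)]; linarith)
  have c : Continuous fun s => k (d / 4) (s * σ) :=
    (continuous_iff_continuousAt.2 fun t => (h.db _ t).continuousAt).comp (by fun_prop)
  obtain ⟨s, hs, e⟩ := intermediate_value_Ioo' (a := 0) (b := d / 2) (by positivity) c.continuousOn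
    (show (0 : ℝ) ∈ Ioo _ _ from ⟨by linarith, p1⟩)
  refine ⟨(d / 4, s * σ), ⟨by simp only; linarith, ?_⟩, e, by positivity, ?_⟩
  · simp only [e2 s hs.1.le]; linarith [hs.2]
  · simp only; rw [mul_left_comm, hσ, mul_one]; exact hs.1

theorem jac (hx : |x| < d) (hy : |y| < d) (hk : k x y = 0) (h0 : (x, y) ≠ 0) {A B u w : ℝ}
    (hA : 0 < A) (hB : 0 < B) (hu : |u - A * x| ≤ (A + B) / 20 * max |x| |y|)
    (hw : |w - B * y| ≤ (A + B) / 20 * max |x| |y|) : x * y * (u * b x y - w * a x y) < 0 := by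
  have e := h.est hx hy
  have e1 := h.ea x y hx hy
  have e2 := h.eb x y hx hy
  have m1 := le_max_left |x| |y|
  have m2 := le_max_right |x| |y|
  have N0 : 0 < max |x| |y| := by
    refine lt_of_le_of_ne ((abs_nonneg x).trans m1) fun c => h0 (Prod.ext ?_ ?_)
    exacts [abs_nonpos_iff.1 (c ▸ m1), abs_nonpos_iff.1 (c ▸ m2)]
  have l : 3 / 5 * max |x| |y| ^ 2 ≤ |x * y| := by
    rw [hk, abs_le] at e
    rw [abs_mul]
    rw [← sq_abs x, ← sq_abs y] at e
    have key : ∀ s t : ℝ, 0 < s → 0 ≤ t → t ≤ s → (s ^ 2 - t ^ 2) / 2 ≤ s ^ 2 / 5 →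
        3 / 5 * s ^ 2 ≤ s * t := fun s t h1 h2 h3 h4 => by nlinarith
    rcases max_choice |x| |y| with c | c <;> rw [c] at e m1 m2 N0 ⊢
    · exact key _ _ N0 (abs_nonneg _) m2 (by linarith [e.1])
    · rw [mul_comm |x|]
      exact key _ _ N0 (abs_nonneg _) m1 (by linarith [e.2])
  generalize max |x| |y| = N at *
  have r : |A * x * (b x y + y) - B * y * (a x y - x) + (u - A * x) * (b x y + y) -
      (u - A * x) * y - (w - B * y) * (a x y - x) - (w - B * y) * x| ≤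
      A * N * (N / 10) + B * N * (N / 10) + (A + B) / 20 * N * (N / 10) + (A + B) / 20 * N * N +
        (A + B) / 20 * N * (N / 10) + (A + B) / 20 * N * N := by
    refine (abs_sub _ _).trans (add_le_add ((abs_sub _ _).trans (add_le_add ((abs_sub _ _).trans
      (add_le_add ((abs_add_le _ _).trans (add_le_add ((abs_sub _ _).trans (add_le_add ?_ ?_)) ?_))
        ?_)) ?_)) ?_) <;> simp only [abs_mul, abs_of_pos hA, abs_of_pos hB] <;> gcongr
  generalize hR : A * x * (b x y + y) - B * y * (a x y - x) + (u - A * x) * (b x y + y) -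
      (u - A * x) * y - (w - B * y) * (a x y - x) - (w - B * y) * x = R at r
  rw [show u * b x y - w * a x y = R - (A + B) * (x * y) by rw [← hR]; ring]
  have r1 : x * y * R ≤ |x * y| * |R| := (le_abs_self _).trans_eq (abs_mul _ _)
  have r2 : |R| < (A + B) * |x * y| := by
    have := mul_pos (add_pos hA hB) (pow_pos N0 2)
    nlinarith [mul_le_mul_of_nonneg_left l (add_pos hA hB).le]
  have r3 : 0 < |x * y| := lt_of_lt_of_le (by positivity) l
  nlinarith [mul_lt_mul_of_pos_left r2 r3, abs_mul_abs_self (x * y)]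

end Sdl

/-- diagonalisation of an indefinite form -/
theorem diag {p q r : ℝ} (h : p * r - q * q < 0) : ∃ c s α β : ℝ, 0 < c ^ 2 + s ^ 2 ∧ α ≠ 0 ∧
    β ≠ 0 ∧ q * (c ^ 2 - s ^ 2) + (r - p) * c * s = 0 ∧
    α ^ 2 * (p * c ^ 2 + 2 * q * c * s + r * s ^ 2) = 1 ∧
    β ^ 2 * (p * s ^ 2 - 2 * q * c * s + r * c ^ 2) = -1 := by
  have key : ∀ c s : ℝ, 0 < c ^ 2 + s ^ 2 → q * (c ^ 2 - s ^ 2) + (r - p) * c * s = 0 →
      0 < p * c ^ 2 + 2 * q * c * s + r * s ^ 2 → p * s ^ 2 - 2 * q * c * s + r * c ^ 2 < 0 →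
      ∃ c s α β : ℝ, 0 < c ^ 2 + s ^ 2 ∧ α ≠ 0 ∧ β ≠ 0 ∧ q * (c ^ 2 - s ^ 2) + (r - p) * c * s = 0 ∧
        α ^ 2 * (p * c ^ 2 + 2 * q * c * s + r * s ^ 2) = 1 ∧
        β ^ 2 * (p * s ^ 2 - 2 * q * c * s + r * c ^ 2) = -1 := fun c s h1 h2 h3 h4 => by
    have h5 := neg_pos.2 h4
    refine ⟨c, s, (√_)⁻¹, (√_)⁻¹, h1, (inv_pos.2 (Real.sqrt_pos.2 h3)).ne',
      (inv_pos.2 (Real.sqrt_pos.2 h5)).ne', h2, ?_, ?_⟩
    · rw [inv_pow, Real.sq_sqrt h3.le, inv_mul_cancel₀ h3.ne']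
    · rw [inv_pow, Real.sq_sqrt h5.le, inv_neg, neg_mul, inv_mul_cancel₀ h4.ne]
  obtain ⟨c, s, h1, h2⟩ : ∃ c s : ℝ, 0 < c ^ 2 + s ^ 2 ∧
      q * (c ^ 2 - s ^ 2) + (r - p) * c * s = 0 := by
    rcases eq_or_ne q 0 with rfl | h0
    · exact ⟨1, 0, by norm_num, by norm_num⟩
    obtain ⟨c, hc⟩ := exists_quadratic_eq_zero (a := q) (b := r - p) (c := -q) h0
      ⟨√(discrim q (r - p) (-q)), (Real.mul_self_sqrt (by
        unfold discrim; nlinarith [sq_nonneg (r - p), sq_nonneg q])).symm⟩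
    exact ⟨c, 1, by positivity, by linarith⟩
  have e : (p * c ^ 2 + 2 * q * c * s + r * s ^ 2) * (p * s ^ 2 - 2 * q * c * s + r * c ^ 2) < 0 := by
    have : (p * c ^ 2 + 2 * q * c * s + r * s ^ 2) * (p * s ^ 2 - 2 * q * c * s + r * c ^ 2) =
        (p * r - q * q) * (c ^ 2 + s ^ 2) ^ 2 + (q * (c ^ 2 - s ^ 2) + (r - p) * c * s) ^ 2 := by
      ring
    rw [this, h2]
    simpa using mul_neg_of_neg_of_pos h (pow_pos h1 2)
  rcases mul_neg_iff.1 e with e | e
  · exact key c s h1 h2 e.1 e.2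
  · exact key (-s) c (by linarith [neg_sq s]) (by linarith [neg_sq s]) (by linarith [e.2, neg_sq s])
      (by linarith [e.1, neg_sq s])

end Vale.Agent.P218R.Lo2
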