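import Vale.Agent.P218R.WDefs
import Mathlib.Analysis.Calculus.DerivativeTest
import Mathlib.Analysis.Calculus.FDeriv.Symmetric

/-!
# P218R: calculus in space-time and the heat operator of a graph
-/

open Metric Filter Topology Set
open scoped ContDiff
open Vale.Agent.P366.Stmt (E)

noncomputable section

namespace Vale.Agent.P218R.Bern

variable {U : Set Z2} {f g v : Z2 → ℝ} {z ξ ζ : Z2}

/-- smooth at all points of `U` -/
def Sm (U : Set Z2) (f : Z2 → ℝ) : Prop := ∀ z ∈ U, ContDiffAt ℝ ∞ f z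

theorem Sm.da (h : Sm U f) (hz : z ∈ U) : DifferentiableAt ℝ f z :=
  (h z hz).differentiableAt (by simp)

theorem Sm.dd (h : Sm U f) (ξ : Z2) : Sm U (dd ξ f) := fun z hz =>
  ((h z hz).fderiv_right (m := ∞) (by simp)).clm_apply contDiffAt_const

theorem Sm.dx (h : Sm U f) (i : Fin 2) : Sm U (dx i f) := h.dd _

theorem Sm.dT (h : Sm U f) : Sm U (dT f) := h.dd _

theorem sm_const (c : ℝ) : Sm U fun _ => c := fun _ _ => contDiffAt_const

theorem Sm.add (h : Sm U f) (h' : Sm U g) : Sm U fun z => f z + g z := fun z hz =>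
  (h z hz).add (h' z hz)

theorem Sm.sub (h : Sm U f) (h' : Sm U g) : Sm U fun z => f z - g z := fun z hz =>
  (h z hz).sub (h' z hz)

theorem Sm.mul (h : Sm U f) (h' : Sm U g) : Sm U fun z => f z * g z := fun z hz =>
  (h z hz).mul (h' z hz)

theorem Sm.sq (h : Sm U f) : Sm U fun z => f z ^ 2 := fun z hz => (h z hz).pow 2

theorem sm_sum {ι : Type} (s : Finset ι) {F : ι → Z2 → ℝ} (h : ∀ i ∈ s, Sm U (F i)) :
    Sm U fun z => ∑ i ∈ s, F i z := fun z hz => ContDiffAt.sum fun i hi => h i hi z hz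

theorem Sm.congr (h : Sm U f) (hU : IsOpen U) (e : EqOn g f U) : Sm U g := fun z hz =>
  (h z hz).congr_of_eventuallyEq (e.eventuallyEq_of_mem (hU.mem_nhds hz))

theorem dd_congr (hU : IsOpen U) (e : EqOn f g U) (ξ : Z2) : EqOn (dd ξ f) (dd ξ g) U :=
  fun z hz => by rw [dd, dd, (e.eventuallyEq_of_mem (hU.mem_nhds hz)).fderiv_eq]

theorem dd_const (c : ℝ) : dd ξ (fun _ => c) z = 0 := by simp [dd]

theorem dd_add (hf : DifferentiableAt ℝ f z) (hg : DifferentiableAt ℝ g z) :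
    dd ξ (fun z => f z + g z) z = dd ξ f z + dd ξ g z := by
  rw [dd, fderiv_fun_add hf hg]; rfl

theorem dd_sub (hf : DifferentiableAt ℝ f z) (hg : DifferentiableAt ℝ g z) :
    dd ξ (fun z => f z - g z) z = dd ξ f z - dd ξ g z := by
  rw [dd, fderiv_fun_sub hf hg]; rfl

theorem dd_mul (hf : DifferentiableAt ℝ f z) (hg : DifferentiableAt ℝ g z) :
    dd ξ (fun z => f z * g z) z = dd ξ f z * g z + f z * dd ξ g z := by
  rw [dd, fderiv_fun_mul hf hg]
  simp only [dd, add_apply, smul_apply, smul_eq_mul]; ring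

theorem dd_sq (hf : DifferentiableAt ℝ f z) :
    dd ξ (fun z => f z ^ 2) z = 2 * f z * dd ξ f z := by
  simp only [sq]; rw [dd_mul hf hf]; ring

theorem dd_inv (hf : DifferentiableAt ℝ f z) (h0 : f z ≠ 0) :
    dd ξ (fun z => (f z)⁻¹) z = -((f z)⁻¹ * (f z)⁻¹ * dd ξ f z) := by
  have h := ((hasDerivAt_inv h0).comp_hasFDerivAt z hf.hasFDerivAt).fderiv
  rw [dd]
  erw [h]
  simp only [dd, smul_apply, smul_eq_mul]
  field_simp

theorem dd_sum {ι : Type} (s : Finset ι) {F : ι → Z2 → ℝ}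
    (h : ∀ i ∈ s, DifferentiableAt ℝ (F i) z) :
    dd ξ (fun z => ∑ i ∈ s, F i z) z = ∑ i ∈ s, dd ξ (F i) z := by
  rw [dd, fderiv_fun_sum h]; simp [dd]

theorem dd_dd (hf : ContDiffAt ℝ ∞ f z) :
    dd ξ (dd ζ f) z = fderiv ℝ (fderiv ℝ f) z ξ ζ := by
  have h1 : DifferentiableAt ℝ (fderiv ℝ f) z :=
    (hf.fderiv_right (m := ∞) (by simp)).differentiableAt (by simp)
  have h2 := h1.hasFDerivAt.clm_apply (hasFDerivAt_const ζ z)
  rw [dd]
  erw [h2.fderiv]
  simp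

theorem dd_comm (hf : ContDiffAt ℝ ∞ f z) : dd ξ (dd ζ f) z = dd ζ (dd ξ f) z := by
  rw [dd_dd hf, dd_dd hf]
  exact (hf.isSymmSndFDerivAt (by
    simp only [minSmoothness_of_isRCLikeNormedField]; exact WithTop.coe_le_coe.2 le_top)).eq _ _

theorem dd_fst : dd ξ (fun z => z.1) z = ξ.1 := by rw [dd, hasFDerivAt_fst.fderiv]; rfl

theorem hasF_y (i : Fin 2) (z : Z2) : HasFDerivAt (fun z : Z2 => z.2 i)
    ((EuclideanSpace.proj i : E 2 →L[ℝ] ℝ) ∘L ContinuousLinearMap.snd ℝ ℝ (E 2)) z :=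
  ((EuclideanSpace.proj i : E 2 →L[ℝ] ℝ) ∘L ContinuousLinearMap.snd ℝ ℝ (E 2)).hasFDerivAt

theorem dd_y (i : Fin 2) : dd ξ (fun z => z.2 i) z = ξ.2 i := by rw [dd, (hasF_y i z).fderiv]; rfl

theorem sm_y (i : Fin 2) : Sm U fun z => z.2 i := fun _ _ =>
  ((EuclideanSpace.proj i : E 2 →L[ℝ] ℝ) ∘L ContinuousLinearMap.snd ℝ ℝ (E 2)).contDiff.contDiffAt

theorem sm_t : Sm U fun z => z.1 := fun _ _ => contDiffAt_fst

/-! ### the operator -/

/-- the squared length of the spatial gradient -/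
def gq (f : Z2 → ℝ) (z : Z2) : ℝ := ∑ k, dx k f z ^ 2

/-- the quadratic form of the operator -/
def qa (v f g : Z2 → ℝ) (z : Z2) : ℝ := ∑ i, ∑ j, ga v i j z * (dx i f z * dx j g z)

theorem gq_nonneg (f : Z2 → ℝ) (z : Z2) : 0 ≤ gq f z := Finset.sum_nonneg fun _ _ => sq_nonneg _

theorem Sm.gq (h : Sm U f) : Sm U (gq f) := sm_sum _ fun k _ => (h.dx k).sq

theorem Sm.ji (h : Sm U v) : Sm U fun z => (1 + Bern.gq v z)⁻¹ := fun z hz =>
  (((sm_const 1).add h.gq) z hz).inv (by have := gq_nonneg v z; positivity)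

theorem Sm.ga (h : Sm U v) (i j : Fin 2) : Sm U (ga v i j) :=
  (sm_const _).sub (((h.dx i).mul (h.dx j)).mul h.ji)

theorem Sm.ht (h : Sm U v) (hf : Sm U f) : Sm U (ht v f) :=
  hf.dT.sub (sm_sum _ fun i _ => sm_sum _ fun j _ => (h.ga i j).mul ((hf.dx j).dx i))

theorem ht_congr (hU : IsOpen U) (e : EqOn f g U) : EqOn (ht v f) (ht v g) U := fun z hz => by
  have h1 : dT f z = dT g z := dd_congr hU e _ hz
  have h2 : ∀ i j, dx i (dx j f) z = dx i (dx j g) z := fun i j =>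
    dd_congr hU (dd_congr hU e _) _ hz
  simp only [ht, h1, h2]

theorem ht_const (c : ℝ) : ht v (fun _ => c) z = 0 := by
  have : ∀ j, dx j (fun _ => c) = fun _ => 0 := fun j => funext fun _ => dd_const c
  simp only [ht, this]
  simp [dT, dx, dd_const]

theorem ht_add (hU : IsOpen U) (hz : z ∈ U) (hf : Sm U f) (hg : Sm U g) :
    ht v (fun z => f z + g z) z = ht v f z + ht v g z := by
  have h1 : dT (fun z => f z + g z) z = dT f z + dT g z := dd_add (hf.da hz) (hg.da hz)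
  have h2 : ∀ i j, dx i (dx j fun z => f z + g z) z = dx i (dx j f) z + dx i (dx j g) z :=
    fun i j => (dd_congr hU (fun y hy => dd_add (hf.da hy) (hg.da hy)) _ hz).trans
      (dd_add ((hf.dx j).da hz) ((hg.dx j).da hz))
  simp only [ht, h1, h2, Fin.sum_univ_two]; ring

theorem ht_sum (hU : IsOpen U) (hz : z ∈ U) {ι : Type} (s : Finset ι) {F : ι → Z2 → ℝ}
    (h : ∀ i ∈ s, Sm U (F i)) : ht v (fun z => ∑ i ∈ s, F i z) z = ∑ i ∈ s, ht v (F i) z := by
  classical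
  induction s using Finset.induction_on with
  | empty => simpa using ht_const 0
  | insert a s ha ih =>
    simp only [Finset.sum_insert ha]
    rw [ht_add hU hz (h a (by simp)) (sm_sum s fun i hi => h i (by simp [hi])),
      ih fun i hi => h i (by simp [hi])]

theorem ht_mul (hU : IsOpen U) (hz : z ∈ U) (hf : Sm U f) (hg : Sm U g) :
    ht v (fun z => f z * g z) z = f z * ht v g z + g z * ht v f z - 2 * qa v f g z := by
  have h1 : dT (fun z => f z * g z) z = dT f z * g z + f z * dT g z := dd_mul (hf.da hz) (hg.da hz)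
  have h2 : ∀ i j, dx i (dx j fun z => f z * g z) z = dx i (dx j f) z * g z + dx j f z * dx i g z +
      (dx i f z * dx j g z + f z * dx i (dx j g) z) := fun i j => by
    refine (dd_congr hU (fun y hy => dd_mul (hf.da hy) (hg.da hy)) _ hz).trans ?_
    rw [dd_add (((hf.dd _).mul hg).da hz) ((hf.mul (hg.dd _)).da hz),
      dd_mul ((hf.dd _).da hz) (hg.da hz), dd_mul (hf.da hz) ((hg.dd _).da hz)]
    rfl
  have h3 : ga v 1 0 z = ga v 0 1 z := by simp [ga, mul_comm]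
  simp only [ht, qa, h1, h2, Fin.sum_univ_two, h3]; ring

theorem dx_ht (hU : IsOpen U) (hz : z ∈ U) (hv : Sm U v) (hf : Sm U f) (l : Fin 2) :
    ht v (dx l f) z = dx l (ht v f) z + ∑ i, ∑ j, dx l (ga v i j) z * dx i (dx j f) z := by
  have h1 : dx l (dT f) z = dT (dx l f) z := dd_comm (hf z hz)
  have h2 : ∀ i j, dx l (dx i (dx j f)) z = dx i (dx j (dx l f)) z := fun i j =>
    (dd_comm (hf.dx j z hz)).trans (dd_congr hU (fun y hy => dd_comm (hf y hy)) _ hz)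
  have h3 : dx l (ht v f) z = dx l (dT f) z - ∑ i, ∑ j, (dx l (ga v i j) z * dx i (dx j f) z +
      ga v i j z * dx l (dx i (dx j f)) z) := by
    refine (dd_sub (hf.dT.da hz) ((sm_sum _ fun i _ => sm_sum _ fun j _ =>
      (hv.ga i j).mul ((hf.dx j).dx i)).da hz)).trans ?_
    rw [dd_sum _ fun i _ => (sm_sum _ fun j _ => (hv.ga i j).mul ((hf.dx j).dx i)).da hz]
    congr 1
    refine Finset.sum_congr rfl fun i _ => ?_
    rw [dd_sum _ fun j _ => ((hv.ga i j).mul ((hf.dx j).dx i)).da hz]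
    exact Finset.sum_congr rfl fun j _ => dd_mul ((hv.ga i j).da hz) (((hf.dx j).dx i).da hz)
  rw [h3, h1]
  simp only [ht, h2, Fin.sum_univ_two]; ring

theorem qa_eq (v f g : Z2 → ℝ) (z : Z2) : qa v f g z = (1 + gq v z)⁻¹ *
    (dx 0 f z * dx 0 g z + dx 1 f z * dx 1 g z + (dx 0 v z * dx 1 f z - dx 1 v z * dx 0 f z) *
      (dx 0 v z * dx 1 g z - dx 1 v z * dx 0 g z)) := by
  have := gq_nonneg v z
  simp only [qa, ga, gq, Fin.sum_univ_two] at this ⊢
  simp only [if_true, Fin.zero_eq_one_iff, Fin.one_eq_zero_iff, OfNat.ofNat_ne_one, if_false]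
  field_simp
  ring

theorem qa_lo (h : gq v z ≤ 1) (f : Z2 → ℝ) : gq f z / 2 ≤ qa v f f z := by
  have h0 := gq_nonneg v z
  have h1 := gq_nonneg f z
  rw [qa_eq, le_inv_mul_iff₀ (by positivity)]
  have : gq f z = dx 0 f z * dx 0 f z + dx 1 f z * dx 1 f z := by simp [gq, sq]
  nlinarith [mul_self_nonneg (dx 0 v z * dx 1 f z - dx 1 v z * dx 0 f z)]

theorem qa_nonneg (v f : Z2 → ℝ) (z : Z2) : 0 ≤ qa v f f z := by
  have h0 := gq_nonneg v z
  rw [qa_eq]
  exact mul_nonneg (by positivity) (add_nonneg (add_nonneg (mul_self_nonneg _)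
    (mul_self_nonneg _)) (mul_self_nonneg _))

theorem qa_sq (v f g : Z2 → ℝ) (z : Z2) : qa v f g z ^ 2 ≤ gq f z * gq g z := by
  have h0 := gq_nonneg v z
  rw [qa_eq, mul_pow, inv_pow, inv_mul_le_iff₀ (by positivity)]
  simp only [gq, Fin.sum_univ_two] at h0 ⊢
  generalize dx 0 v z = p at *
  generalize dx 1 v z = q at *
  generalize dx 0 f z = a
  generalize dx 1 f z = b
  generalize dx 0 g z = c
  generalize dx 1 g z = d
  have h1 : (p * b - q * a) ^ 2 ≤ (p ^ 2 + q ^ 2) * (a ^ 2 + b ^ 2) := by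
    nlinarith [sq_nonneg (p * a + q * b)]
  have h2 : (p * d - q * c) ^ 2 ≤ (p ^ 2 + q ^ 2) * (c ^ 2 + d ^ 2) := by
    nlinarith [sq_nonneg (p * c + q * d)]
  generalize p * b - q * a = x at *
  generalize p * d - q * c = y at *
  have h3 : (a * c + b * d + x * y) ^ 2 ≤ (a ^ 2 + b ^ 2 + x ^ 2) * (c ^ 2 + d ^ 2 + y ^ 2) := by
    nlinarith [sq_nonneg (a * d - b * c), sq_nonneg (a * y - x * c), sq_nonneg (b * y - x * d)]
  refine h3.trans ?_
  have h4 : a ^ 2 + b ^ 2 + x ^ 2 ≤ (1 + (p ^ 2 + q ^ 2)) * (a ^ 2 + b ^ 2) := by linarith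
  have h5 : c ^ 2 + d ^ 2 + y ^ 2 ≤ (1 + (p ^ 2 + q ^ 2)) * (c ^ 2 + d ^ 2) := by linarith
  calc _ ≤ ((1 + (p ^ 2 + q ^ 2)) * (a ^ 2 + b ^ 2)) * ((1 + (p ^ 2 + q ^ 2)) * (c ^ 2 + d ^ 2)) :=
        mul_le_mul h4 h5 (by positivity) (by positivity)
    _ = _ := by ring

theorem qa_hi (v f : Z2 → ℝ) (z : Z2) : qa v f f z ≤ gq f z :=
  (abs_le_of_sq_le_sq' (by rw [sq (gq f z)]; exact qa_sq v f f z) (gq_nonneg f z)).2

theorem abs_ga (v : Z2 → ℝ) (i j : Fin 2) (z : Z2) : |ga v i j z| ≤ 1 := by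
  have h0 := gq_nonneg v z
  have h1 : |dx i v z * dx j v z| ≤ gq v z := by
    simp only [gq, Fin.sum_univ_two]
    rw [abs_le]
    fin_cases i <;> fin_cases j <;> constructor <;> simp only [Fin.zero_eta, Fin.mk_one] <;>
      nlinarith [sq_nonneg (dx 0 v z + dx 1 v z), sq_nonneg (dx 0 v z - dx 1 v z),
        sq_nonneg (dx 0 v z), sq_nonneg (dx 1 v z)]
  have h2 : |dx i v z * dx j v z * (1 + gq v z)⁻¹| ≤ 1 := by
    rw [abs_mul, abs_of_pos (by positivity : 0 < (1 + gq v z)⁻¹), mul_inv_le_iff₀ (by positivity)]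
    linarith
  change |(if i = j then 1 else 0) - dx i v z * dx j v z * (1 + gq v z)⁻¹| ≤ 1
  split_ifs with h
  · subst h
    have : 0 ≤ dx i v z * dx i v z * (1 + gq v z)⁻¹ :=
      mul_nonneg (mul_self_nonneg _) (by positivity)
    rw [abs_le] at h2 ⊢; constructor <;> linarith
  · rwa [zero_sub, abs_neg]

end Vale.Agent.P218R.Bern
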