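import Vale.Agent.P218R.WBern1

/-!
# P218R: the localised maximum principle and one step of Bernstein's method
-/

open Metric Filter Topology Set
open scoped ContDiff
open Vale.Agent.P366.Stmt (E)

noncomputable section

namespace Vale.Agent.P218R.Bern

variable {U : Set Z2} {f g v : Z2 → ℝ} {z ξ ζ : Z2}

theorem line (hf : DifferentiableAt ℝ f (z + (0 : ℝ) • ξ)) :
    HasDerivAt (fun s : ℝ => f (z + s • ξ)) (dd ξ f (z + (0 : ℝ) • ξ)) 0 :=
  hf.hasFDerivAt.comp_hasDerivAt (0 : ℝ)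
    (by simpa using ((hasDerivAt_id (0 : ℝ)).smul_const ξ).const_add z)

theorem line' (hf : DifferentiableAt ℝ f z) :
    HasDerivAt (fun s : ℝ => f (z + s • ξ)) (dd ξ f z) 0 := by
  have := line (f := f) (z := z) (ξ := ξ) (by simpa using hf)
  simpa using this

theorem second (hU : IsOpen U) (hz : z ∈ U) (hf : Sm U f)
    (hm : IsLocalMax (fun s : ℝ => f (z + s • ξ)) 0) : dd ξ f z = 0 ∧ dd ξ (dd ξ f) z ≤ 0 := by
  have h0 : dd ξ f z = 0 := hm.hasDerivAt_eq_zero (line' (hf.da hz))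
  refine ⟨h0, not_lt.1 fun hp => ?_⟩
  have hc : Continuous fun s : ℝ => z + s • ξ := by fun_prop
  have h1 : deriv (fun s : ℝ => f (z + s • ξ)) =ᶠ[𝓝 0] fun s => dd ξ f (z + s • ξ) := by
    filter_upwards [hc.continuousAt.eventually (hU.mem_nhds (by simpa using hz))] with s hs
    exact ((hf.da hs).hasFDerivAt.comp_hasDerivAt s
      (by simpa using ((hasDerivAt_id s).smul_const ξ).const_add z)).deriv
  have h2 : deriv (deriv fun s : ℝ => f (z + s • ξ)) 0 = dd ξ (dd ξ f) z := by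
    rw [h1.deriv_eq, (line' ((hf.dd ξ).da hz)).deriv]
  have h3 := isLocalMin_of_deriv_deriv_pos (h2 ▸ hp) hm.deriv_eq_zero
    (line' (hf.da hz)).continuousAt
  have h4 : (fun s : ℝ => f (z + s • ξ)) =ᶠ[𝓝 0] fun _ => f (z + (0 : ℝ) • ξ) := by
    filter_upwards [hm, h3] with y h5 h6 using le_antisymm h5 h6
  have h5 := h4.deriv.deriv_eq
  rw [h2] at h5
  simp [h5] at hp

/-- the closed backward cylinder -/
def Kc (ρ : ℝ) : Set Z2 := Icc (-ρ ^ 2) 0 ×ˢ closedBall 0 ρ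

theorem Kc_mono {ρ ρ' : ℝ} (h0 : 0 ≤ ρ') (h : ρ' ≤ ρ) : Kc ρ' ⊆ Kc ρ :=
  prod_mono (Icc_subset_Icc_left (by nlinarith)) (closedBall_subset_closedBall h)

theorem at_max {ρ : ℝ} (hU : IsOpen U) (hz : z ∈ U) (hf : Sm U f) (hm : IsMaxOn f (Kc ρ) z)
    (h1 : -ρ ^ 2 < z.1) (h2 : z.1 ≤ 0) (h3 : ‖z.2‖ < ρ) : (∀ i, dx i f z = 0) ∧ 0 ≤ ht v f z := by
  have hs : ∀ y : E 2, dd (0, y) f z = 0 ∧ dd (0, y) (dd (0, y) f) z ≤ 0 := fun y => by
    refine second hU hz hf ?_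
    have hc : Continuous fun s : ℝ => ‖z.2 + s • y‖ := by fun_prop
    filter_upwards [hc.continuousAt.eventually (gt_mem_nhds (by simpa using h3))] with s hs
    simp only [zero_smul, add_zero]
    exact hm ⟨by simpa using ⟨h1.le, h2⟩, by simpa using hs.le⟩
  refine ⟨fun i => (hs _).1, ?_⟩
  have hT : 0 ≤ dT f z := by
    have h4 := (line' (ξ := (1, 0)) (hf.da hz)).tendsto_slope_zero_left
    refine ge_of_tendsto h4 ?_
    filter_upwards [Ioo_mem_nhdsLT (show -ρ ^ 2 - z.1 < 0 by linarith)] with s hs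
    have h5 : f (z + s • ((1, 0) : Z2)) ≤ f z :=
      hm ⟨by simp only [Prod.fst_add, Prod.smul_mk, smul_eq_mul, mul_one]
             exact ⟨by linarith [hs.1], by linarith [hs.2]⟩, by simpa using h3.le⟩
    simp only [zero_add, zero_smul, add_zero, smul_eq_mul]
    exact mul_nonneg_of_nonpos_of_nonpos (inv_nonpos.2 hs.2.le) (by linarith)
  have h4 := (hs (EuclideanSpace.single 0 1)).2
  have h5 := (hs (EuclideanSpace.single 1 1)).2
  have h6 := (hs (dx 1 v z • EuclideanSpace.single 0 1 - dx 0 v z • EuclideanSpace.single 1 1)).2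
  have h7 : ((0, dx 1 v z • EuclideanSpace.single 0 1 - dx 0 v z • EuclideanSpace.single 1 1) : Z2) =
      dx 1 v z • ((0, EuclideanSpace.single 0 1) : Z2) -
        dx 0 v z • ((0, EuclideanSpace.single 1 1) : Z2) := by simp
  rw [h7, dd_dd (hf z hz)] at h6
  simp only [map_sub, map_smul, sub_apply, smul_apply, smul_eq_mul, ← dd_dd (hf z hz)] at h6
  have h0 := gq_nonneg v z
  have h8 : ∑ i, ∑ j, ga v i j z * dx i (dx j f) z = (1 + gq v z)⁻¹ * (dx 0 (dx 0 f) z +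
      dx 1 (dx 1 f) z + (dx 1 v z * (dx 1 v z * dx 0 (dx 0 f) z - dx 0 v z * dx 1 (dx 0 f) z) -
        dx 0 v z * (dx 1 v z * dx 0 (dx 1 f) z - dx 0 v z * dx 1 (dx 1 f) z))) := by
    simp only [ga, gq, Fin.sum_univ_two] at h0 ⊢
    simp only [if_true, Fin.zero_eq_one_iff, Fin.one_eq_zero_iff, OfNat.ofNat_ne_one, if_false]
    field_simp
    ring
  rw [ht, h8, sub_nonneg]
  exact (mul_nonpos_of_nonneg_of_nonpos (by positivity)
    (add_nonpos (add_nonpos h4 h5) h6)).trans hT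

/-- the spatial cutoff -/
def be (ρ : ℝ) (z : Z2) : ℝ := ρ ^ 2 - (z.2 0 ^ 2 + z.2 1 ^ 2)

theorem be_eq (ρ : ℝ) (z : Z2) : be ρ z = ρ ^ 2 - ‖z.2‖ ^ 2 := by
  rw [EuclideanSpace.real_norm_sq_eq, Fin.sum_univ_two, be]

theorem sm_be (ρ : ℝ) : Sm U (be ρ) := (sm_const _).sub ((sm_y 0).sq.add (sm_y 1).sq)

theorem dd_be (ρ : ℝ) : dd ξ (be ρ) z = -(2 * z.2 0 * ξ.2 0 + 2 * z.2 1 * ξ.2 1) := by
  have d := fun i => (hasF_y i z).differentiableAt
  have q := fun i => (sm_y (U := univ) i).sq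
  unfold be
  rw [dd_sub (differentiableAt_const _) (((q 0).add (q 1)).da (mem_univ z)), dd_const,
    dd_add ((q 0).da (mem_univ z)) ((q 1).da (mem_univ z)), dd_sq (d 0), dd_sq (d 1), dd_y, dd_y,
    zero_sub]

theorem dx_be (ρ : ℝ) (j : Fin 2) : dx j (be ρ) = fun z => -2 * z.2 j := funext fun z => by
  rw [dx, dd_be]; fin_cases j <;> simp

theorem ht_be (ρ : ℝ) : ht v (be ρ) z ≤ 4 := by
  have h1 : ∀ i j, dx i (fun z : Z2 => -2 * z.2 j) z = if j = i then -2 else 0 := fun i j => by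
    rw [dx, dd_mul (differentiableAt_const _) (hasF_y j z).differentiableAt, dd_const, dd_y]
    simp
  have h2 := abs_le.1 (abs_ga v 0 0 z)
  have h3 := abs_le.1 (abs_ga v 1 1 z)
  simp only [ht, dx_be, h1, dT, dd_be, Fin.sum_univ_two]
  simp
  linarith

/-- the cutoff -/
def et (ρ : ℝ) (z : Z2) : ℝ := (z.1 + ρ ^ 2) * (be ρ z * be ρ z)

theorem sm_et (ρ : ℝ) : Sm U (et ρ) := (sm_t.add (sm_const _)).mul ((sm_be ρ).mul (sm_be ρ))

theorem et_bd {ρ : ℝ} (hρ : ρ ≤ 1) (hz : z ∈ Kc ρ) : 0 ≤ et ρ z ∧ et ρ z ≤ 1 ∧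
    ht v (et ρ) z ≤ 9 ∧ gq (et ρ) z ≤ 16 * et ρ z := by
  obtain ⟨⟨h1, h2⟩, h3⟩ := hz
  rw [mem_closedBall_zero_iff] at h3
  have h4 := norm_nonneg z.2
  have b0 : 0 ≤ be ρ z := by rw [be_eq]; nlinarith
  have b1 : be ρ z ≤ 1 := by rw [be_eq]; nlinarith
  have t0 : 0 ≤ z.1 + ρ ^ 2 := by linarith
  have t1 : z.1 + ρ ^ 2 ≤ 1 := by nlinarith
  have b2 : be ρ z * be ρ z ≤ 1 := mul_le_one₀ b1 b0 b1
  have hτ : Sm univ fun z : Z2 => z.1 + ρ ^ 2 := sm_t.add (sm_const _)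
  have d1 : ∀ (ξ z : Z2), dd ξ (fun z : Z2 => z.1 + ρ ^ 2) z = ξ.1 := fun ξ z => by
    rw [dd_add differentiableAt_fst (differentiableAt_const _), dd_fst, dd_const, add_zero]
  have d2 : ∀ j, dx j (fun z : Z2 => z.1 + ρ ^ 2) = fun _ => 0 := fun j => funext fun z => d1 _ z
  have hb := sm_be (U := univ) ρ
  refine ⟨by unfold et; positivity, mul_le_one₀ t1 (by positivity) b2, ?_, ?_⟩
  · have e1 : ht v (fun z : Z2 => z.1 + ρ ^ 2) z = 1 := by
      simp only [ht, d2, dT, d1]; simp [dx, dd_const]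
    have e2 : qa v (fun z : Z2 => z.1 + ρ ^ 2) (fun z => be ρ z * be ρ z) z = 0 := by
      simp [qa, d2]
    unfold et
    rw [ht_mul isOpen_univ trivial hτ (hb.mul hb), ht_mul isOpen_univ trivial hb hb, e1, e2]
    have e3 := qa_nonneg v (be ρ) z
    have e4 := ht_be (v := v) (z := z) ρ
    have e5 : be ρ z * ht v (be ρ) z ≤ 4 := by nlinarith
    nlinarith
  · have e1 : ∀ k, dx k (et ρ) z = (z.1 + ρ ^ 2) * (2 * be ρ z * (-2 * z.2 k)) := fun k => by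
      have e2 := congrFun (dx_be ρ k) z
      unfold et
      rw [dx, dd_mul (hτ.da trivial) ((hb.mul hb).da trivial), d1,
        dd_mul (hb.da trivial) (hb.da trivial)]
      rw [dx] at e2
      rw [e2]; ring
    have e2 : z.2 0 ^ 2 + z.2 1 ^ 2 ≤ 1 := by
      have := be_eq ρ z
      rw [be] at this
      nlinarith
    have e3 : gq (et ρ) z = 16 * et ρ z * ((z.1 + ρ ^ 2) * (z.2 0 ^ 2 + z.2 1 ^ 2)) := by
      simp only [gq, Fin.sum_univ_two, e1, et]; ring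
    rw [e3]
    exact mul_le_of_le_one_right (by unfold et; positivity) (mul_le_one₀ t1 (by positivity) e2)

/-- the localised maximum principle -/
theorem mp {c C ρ ρ' : ℝ} (hc : 0 < c) (hC : 0 ≤ C) (h0 : 0 < ρ') (h1 : ρ' < ρ) (hρ : ρ ≤ 1) :
    ∃ M, ∀ (U : Set Z2) (v φ : Z2 → ℝ), IsOpen U → Kc ρ ⊆ U → Sm U φ →
      (∀ z ∈ Kc ρ, 0 ≤ φ z ∧ ht v φ z ≤ -c * φ z ^ 2 + C) → ∀ z ∈ Kc ρ', φ z ≤ M := by
  have hd : 0 < ρ ^ 2 - ρ' ^ 2 := by nlinarith
  refine ⟨((C + 41) / c + 1) / (ρ ^ 2 - ρ' ^ 2) ^ 3, fun U v φ hU hK hφ h z hz => ?_⟩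
  have hψ : Sm U fun z => et ρ z * φ z := (sm_et ρ).mul hφ
  obtain ⟨w, hw, hm⟩ := (isCompact_Icc.prod (isCompact_closedBall (0 : E 2) ρ)).exists_isMaxOn
    ⟨z, Kc_mono h0.le h1.le hz⟩ (fun y hy => (hψ y (hK hy)).continuousAt.continuousWithinAt)
  have hb : et ρ w * φ w ≤ (C + 41) / c + 1 := by
    by_contra! hx
    have hx0 : 0 ≤ (C + 41) / c := by positivity
    obtain ⟨e0, e1, e2, e3⟩ := et_bd (v := v) hρ hw
    obtain ⟨p0, p1⟩ := h w hw
    have e4 : et ρ w ≠ 0 := fun e => by rw [e] at hx; linarith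
    have e5 : -ρ ^ 2 < w.1 := lt_of_le_of_ne hw.1.1 fun e => e4 (by simp [et, ← e])
    have e6 : ‖w.2‖ < ρ := lt_of_le_of_ne (mem_closedBall_zero_iff.1 hw.2)
      fun e => e4 (by simp [et, be_eq, e])
    obtain ⟨m1, m2⟩ := at_max (v := v) hU (hK hw) hψ hm e5 hw.1.2 e6
    rw [ht_mul hU (hK hw) (sm_et ρ) hφ] at m2
    have m3 : ∀ i, et ρ w * dx i φ w = -(φ w * dx i (et ρ) w) := fun i => by
      have := m1 i
      rw [dx, dd_mul ((sm_et ρ).da (hK hw)) (hφ.da (hK hw))] at this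
      simp only [dx]; linarith
    have m4 : et ρ w * qa v (et ρ) φ w = -(φ w * qa v (et ρ) (et ρ) w) := by
      simp only [qa, Fin.sum_univ_two]
      linear_combination (ga v 0 0 w * dx 0 (et ρ) w + ga v 1 0 w * dx 1 (et ρ) w) * m3 0 +
        (ga v 0 1 w * dx 0 (et ρ) w + ga v 1 1 w * dx 1 (et ρ) w) * m3 1
    have m5 := mul_le_mul_of_nonneg_left ((qa_hi v (et ρ) w).trans e3) p0
    have m6 := mul_nonneg e0 m2
    have m7 := mul_le_mul_of_nonneg_left p1 (mul_nonneg e0 e0)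
    have m8 := mul_le_mul_of_nonneg_left e2 (mul_nonneg e0 p0)
    have m9 : et ρ w * et ρ w * C ≤ C := mul_le_of_le_one_left hC (mul_le_one₀ e1 e0 e1)
    have m10 : c * (et ρ w * φ w) ^ 2 ≤ C + 41 * (et ρ w * φ w) := by nlinarith
    generalize et ρ w * φ w = x at hx m10
    have m11 : C + 41 < c * x := by
      rw [← div_lt_iff₀' hc]; linarith
    nlinarith
  have hz' := Kc_mono h0.le h1.le hz
  obtain ⟨⟨z1, -⟩, z2⟩ := hz
  rw [mem_closedBall_zero_iff] at z2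
  have z3 : ρ ^ 2 - ρ' ^ 2 ≤ be ρ z := by rw [be_eq]; nlinarith [norm_nonneg z.2]
  have z4 : (ρ ^ 2 - ρ' ^ 2) ^ 3 ≤ et ρ z := by
    rw [et, pow_three]
    exact mul_le_mul (by linarith) (mul_le_mul z3 z3 hd.le (hd.le.trans z3)) (by positivity)
      (by linarith)
  rw [le_div_iff₀ (by positivity)]
  have z5 : et ρ z * φ z ≤ et ρ w * φ w := hm hz'
  nlinarith [(h z hz').1]

variable {κ : Type} {s : Finset κ} {F : κ → Z2 → ℝ}

theorem ht_sq (hU : IsOpen U) (hz : z ∈ U) (hv : gq v z ≤ 1) (hF : ∀ a ∈ s, Sm U (F a)) :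
    ht v (fun z => ∑ a ∈ s, F a z ^ 2) z ≤
      2 * ∑ a ∈ s, F a z * ht v (F a) z - ∑ a ∈ s, gq (F a) z := by
  rw [ht_sum hU hz s fun a ha => (hF a ha).sq, Finset.mul_sum, ← Finset.sum_sub_distrib]
  refine Finset.sum_le_sum fun a ha => ?_
  simp only [sq]
  rw [ht_mul hU hz (hF a ha) (hF a ha)]
  linarith [qa_lo hv (F a)]

theorem gq_sq (hz : z ∈ U) (hF : ∀ a ∈ s, Sm U (F a)) : gq (fun z => ∑ a ∈ s, F a z ^ 2) z ≤
    4 * (∑ a ∈ s, F a z ^ 2) * ∑ a ∈ s, gq (F a) z := by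
  simp only [gq]
  rw [Finset.sum_comm, Finset.mul_sum]
  refine Finset.sum_le_sum fun k _ => ?_
  rw [dx, dd_sum s fun a ha => (hF a ha).sq.da hz,
    Finset.sum_congr rfl fun a ha => dd_sq ((hF a ha).da hz)]
  simp only [mul_assoc, ← Finset.mul_sum]
  have := Finset.sum_mul_sq_le_sq_mul_sq s (fun a => F a z)
    fun a => dd (0, EuclideanSpace.single k 1) (F a) z
  simp only [dx]
  nlinarith

/-- one step of Bernstein's method -/
theorem step {σ k M ρ ρ' : ℝ} (hσ : 0 < σ) (hk : 2056 * σ * k ≤ 1) (hM : 0 ≤ M) (h0 : 0 < ρ')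
    (h1 : ρ' < ρ) (hρ : ρ ≤ 1) : ∃ M', ∀ (U : Set Z2) (v S T T' : Z2 → ℝ), IsOpen U → Kc ρ ⊆ U →
      Sm U S → Sm U T → (∀ z ∈ Kc ρ, 0 ≤ S z ∧ S z ≤ σ ∧ 0 ≤ T z ∧ 0 ≤ T' z ∧
        ht v S z ≤ M - T z / 2 ∧ ht v T z ≤ k * T z ^ 2 + M - T' z / 2 ∧
        gq S z ≤ 4 * S z * T z ∧ gq T z ≤ 4 * T z * T' z) → ∀ z ∈ Kc ρ', T z ≤ M' := by
  obtain ⟨M', hM'⟩ := mp (c := (8 * (257 * σ) ^ 2)⁻¹) (C := 2 * M ^ 2 + 257 * σ * M)
    (by positivity) (by positivity) h0 h1 hρ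
  refine ⟨M' / (256 * σ), fun U v S T T' hU hK hS hT h z hz => ?_⟩
  have := hM' U v (fun z => (256 * σ + S z) * T z) hU hK (((sm_const _).add hS).mul hT)
    (fun w hw => ?_) z hz
  · obtain ⟨s0, -, t0, -⟩ := h z (Kc_mono h0.le h1.le hz)
    rw [le_div_iff₀ (by positivity)]
    nlinarith [mul_nonneg s0 t0]
  obtain ⟨s0, s1, t0, t1, a1, a2, a3, a4⟩ := h w hw
  refine ⟨by positivity, ?_⟩
  have e1 : qa v (fun z => 256 * σ + S z) T w = qa v S T w := by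
    have : ∀ i, dx i (fun z => 256 * σ + S z) w = dx i S w := fun i => by
      rw [dx, dd_add (differentiableAt_const _) (hS.da (hK hw)), dd_const, zero_add, dx]
    simp only [qa, this]
  rw [ht_mul hU (hK hw) ((sm_const _).add hS) hT, ht_add hU (hK hw) (sm_const _) hS, ht_const,
    zero_add, e1]
  have e2 : qa v S T w ^ 2 ≤ 16 * σ * T w ^ 2 * T' w := by
    refine (qa_sq v S T w).trans ((mul_le_mul a3 a4 (gq_nonneg _ _) (by positivity)).trans ?_)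
    nlinarith [mul_le_mul_of_nonneg_right s1 (show 0 ≤ T w ^ 2 * T' w by positivity)]
  have e3 : -(2 * qa v S T w) ≤ 128 * σ * T' w + T w ^ 2 / 8 := by
    refine (neg_le_abs _).trans (abs_le_of_sq_le_sq ?_ (by positivity))
    nlinarith [sq_nonneg (128 * σ * T' w - T w ^ 2 / 8)]
  have e4 := mul_le_mul_of_nonneg_left a2 (show 0 ≤ 256 * σ + S w by positivity)
  have e5 := mul_le_mul_of_nonneg_left a1 t0
  have e6 : (256 * σ + S w) * (k * T w ^ 2) ≤ T w ^ 2 / 8 := by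
    rcases le_total k 0 with hk0 | hk0
    · exact (mul_nonpos_of_nonneg_of_nonpos (by positivity)
        (mul_nonpos_of_nonpos_of_nonneg hk0 (by positivity))).trans (by positivity)
    · have : (256 * σ + S w) * k ≤ 1 / 8 := by nlinarith
      nlinarith [sq_nonneg (T w)]
  have e7 : (8 * (257 * σ) ^ 2)⁻¹ * ((256 * σ + S w) * T w) ^ 2 ≤ T w ^ 2 / 8 := by
    rw [inv_mul_le_iff₀ (by positivity), mul_pow]
    have : (256 * σ + S w) ^ 2 ≤ (257 * σ) ^ 2 := pow_le_pow_left₀ (by positivity) (by linarith) 2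
    nlinarith [sq_nonneg (T w)]
  nlinarith [mul_nonneg s0 t1, mul_le_mul_of_nonneg_right s1 hM, sq_nonneg (T w - 4 * M)]

end Vale.Agent.P218R.Bern
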