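import Vale.Agent.P218R.WBern2

/-!
# P218R: the differentiated equations
-/

open Metric Filter Topology Set
open scoped ContDiff
open Vale.Agent.P366.Stmt (E)

noncomputable section

namespace Vale.Agent.P218R.Bern

/-- iterated spatial derivatives -/
def wd : List (Fin 2) → (Z2 → ℝ) → Z2 → ℝ
  | [], f => f
  | i :: w, f => dx i (wd w f)

theorem Sm.wd {U : Set Z2} {f : Z2 → ℝ} (h : Sm U f) : ∀ w, Sm U (wd w f)
  | [] => h
  | i :: w => (Sm.wd h w).dx i

theorem wd_append (i : Fin 2) (f : Z2 → ℝ) : ∀ w, wd (w ++ [i]) f = wd w (dx i f)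
  | [] => rfl
  | j :: w => congrArg (dx j) (wd_append i f w)

/-- the words of length `k` -/
def Ws : ℕ → Finset (List (Fin 2))
  | 0 => {[]}
  | k + 1 => (Finset.univ ×ˢ Ws k).map ⟨fun p => p.1 :: p.2, fun _ _ h =>
      Prod.ext (List.cons.inj h).1 (List.cons.inj h).2⟩

theorem mem_Ws : ∀ {k : ℕ} {w : List (Fin 2)}, w ∈ Ws k ↔ w.length = k
  | 0, w => by simp [Ws]
  | k + 1, [] => by simp [Ws]
  | k + 1, i :: w => by
    rw [Ws]
    refine (Finset.mem_map' _ (a := (i, w))).trans ?_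
    simp [mem_Ws (k := k)]

/-- the squared length of the derivatives of order `k` -/
def TT (k : ℕ) (f : Z2 → ℝ) (z : Z2) : ℝ := ∑ w ∈ Ws k, wd w f z ^ 2

theorem TT_nonneg (k : ℕ) (f : Z2 → ℝ) (z : Z2) : 0 ≤ TT k f z :=
  Finset.sum_nonneg fun _ _ => sq_nonneg _

theorem TT_succ (k : ℕ) (f : Z2 → ℝ) (z : Z2) :
    TT (k + 1) f z = ∑ w ∈ Ws k, gq (wd w f) z := by
  rw [TT, Ws, Finset.sum_map, Finset.sum_product_right]; rfl

theorem abs_wd {k : ℕ} {w : List (Fin 2)} (h : w.length = k) (f : Z2 → ℝ) (z : Z2) :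
    |wd w f z| ≤ √(TT k f z) := Real.abs_le_sqrt
  (Finset.single_le_sum (f := fun w => wd w f z ^ 2) (fun _ _ => sq_nonneg _) (mem_Ws.2 h))

/-- normalised solutions -/
structure Mb where
  v : Z2 → ℝ
  τ : ℝ
  pos : 0 < τ
  sol : Sol v (-1) τ 1 1

/-- the domain -/
def Mb.U (γ : Mb) : Set Z2 := Ioo (-1) γ.τ ×ˢ ball 0 1

theorem Mb.op (γ : Mb) : IsOpen γ.U := isOpen_Ioo.prod isOpen_ball

theorem Mb.sm (γ : Mb) : Sm γ.U γ.v := fun _ hz => γ.sol.sm.contDiffAt (γ.op.mem_nhds hz)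

theorem Mb.gq_le (γ : Mb) {z : Z2} (hz : z ∈ γ.U) : gq γ.v z ≤ 1 := by
  simpa [gq] using γ.sol.gr z hz

theorem Mb.Kc_sub (γ : Mb) {ρ : ℝ} (h0 : 0 ≤ ρ) (h : ρ < 1) : Kc ρ ⊆ γ.U :=
  prod_mono (fun _ ht => ⟨by nlinarith [ht.1], ht.2.trans_lt γ.pos⟩) (closedBall_subset_ball h)

abbrev Fam := Mb → Z2 → ℝ

/-- polynomials in the derivatives of order at most `n` -/
inductive Ex (n : ℕ) : Fam → Prop
  | var (w : List (Fin 2)) : 1 ≤ w.length → w.length ≤ n → Ex n fun γ => wd w γ.v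
  | ji : Ex n fun γ z => (1 + gq γ.v z)⁻¹
  | const (c : ℝ) : Ex n fun _ _ => c
  | add {f g : Fam} : Ex n f → Ex n g → Ex n fun γ z => f γ z + g γ z
  | mul {f g : Fam} : Ex n f → Ex n g → Ex n fun γ z => f γ z * g γ z
  | congr {f g : Fam} : Ex n f → (∀ γ, EqOn (g γ) (f γ) γ.U) → Ex n g

/-- expressions which are linear in the derivatives of order `n + 1` -/
inductive Ln (n : ℕ) : Fam → Prop
  | ex {f : Fam} : Ex n f → Ln n f
  | top {b : Fam} (w : List (Fin 2)) : Ex n b → w.length = n + 1 →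
      Ln n fun γ z => b γ z * wd w γ.v z
  | add {f g : Fam} : Ln n f → Ln n g → Ln n fun γ z => f γ z + g γ z
  | congr {f g : Fam} : Ln n f → (∀ γ, EqOn (g γ) (f γ) γ.U) → Ln n g

variable {n : ℕ} {f g b : Fam} {P : Mb → Set Z2}

theorem Ex.sm (h : Ex n f) (γ : Mb) : Sm γ.U (f γ) := by
  induction h with
  | var w => exact γ.sm.wd w
  | ji => exact γ.sm.ji
  | const c => exact sm_const c
  | add _ _ h1 h2 => exact h1.add h2
  | mul _ _ h1 h2 => exact h1.mul h2
  | congr _ e h1 => exact h1.congr γ.op (e γ)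

theorem Ex.mono {m : ℕ} (h : Ex n f) (hm : n ≤ m) : Ex m f := by
  induction h with
  | var w h1 h2 => exact .var w h1 (h2.trans hm)
  | ji => exact .ji
  | const c => exact .const c
  | add _ _ h1 h2 => exact h1.add h2
  | mul _ _ h1 h2 => exact h1.mul h2
  | congr _ e h1 => exact h1.congr e

theorem Ex.sum2 {F : Fin 2 → Fam} (h : ∀ i, Ex n (F i)) : Ex n fun γ z => ∑ i, F i γ z :=
  ((h 0).add (h 1)).congr fun _ _ _ => Fin.sum_univ_two _

theorem Ln.sum2 {F : Fin 2 → Fam} (h : ∀ i, Ln n (F i)) : Ln n fun γ z => ∑ i, F i γ z :=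
  ((h 0).add (h 1)).congr fun _ _ _ => Fin.sum_univ_two _

theorem Ln.up (h : Ln n f) : Ex (n + 1) f := by
  induction h with
  | ex h => exact h.mono n.le_succ
  | top w h1 h2 => exact (h1.mono n.le_succ).mul (.var w (by omega) h2.le)
  | add _ _ h1 h2 => exact h1.add h2
  | congr _ e h1 => exact h1.congr e

theorem Ln.mul (hb : Ex n b) (h : Ln n f) : Ln n fun γ z => b γ z * f γ z := by
  induction h with
  | ex h => exact .ex (hb.mul h)
  | top w h1 h2 => exact (Ln.top w (hb.mul h1) h2).congr fun _ _ _ => (mul_assoc _ _ _).symm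
  | add _ _ h1 h2 => exact (h1.add h2).congr fun _ _ _ => mul_add _ _ _
  | congr _ e h1 => exact h1.congr fun γ z hz => congrArg _ (e γ hz)

theorem ln_var (w : List (Fin 2)) (h0 : 1 ≤ w.length) (h : w.length ≤ n + 1) :
    Ln n fun γ => wd w γ.v := by
  rcases h.eq_or_lt with h | h
  · exact (Ln.top w (.const 1) h).congr fun _ _ _ => (one_mul _).symm
  · exact .ex (.var w h0 (by omega))

theorem Ex.dx (hn : 1 ≤ n) (h : Ex n f) (l : Fin 2) : Ln n fun γ => dx l (f γ) := by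
  induction h with
  | var w h1 h2 => exact ln_var (l :: w) (by simp) (by simpa using h2)
  | ji =>
    refine (Ln.mul (((Ex.const (-2)).mul .ji).mul .ji) (Ln.sum2 fun k =>
      Ln.mul (.var [k] le_rfl hn) (ln_var [l, k] (by simp) (by simpa using hn)))).congr
      fun γ z hz => ?_
    have h0 := gq_nonneg γ.v z
    have h1 : dd (0, EuclideanSpace.single l 1) (gq γ.v) z =
        ∑ k, 2 * P218R.dx k γ.v z * P218R.dx l (P218R.dx k γ.v) z :=
      (dd_sum _ fun k _ => (γ.sm.dx k).sq.da hz).trans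
        (Finset.sum_congr rfl fun k _ => dd_sq ((γ.sm.dx k).da hz))
    refine (dd_inv (((sm_const 1).add γ.sm.gq).da hz) (by positivity)).trans ?_
    rw [dd_add (differentiableAt_const _) (γ.sm.gq.da hz), dd_const, zero_add, h1]
    simp only [wd, Fin.sum_univ_two]; ring
  | const c => exact (Ln.ex (.const 0)).congr fun _ _ _ => dd_const c
  | add a1 a2 h1 h2 =>
    exact (h1.add h2).congr fun γ z hz => dd_add ((a1.sm γ).da hz) ((a2.sm γ).da hz)
  | mul a1 a2 h1 h2 =>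
    exact ((Ln.mul a2 h1).add (Ln.mul a1 h2)).congr fun γ z hz =>
      (dd_mul ((a1.sm γ).da hz) ((a2.sm γ).da hz)).trans (by rw [mul_comm]; rfl)
  | congr _ e h1 => exact h1.congr fun γ => dd_congr γ.op (e γ) _

theorem ex_ga (i j : Fin 2) : Ex 1 fun γ => ga γ.v i j :=
  ((Ex.const (if i = j then 1 else 0)).add ((Ex.const (-1)).mul
    (((Ex.var [i] le_rfl le_rfl).mul (.var [j] le_rfl le_rfl)).mul .ji))).congr fun _ _ _ => by
      simp only [ga, wd, gq]; ring

theorem ln_dga (l i j : Fin 2) : Ln 1 fun γ => dx l (ga γ.v i j) := (ex_ga i j).dx le_rfl l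

/-- the right hand sides of the differentiated equations -/
def FF (w : List (Fin 2)) : Fam := fun γ => ht γ.v (wd w γ.v)

theorem FF_cons (l : Fin 2) (w : List (Fin 2)) (γ : Mb) : EqOn (FF (l :: w) γ) (fun z =>
    dx l (FF w γ) z + ∑ i, ∑ j, dx l (ga γ.v i j) z * wd (i :: j :: w) γ.v z) γ.U :=
  fun _ hz => dx_ht γ.op hz γ.sm (γ.sm.wd w) l

theorem FF_one (l : Fin 2) (γ : Mb) : EqOn (FF [l] γ) (fun z =>
    ∑ i, ∑ j, dx l (ga γ.v i j) z * wd [i, j] γ.v z) γ.U := fun z hz => by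
  have h : dx l (FF [] γ) z = 0 :=
    (dd_congr γ.op (g := fun _ => 0) (fun y hy => γ.sol.eq y hy) _ hz).trans (dd_const 0)
  rw [FF_cons l [] γ hz]
  simp only [h, zero_add]

theorem ex_FF (l : Fin 2) : Ex 2 (FF [l]) := (Ex.sum2 fun i => Ex.sum2 fun j =>
  (ln_dga l i j).up.mul (.var [i, j] (by simp) le_rfl)).congr (FF_one l)

theorem ln_FF : ∀ w : List (Fin 2), 2 ≤ w.length → Ln w.length (FF w)
  | [], h => by simp at h
  | [_], h => by simp at h
  | [k, l], _ => (((ex_FF l).dx (by simp) k).add (Ln.sum2 fun i => Ln.sum2 fun j =>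
      Ln.top [i, j, l] (ln_dga k i j).up rfl)).congr (FF_cons k [l])
  | k :: l :: m :: w, _ => (((ln_FF (l :: m :: w) (by simp)).up.dx (by simp) k).add
      (Ln.sum2 fun i => Ln.sum2 fun j => Ln.top (i :: j :: l :: m :: w)
        ((ln_dga k i j).up.mono (by simp)) rfl)).congr (FF_cons k _)

/-! ### uniform bounds -/

/-- a bound which is uniform in the solution -/
def Le (P : Mb → Set Z2) (f g : Fam) : Prop :=
  ∃ C ≥ (0 : ℝ), ∀ γ, ∀ z ∈ P γ, |f γ z| ≤ C * g γ z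

theorem Le.mono {g' : Fam} (h : Le P f g) (e : ∀ γ z, g γ z ≤ g' γ z) : Le P f g' :=
  let ⟨C, h0, h1⟩ := h
  ⟨C, h0, fun γ z hz => (h1 γ z hz).trans (mul_le_mul_of_nonneg_left (e γ z) h0)⟩

theorem Le.congr {f' : Fam} (h : Le P f g) (e : ∀ γ, EqOn (f' γ) (f γ) (P γ)) : Le P f' g :=
  let ⟨C, h0, h1⟩ := h
  ⟨C, h0, fun γ z hz => (e γ hz).symm ▸ h1 γ z hz⟩

theorem Le.add {f' : Fam} (h : Le P f g) (h' : Le P f' g) : Le P (fun γ z => f γ z + f' γ z) g :=
  let ⟨C, h0, h1⟩ := h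
  let ⟨C', h2, h3⟩ := h'
  ⟨C + C', add_nonneg h0 h2, fun γ z hz => (abs_add_le _ _).trans (by
    rw [add_mul]; exact add_le_add (h1 γ z hz) (h3 γ z hz))⟩

theorem Le.mul {f' g' : Fam} (h : Le P f g) (h' : Le P f' g') :
    Le P (fun γ z => f γ z * f' γ z) fun γ z => g γ z * g' γ z :=
  let ⟨C, h0, h1⟩ := h
  let ⟨C', h2, h3⟩ := h'
  ⟨C * C', mul_nonneg h0 h2, fun γ z hz => by
    rw [abs_mul, mul_mul_mul_comm]
    exact mul_le_mul (h1 γ z hz) (h3 γ z hz) (abs_nonneg _) ((abs_nonneg _).trans (h1 γ z hz))⟩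

theorem le_sum {ι : Type} (s : Finset ι) {F : ι → Fam} (h : ∀ i ∈ s, Le P (F i) g) :
    Le P (fun γ z => ∑ i ∈ s, F i γ z) g := by
  classical
  induction s using Finset.induction_on with
  | empty => exact ⟨0, le_rfl, fun _ _ _ => by simp⟩
  | insert a s ha ih =>
    simp only [Finset.sum_insert ha]
    exact (h a (by simp)).add (ih fun i hi => h i (by simp [hi]))

theorem Le.abs (h : Le P f g) : Le P (fun γ z => |f γ z|) g := by simpa only [Le, abs_abs] using h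

theorem le_wd {k : ℕ} {w : List (Fin 2)} (h : w.length = k) :
    Le P (fun γ => wd w γ.v) fun γ z => √(TT k γ.v z) :=
  ⟨1, zero_le_one, fun γ z _ => by simpa using abs_wd h γ.v z⟩

/-- the derivatives of order at most `n` are bounded -/
structure HB (P : Mb → Set Z2) (n : ℕ) : Prop where
  sub : ∀ γ, P γ ⊆ γ.U
  bd : ∀ w : List (Fin 2), 1 ≤ w.length → w.length ≤ n → Le P (fun γ => wd w γ.v) fun _ _ => 1

theorem Ex.le (hB : HB P n) (h : Ex n f) : Le P f fun _ _ => 1 := by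
  induction h with
  | var w h1 h2 => exact hB.bd w h1 h2
  | ji =>
    refine ⟨1, zero_le_one, fun γ z _ => ?_⟩
    have := gq_nonneg γ.v z
    rw [abs_of_pos (by positivity), mul_one]
    exact inv_le_one_of_one_le₀ (by linarith)
  | const c => exact ⟨|c|, abs_nonneg c, fun _ _ _ => by simp⟩
  | add _ _ h1 h2 => exact h1.add h2
  | mul _ _ h1 h2 => exact (h1.mul h2).mono fun _ _ => by simp
  | congr _ e h1 => exact h1.congr fun γ => (e γ).mono (hB.sub γ)

theorem Ln.le (hB : HB P n) (h : Ln n f) : Le P f fun γ z => 1 + √(TT (n + 1) γ.v z) := by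
  induction h with
  | ex h => exact (h.le hB).mono fun _ _ => by simp
  | top w h1 h2 => exact ((h1.le hB).mul (le_wd h2)).mono fun _ _ => by simp
  | add _ _ h1 h2 => exact h1.add h2
  | congr _ e h1 => exact h1.congr fun γ => (e γ).mono (hB.sub γ)

theorem Ln.dle (hn : 1 ≤ n) (hB : HB P n) (h : Ln n f) (l : Fin 2) : Le P (fun γ => dx l (f γ))
    fun γ z => 2 + 2 * TT (n + 1) γ.v z + √(TT (n + 2) γ.v z) := by
  have k1 : ∀ x : ℝ, 0 ≤ x → √x ≤ 1 + x := fun x hx => by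
    nlinarith [Real.sq_sqrt hx, Real.sqrt_nonneg x]
  induction h with
  | ex h =>
    refine ((h.dx hn l).le hB).mono fun γ z => ?_
    have := TT_nonneg (n + 1) γ.v z
    linarith [k1 _ this, Real.sqrt_nonneg (TT (n + 2) γ.v z)]
  | top w h1 h2 =>
    refine ((((((h1.dx hn l).le hB).mul (le_wd h2)).mono fun γ z => ?_).add
      (((h1.le hB).mul (le_wd (w := l :: w) (k := n + 2) (by simpa using h2))).mono
        fun γ z => ?_)).congr fun γ z hz =>
          dd_mul ((h1.sm γ).da (hB.sub γ hz)) ((γ.sm.wd w).da (hB.sub γ hz)))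
    · have := TT_nonneg (n + 1) γ.v z
      nlinarith [k1 _ this, Real.sqrt_nonneg (TT (n + 2) γ.v z), Real.sq_sqrt this]
    · linarith [TT_nonneg (n + 1) γ.v z]
  | add a1 a2 h1 h2 =>
    exact (h1.add h2).congr fun γ z hz =>
      dd_add ((a1.up.sm γ).da (hB.sub γ hz)) ((a2.up.sm γ).da (hB.sub γ hz))
  | congr _ e h1 => exact h1.congr fun γ => (dd_congr γ.op (e γ) _).mono (hB.sub γ)

end Vale.Agent.P218R.Bern
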