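import Vale.Agent.P218R.WBern3

/-!
# P218R: bounds for all derivatives of normalised solutions
-/

open Metric Filter Topology Set
open scoped ContDiff
open Vale.Agent.P366.Stmt (E)

noncomputable section

namespace Vale.Agent.P218R.Bern

variable {n : ℕ} {P : Mb → Set Z2}

theorem young {A k : ℝ} (hA : 0 ≤ A) (hk : 0 < k) :
    ∃ M ≥ (0 : ℝ), ∀ x ≥ (0 : ℝ), A * (x + x ^ 2 + x ^ 3) ≤ k * x ^ 4 + M := by
  set R := 1 + 3 * A / k with hR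
  have h0 : 0 ≤ 3 * A / k := by positivity
  refine ⟨A * (R + R ^ 2 + R ^ 3), by positivity, fun x hx => ?_⟩
  rcases le_total x R with h | h
  · have : A * (x + x ^ 2 + x ^ 3) ≤ A * (R + R ^ 2 + R ^ 3) := by gcongr
    have : 0 ≤ k * x ^ 4 := by positivity
    linarith
  · have h1 : 1 ≤ x := by linarith
    have h2 : 3 * A ≤ k * x := by rw [← div_le_iff₀' hk]; linarith
    have h3 : x ≤ x ^ 3 := by simpa using pow_le_pow_right₀ h1 (show 1 ≤ 3 by norm_num)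
    have h4 : x ^ 2 ≤ x ^ 3 := pow_le_pow_right₀ h1 (by norm_num)
    have h5 := mul_le_mul_of_nonneg_right h2 (show 0 ≤ x ^ 3 by positivity)
    have h6 : A * (x + x ^ 2 + x ^ 3) ≤ A * (x ^ 3 + x ^ 3 + x ^ 3) := by gcongr
    have : 0 ≤ A * (R + R ^ 2 + R ^ 3) := by positivity
    nlinarith

theorem ht_TT (γ : Mb) {z : Z2} (hz : z ∈ γ.U) (n : ℕ) : ht γ.v (TT n γ.v) z ≤
    2 * ∑ w ∈ Ws n, wd w γ.v z * FF w γ z - TT (n + 1) γ.v z := by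
  rw [TT_succ]
  exact ht_sq γ.op hz (γ.gq_le hz) fun w _ => γ.sm.wd w

theorem gq_TT (γ : Mb) {z : Z2} (hz : z ∈ γ.U) (n : ℕ) :
    gq (TT n γ.v) z ≤ 4 * TT n γ.v z * TT (n + 1) γ.v z := by
  rw [TT_succ]
  exact gq_sq hz fun w _ => γ.sm.wd w

theorem sm_TT (γ : Mb) (n : ℕ) : Sm γ.U (TT n γ.v) := sm_sum _ fun w _ => (γ.sm.wd w).sq

/-- the part of the cylinder for the solutions with slope at most `σ` -/
def Pr (σ ρ : ℝ) (γ : Mb) : Set Z2 := {z | z ∈ Kc ρ ∧ ∀ y ∈ γ.U, gq γ.v y ≤ σ ^ 2}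

theorem hb_succ {σ ρ ρ' s k M : ℝ} (hs : 0 < s) (hk : 2056 * s * k ≤ 1) (hM : 0 ≤ M)
    (h0 : 0 < ρ') (h1 : ρ' < ρ) (hρ : ρ < 1) (hB : HB (Pr σ ρ) n)
    (h : ∀ γ, ∀ z ∈ Pr σ ρ γ, TT n γ.v z ≤ s ∧
      2 * ∑ w ∈ Ws n, wd w γ.v z * FF w γ z ≤ M + TT (n + 1) γ.v z / 2 ∧
      2 * ∑ w ∈ Ws (n + 1), wd w γ.v z * FF w γ z ≤
        k * TT (n + 1) γ.v z ^ 2 + M + TT (n + 2) γ.v z / 2) : HB (Pr σ ρ') (n + 1) := by
  have hsub : ∀ γ, Pr σ ρ' γ ⊆ Pr σ ρ γ := fun γ z hz => ⟨Kc_mono h0.le h1.le hz.1, hz.2⟩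
  refine ⟨fun γ => (hsub γ).trans (hB.sub γ), fun w w1 w2 => ?_⟩
  rcases w2.eq_or_lt with w3 | w3
  swap
  · obtain ⟨C, c0, c1⟩ := hB.bd w w1 (by omega)
    exact ⟨C, c0, fun γ z hz => c1 γ z (hsub γ hz)⟩
  obtain ⟨M', hM'⟩ := step hs hk hM h0 h1 hρ.le
  refine ⟨√M', Real.sqrt_nonneg _, fun γ z hz => ?_⟩
  rw [mul_one]
  have hK := γ.Kc_sub (h0.trans h1).le hρ
  refine (abs_wd w3 _ _).trans (Real.sqrt_le_sqrt (hM' γ.U γ.v (TT n γ.v) (TT (n + 1) γ.v)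
    (TT (n + 2) γ.v) γ.op hK (sm_TT γ _) (sm_TT γ _) (fun y hy => ?_) z hz.1))
  obtain ⟨a1, a2, a3⟩ := h γ y ⟨hy, hz.2⟩
  exact ⟨TT_nonneg _ _ _, a1, TT_nonneg _ _ _, TT_nonneg _ _ _,
    by linarith [ht_TT γ (hK hy) n], by linarith [ht_TT γ (hK hy) (n + 1)], gq_TT γ (hK hy) n,
    gq_TT γ (hK hy) (n + 1)⟩

theorem hb_one (h : ∀ γ, P γ ⊆ γ.U) : HB P 1 := ⟨h, fun w h1 h2 => ⟨1, zero_le_one, fun γ z hz => by
  refine (abs_wd (le_antisymm h2 h1) _ _).trans ?_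
  rw [TT_succ, mul_one]
  simpa [Ws, wd] using γ.gq_le (h γ hz)⟩⟩

theorem hb_high {σ ρ ρ' : ℝ} (hn : 2 ≤ n) (h0 : 0 < ρ') (h1 : ρ' < ρ) (hρ : ρ < 1)
    (hB : HB (Pr σ ρ) n) : HB (Pr σ ρ') (n + 1) := by
  obtain ⟨s, s0, s1⟩ : Le (Pr σ ρ) (fun γ => TT n γ.v) fun _ _ => 1 :=
    le_sum _ fun w hw => (((hB.bd w (by rw [mem_Ws.1 hw]; omega) (mem_Ws.1 hw).le).mul
      (hB.bd w (by rw [mem_Ws.1 hw]; omega) (mem_Ws.1 hw).le)).mono fun _ _ => by simp).congr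
        fun _ _ _ => sq _
  have hL : ∀ w : List (Fin 2), w.length = n → Ln n (FF w) := fun w hw =>
    hw ▸ ln_FF w (hw ▸ hn)
  obtain ⟨A, A0, A1⟩ : Le (Pr σ ρ) (fun γ z => ∑ w ∈ Ws n, wd w γ.v z * FF w γ z)
      fun γ z => 1 * (1 + √(TT (n + 1) γ.v z)) := le_sum _ fun w hw =>
    (hB.bd w (by rw [mem_Ws.1 hw]; omega) (mem_Ws.1 hw).le).mul ((hL w (mem_Ws.1 hw)).le hB)
  obtain ⟨B, B0, B1⟩ : Le (Pr σ ρ) (fun γ z => ∑ w ∈ Ws (n + 1), wd w γ.v z * FF w γ z)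
      fun γ z => √(TT (n + 1) γ.v z) * (2 + 2 * TT (n + 1) γ.v z + √(TT (n + 2) γ.v z)) :=
    le_sum _ fun w hw => (le_wd (mem_Ws.1 hw)).mul (by
      obtain ⟨l, w, rfl⟩ := List.exists_cons_of_length_eq_add_one (mem_Ws.1 hw)
      have hw' : w.length = n := by simpa using mem_Ws.1 hw
      refine (((hL w hw').dle (by omega) hB l).add (le_sum _ fun i _ => le_sum _ fun j _ =>
        ((((ln_dga l i j).up.mono hn).le hB).mul (le_wd (w := i :: j :: w) (k := n + 2)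
          (by simpa using hw'))).mono fun γ z => ?_)).congr
            fun γ => (FF_cons l w γ).mono (hB.sub γ)
      linarith [TT_nonneg (n + 1) γ.v z])
  obtain ⟨M, M0, M1⟩ := young (A := 4 * B + 2 * B ^ 2) (k := (2056 * (s + 1))⁻¹) (by positivity)
    (by positivity)
  refine hb_succ (s := s + 1) (k := (2056 * (s + 1))⁻¹) (M := M + 2 * A + 2 * A ^ 2)
    (by positivity) (by rw [mul_inv_cancel₀ (by positivity)]) (by positivity) h0 h1 hρ hB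
    fun γ z hz => ?_
  have a1 := (le_abs_self _).trans (A1 γ z hz)
  have a2 := (le_abs_self _).trans (B1 γ z hz)
  have a3 := M1 _ (Real.sqrt_nonneg (TT (n + 1) γ.v z))
  have x0 := Real.sqrt_nonneg (TT (n + 1) γ.v z)
  have x1 := Real.sq_sqrt (TT_nonneg (n + 1) γ.v z)
  have y1 := Real.sq_sqrt (TT_nonneg (n + 2) γ.v z)
  beta_reduce at a1 a2
  generalize √(TT (n + 1) γ.v z) = x at *
  generalize √(TT (n + 2) γ.v z) = y at *
  rw [← x1] at a2 ⊢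
  rw [← y1]
  refine ⟨by linarith [(le_abs_self _).trans (s1 γ z hz)], by nlinarith [sq_nonneg (x - 2 * A)], ?_⟩
  have b1 : 0 ≤ B * x ^ 2 := by positivity
  have b2 : 0 ≤ B ^ 2 * x := by positivity
  have b3 : 0 ≤ B ^ 2 * x ^ 3 := by positivity
  have b4 : 0 ≤ A ^ 2 := by positivity
  nlinarith [sq_nonneg (y - 2 * B * x)]

theorem hb_two : ∃ σ > (0 : ℝ), σ ≤ 1 ∧ ∀ ρ, 0 < ρ → ρ < 1 → HB (Pr σ ρ) 2 := by
  have hB : HB Mb.U 1 := hb_one fun _ => Subset.rfl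
  obtain ⟨A, A0, A1⟩ : Le Mb.U (fun γ z => ∑ w ∈ Ws 1, |FF w γ z|)
      fun γ z => (1 + √(TT 2 γ.v z)) * √(TT 2 γ.v z) := le_sum _ fun w hw => Le.abs (by
    obtain ⟨l, rfl⟩ := List.length_eq_one_iff.1 (mem_Ws.1 hw)
    exact (le_sum _ fun i _ => le_sum _ fun j _ =>
      ((ln_dga l i j).le hB).mul (le_wd (w := [i, j]) rfl)).congr (FF_one l))
  obtain ⟨B, B0, B1⟩ : Le Mb.U (fun γ z => ∑ w ∈ Ws 2, wd w γ.v z * FF w γ z)
      fun γ z => √(TT 2 γ.v z) * ((2 + 2 * TT 2 γ.v z + √(TT 3 γ.v z)) * √(TT 2 γ.v z) +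
        (1 + √(TT 2 γ.v z)) * √(TT 3 γ.v z)) := le_sum _ fun w hw => (le_wd (mem_Ws.1 hw)).mul (by
    obtain ⟨k, l, rfl⟩ := List.length_eq_two.1 (mem_Ws.1 hw)
    have p1 : ∀ (γ : Mb) z, 0 ≤ (1 + √(TT 2 γ.v z)) * √(TT 3 γ.v z) := fun _ _ => by positivity
    have p2 : ∀ (γ : Mb) z, 0 ≤ (2 + 2 * TT 2 γ.v z + √(TT 3 γ.v z)) * √(TT 2 γ.v z) :=
      fun γ z => by have := TT_nonneg 2 γ.v z; positivity
    refine ((le_sum Finset.univ fun i _ => le_sum Finset.univ fun j _ =>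
      ((((ln_dga l i j).dle le_rfl hB k).mul (le_wd (w := [i, j]) rfl)).mono fun γ z =>
        le_add_of_nonneg_right (p1 γ z)).add ((((ln_dga l i j).le hB).mul
          (le_wd (w := [k, i, j]) rfl)).mono fun γ z => le_add_of_nonneg_left (p2 γ z))).add
      (le_sum Finset.univ fun i _ => le_sum Finset.univ fun j _ => (((ln_dga k i j).le hB).mul
        (le_wd (w := [i, j, l]) rfl)).mono fun γ z => le_add_of_nonneg_left (p2 γ z))).congr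
      fun γ z hz => (FF_cons k [l] γ hz).trans ?_
    have s1 := fun i j => ((ln_dga l i j).up.sm γ).mul (γ.sm.wd [i, j])
    refine congrArg₂ (· + ·) ?_ rfl
    refine (dd_congr γ.op (FF_one l γ) _ hz).trans ?_
    rw [dd_sum _ fun i _ => (sm_sum _ fun j _ => s1 i j).da hz]
    refine Finset.sum_congr rfl fun i _ => ?_
    rw [dd_sum _ fun j _ => (s1 i j).da hz]
    exact Finset.sum_congr rfl fun j _ =>
      dd_mul (((ln_dga l i j).up.sm γ).da hz) ((γ.sm.wd [i, j]).da hz))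
  set k := 8 * B + 20 * B ^ 2 with hk
  have k0 : 0 ≤ k := by positivity
  set σ := (1 + 8 * A + 2056 * k)⁻¹ with hσ
  have σ0 : 0 < σ := by positivity
  have σ1 : σ * (1 + 8 * A + 2056 * k) = 1 := inv_mul_cancel₀ (by positivity)
  have σ2 : 0 ≤ σ * A := by positivity
  have σ3 : 0 ≤ σ * k := by positivity
  refine ⟨σ, σ0, by nlinarith, fun ρ h0 h1 => ?_⟩
  have hs : ∀ γ, Pr σ ((1 + ρ) / 2) γ ⊆ γ.U := fun γ z hz =>
    γ.Kc_sub (by linarith) (by linarith) hz.1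
  refine hb_succ (ρ := (1 + ρ) / 2) (s := σ ^ 2) (k := k) (M := 1 + k) (by positivity)
    (by nlinarith) (by positivity) h0 (by linarith) (by linarith) (hb_one hs) fun γ z hz => ?_
  have t1 : TT 1 γ.v z ≤ σ ^ 2 := by
    rw [TT_succ]; simpa [Ws, wd] using hz.2 z (hs γ hz)
  have a0 : ∑ w ∈ Ws 1, wd w γ.v z * FF w γ z ≤ σ * ∑ w ∈ Ws 1, |FF w γ z| := by
    rw [Finset.mul_sum]
    refine Finset.sum_le_sum fun w hw => (le_abs_self _).trans ?_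
    rw [abs_mul]
    exact mul_le_mul_of_nonneg_right ((abs_wd (mem_Ws.1 hw) _ _).trans
      (Real.sqrt_le_iff.2 ⟨σ0.le, t1⟩)) (abs_nonneg _)
  have a1 := mul_le_mul_of_nonneg_left ((le_abs_self _).trans (A1 γ z (hs γ hz))) σ0.le
  have a2 := (le_abs_self _).trans (B1 γ z (hs γ hz))
  have x0 := Real.sqrt_nonneg (TT 2 γ.v z)
  have x1 := Real.sq_sqrt (TT_nonneg 2 γ.v z)
  have y1 := Real.sq_sqrt (TT_nonneg 3 γ.v z)
  beta_reduce at a1 a2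
  generalize √(TT 2 γ.v z) = x at *
  generalize √(TT 3 γ.v z) = y at *
  rw [show TT (1 + 1) γ.v z = x ^ 2 from x1.symm, show TT (1 + 2) γ.v z = y ^ 2 from y1.symm]
  rw [← x1] at a2
  refine ⟨t1, ?_, ?_⟩
  · have b1 : σ * A * ((1 + x) * x) ≤ 1 / 8 * ((1 + x) * x) :=
      mul_le_mul_of_nonneg_right (by nlinarith) (by positivity)
    nlinarith [sq_nonneg (x - 1)]
  · have b1 : x ^ 2 ≤ 1 + (x ^ 2) ^ 2 := by nlinarith [sq_nonneg (x ^ 2 - 1)]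
    have b2 := mul_le_mul_of_nonneg_left b1 B0
    have b3 := mul_le_mul_of_nonneg_left b1 (sq_nonneg B)
    have b4 : 0 ≤ B ^ 2 := by positivity
    have b5 := mul_nonneg b4 (sq_nonneg (2 * x ^ 2 - x))
    rw [hk]
    nlinarith [sq_nonneg (y - 2 * B * (2 * x ^ 2 + x))]

theorem hb_all : ∃ σ > (0 : ℝ), σ ≤ 1 ∧ ∀ n ρ, 0 < ρ → ρ < 1 → HB (Pr σ ρ) (n + 2) := by
  obtain ⟨σ, h0, h1, h⟩ := hb_two
  refine ⟨σ, h0, h1, fun n => ?_⟩
  induction n with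
  | zero => exact h
  | succ n ih =>
    exact fun ρ a b => hb_high (ρ := (1 + ρ) / 2) (by omega) a (by linarith) (by linarith)
      (ih _ (by linarith) (by linarith))

theorem ex_dT (w : List (Fin 2)) (h : Ex 3 (FF w)) (hw : w.length ≤ 1) :
    Ex 3 fun γ => dT (wd w γ.v) := (h.add (Ex.sum2 fun i => Ex.sum2 fun j =>
  ((ex_ga i j).mono (by simp)).mul (.var (i :: j :: w) (by simp)
    (by simp only [List.length_cons]; omega)))).congr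
    fun γ z _ => by simp only [FF, ht, wd]; ring

/-- the estimates for normalised solutions -/
theorem unit : ∃ σ > (0 : ℝ), σ ≤ 1 ∧ ∃ C : ℕ → ℝ, (∀ k, 0 ≤ C k) ∧ ∀ (v : Z2 → ℝ) (τ : ℝ), 0 < τ →
    Sol v (-1) τ 1 σ → ∀ y : E 2, ‖y‖ ≤ 1 / 2 →
      (∀ w : List (Fin 2), 1 ≤ w.length → |wd w v (0, y)| ≤ C w.length) ∧
      |dT v (0, y)| ≤ C 0 ∧ ∀ l, |dT (dx l v) (0, y)| ≤ C 0 := by
  obtain ⟨σ, h0, h1, h⟩ := hb_all
  have hB := fun n => h n (1 / 2) (by norm_num) (by norm_num)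
  have k1 : ∀ k, ∃ C ≥ (0 : ℝ), 1 ≤ k → ∀ γ, ∀ z ∈ Pr σ (1 / 2) γ,
      |∑ w ∈ Ws k, abs (wd w γ.v z)| ≤ C * 1 := fun k => by
    rcases Nat.eq_zero_or_pos k with rfl | hk
    · exact ⟨0, le_rfl, by simp⟩
    obtain ⟨C, c0, c1⟩ := le_sum (Ws k) fun w hw => ((hB k).bd w (by rwa [mem_Ws.1 hw])
      (by rw [mem_Ws.1 hw]; omega)).abs
    exact ⟨C, c0, fun _ => c1⟩
  choose C c0 c1 using k1
  obtain ⟨A, A0, A1⟩ := ((ex_dT [] ((Ex.const 0).congr fun γ z hz => γ.sol.eq z hz)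
    (by simp)).le (hB 1)).abs.add (le_sum Finset.univ fun l _ =>
      ((ex_dT [l] ((ex_FF l).mono (by simp)) le_rfl).le (hB 1)).abs)
  refine ⟨σ, h0, h1, fun k => if k = 0 then A else C k, fun k => by
    beta_reduce; split_ifs; exacts [A0, c0 k],
    fun v τ hτ hv y hy => ?_⟩
  let γ : Mb := ⟨v, τ, hτ, hv.sm, fun z hz => (hv.gr z hz).trans (by nlinarith), hv.eq⟩
  have hz : ((0, y) : Z2) ∈ Pr σ (1 / 2) γ :=
    ⟨⟨⟨by norm_num, le_rfl⟩, mem_closedBall_zero_iff.2 hy⟩, hv.gr⟩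
  have a1 := (le_abs_self _).trans (A1 γ _ hz)
  have a2 : ∀ l, |dT (dx l v) (0, y)| ≤ ∑ l, |dT (wd [l] γ.v) (0, y)| := fun l =>
    Finset.single_le_sum (f := fun l => |dT (wd [l] γ.v) (0, y)|) (fun _ _ => abs_nonneg _)
      (Finset.mem_univ l)
  have a3 : |dT v (0, y)| = |dT (wd [] γ.v) (0, y)| := rfl
  refine ⟨fun w hw => ?_, ?_, fun l => ?_⟩
  · beta_reduce
    rw [if_neg (by omega)]
    exact ((Finset.single_le_sum (f := fun w => |wd w γ.v (0, y)|) (fun _ _ => abs_nonneg _)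
      (mem_Ws.2 rfl)).trans (le_abs_self _)).trans ((c1 _ hw γ _ hz).trans_eq (mul_one _))
  · simp only [if_true]
    linarith [(abs_nonneg _).trans (a2 0)]
  · simp only [if_true]
    linarith [a2 l, abs_nonneg (dT v (0, y))]

end Vale.Agent.P218R.Bern
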