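import Vale.Agent.P218R.WBern4
import Mathlib.Analysis.Calculus.ContDiff.Bounds

/-!
# P218R: the interior estimates for graphical mean curvature flow
-/

open Metric Filter Topology Set
open scoped ContDiff
open Vale.Agent.P366.Stmt (E)

noncomputable section

namespace Vale.Agent.P218R.Bern

variable {U : Set Z2} {f v : Z2 → ℝ} {z : Z2} {t r c : ℝ}

/-- the parabolic dilation -/
def ph (t r : ℝ) (z : Z2) : Z2 := (t + r ^ 2 * z.1, r • z.2)

theorem ph_sm (t r : ℝ) : ContDiff ℝ ∞ (ph t r) :=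
  (contDiff_const.add (contDiff_const.mul contDiff_fst)).prodMk (contDiff_snd.const_smul r)

theorem dd_ph (hf : DifferentiableAt ℝ f (ph t r z)) (ξ : Z2) :
    dd ξ (fun z => c * f (ph t r z)) z = c * dd (r ^ 2 * ξ.1, r • ξ.2) f (ph t r z) := by
  have h : HasFDerivAt (ph t r) ((r ^ 2 • ContinuousLinearMap.fst ℝ ℝ (E 2)).prod
      (r • ContinuousLinearMap.snd ℝ ℝ (E 2))) z :=
    ((hasFDerivAt_fst.const_mul (r ^ 2)).const_add t).prodMk (hasFDerivAt_snd.const_smul r)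
  have h1 := ((hf.hasFDerivAt.comp z h).const_mul c).fderiv
  rw [dd]
  erw [h1]
  rfl

theorem dx_ph (hf : DifferentiableAt ℝ f (ph t r z)) (i : Fin 2) :
    dx i (fun z => c * f (ph t r z)) z = c * r * dx i f (ph t r z) := by
  rw [dx, dd_ph hf, mul_assoc, dx, dd, dd, ← smul_eq_mul r, ← map_smul]; simp

theorem dT_ph (hf : DifferentiableAt ℝ f (ph t r z)) :
    dT (fun z => c * f (ph t r z)) z = c * r ^ 2 * dT f (ph t r z) := by
  rw [dT, dd_ph hf, mul_assoc, dT, dd, dd, ← smul_eq_mul (r ^ 2) (fderiv ℝ f _ _), ← map_smul]; simp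

theorem wd_ph (hU : IsOpen U) (hf : Sm U f) : ∀ w, EqOn (wd w fun z => c * f (ph t r z))
    (fun z => c * r ^ w.length * wd w f (ph t r z)) (ph t r ⁻¹' U)
  | [] => fun z _ => by simp [wd]
  | i :: w => fun z hz => by
    refine (dd_congr (hU.preimage (ph_sm t r).continuous) (wd_ph hU hf w) _ hz).trans ?_
    refine (dx_ph ((hf.wd w).da hz) i).trans ?_
    simp only [wd, List.length_cons]; ring

theorem sol_ph {t₁ t₂ σ : ℝ} (hr : 0 < r) (h : Sol v t₁ t₂ r σ) (ht : t₁ + r ^ 2 ≤ t) :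
    Sol (fun z => r⁻¹ * v (ph t r z)) (-1) ((t₂ - t) / r ^ 2) 1 σ := by
  have hU : IsOpen (Ioo t₁ t₂ ×ˢ ball (0 : E 2) r) := isOpen_Ioo.prod isOpen_ball
  have hv : Sm _ v := fun z hz => h.sm.contDiffAt (hU.mem_nhds hz)
  have r2 : 0 < r ^ 2 := by positivity
  have hm : MapsTo (ph t r) (Ioo (-1) ((t₂ - t) / r ^ 2) ×ˢ ball (0 : E 2) 1)
      (Ioo t₁ t₂ ×ˢ ball (0 : E 2) r) := fun z hz => by
    obtain ⟨⟨h1, h2⟩, h3⟩ := hz
    rw [lt_div_iff₀ r2] at h2
    rw [mem_ball_zero_iff] at h3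
    refine ⟨⟨?_, ?_⟩, mem_ball_zero_iff.2 ?_⟩
    · change t₁ < t + r ^ 2 * z.1
      nlinarith
    · change t + r ^ 2 * z.1 < t₂
      nlinarith
    · change ‖r • z.2‖ < r
      rw [norm_smul, Real.norm_of_nonneg hr.le]
      nlinarith
  have e1 : ∀ z ∈ Ioo (-1) ((t₂ - t) / r ^ 2) ×ˢ ball (0 : E 2) 1, ∀ i,
      dx i (fun z => r⁻¹ * v (ph t r z)) z = dx i v (ph t r z) := fun z hz i => by
    rw [dx_ph (hv.da (hm hz)), inv_mul_cancel₀ hr.ne', one_mul]
  refine ⟨contDiffOn_const.mul (h.sm.comp (ph_sm t r).contDiffOn hm), fun z hz => ?_,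
    fun z hz => ?_⟩
  · simp only [e1 z hz]
    exact h.gr _ (hm hz)
  · have e2 : ∀ i j, dx i (dx j fun z => r⁻¹ * v (ph t r z)) z =
        r⁻¹ * r ^ 2 * dx i (dx j v) (ph t r z) := fun i j => wd_ph hU hv [i, j] (hm hz)
    have e3 := h.eq _ (hm hz)
    simp only [P218R.ht, ga, e1 z hz, e2, dT_ph (hv.da (hm hz)), Fin.sum_univ_two] at e3 ⊢
    linear_combination r⁻¹ * r ^ 2 * e3

theorem fderiv_sl {y : E 2} (hf : DifferentiableAt ℝ f (t, y)) :
    fderiv ℝ (fun y => f (t, y)) y =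
      ∑ i, dx i f (t, y) • (EuclideanSpace.proj i : E 2 →L[ℝ] ℝ) := by
  have h := (hf.hasFDerivAt.comp y (hasFDerivAt_prodMk_right t y)).fderiv
  erw [h]
  ext1 ξ
  rw [P366W.map_eq_sum]
  simp [dx, dd, mul_comm]

theorem sm_sl (hf : Sm U f) {y : E 2} (hz : (t, y) ∈ U) :
    ContDiffAt ℝ ∞ (fun y => f (t, y)) y :=
  (hf _ hz).comp y (contDiffAt_const.prodMk contDiffAt_id)

theorem iter_le (hU : IsOpen U) {y : E 2} (hz : (t, y) ∈ U) {M : ℝ} : ∀ (k : ℕ) (f : Z2 → ℝ),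
    Sm U f → (∀ w : List (Fin 2), w.length = k → |wd w f (t, y)| ≤ M) →
      ‖iteratedFDeriv ℝ k (fun y => f (t, y)) y‖ ≤ 2 ^ k * M
  | 0, f, _, h => by simpa [wd] using h [] rfl
  | k + 1, f, hf, h => by
    have h1 : (fderiv ℝ fun y => f (t, y)) =ᶠ[𝓝 y] fun y => ∑ i,
        (ContinuousLinearMap.toSpanSingleton ℝ (EuclideanSpace.proj i : E 2 →L[ℝ] ℝ) ∘
          fun y => dx i f (t, y)) y := by
      filter_upwards [(continuous_const.prodMk continuous_id).continuousAt.eventually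
        (hU.mem_nhds hz)] with x hx
      exact fderiv_sl (hf.da hx)
    have h2 : ∀ i, ContDiffAt ℝ k (fun y => dx i f (t, y)) y := fun i =>
      (sm_sl (hf.dx i) hz).of_le (by exact_mod_cast le_top)
    rw [← norm_iteratedFDeriv_fderiv, (h1.iteratedFDeriv ℝ k).eq_of_nhds,
      iteratedFDeriv_fun_sum_apply fun i _ => (ContinuousLinearMap.contDiff _).contDiffAt.comp y
        (h2 i)]
    refine (norm_sum_le _ _).trans ((Finset.sum_le_card_nsmul _ _ (2 ^ k * M)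
      fun i _ => ?_).trans_eq (by simp [pow_succ]; ring))
    refine (ContinuousLinearMap.norm_iteratedFDeriv_comp_left _ (h2 i) le_rfl).trans ?_
    refine (mul_le_of_le_one_left (norm_nonneg _) ?_).trans (iter_le hU hz k _ (hf.dx i)
      fun w hw => wd_append i f w ▸ h _ (by simp [hw]))
    rw [ContinuousLinearMap.norm_toSpanSingleton]
    exact ContinuousLinearMap.opNorm_le_bound _ zero_le_one fun x => by
      simpa using PiLp.norm_apply_le x i

theorem time_lip {y : E 2} {a b M : ℝ} (hf : ∀ s ∈ Ico a b, DifferentiableAt ℝ f (s, y) ∧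
    |dT f (s, y)| ≤ M) {s : ℝ} (ht : t ∈ Ico a b) (hs : s ∈ Ico a b) :
    |f (t, y) - f (s, y)| ≤ M * |t - s| :=
  (convex_Ico a b).norm_image_sub_le_of_norm_hasDerivWithin_le (f := fun s => f (s, y))
    (f' := fun s => dT f (s, y)) (fun x hx => ((hf x hx).1.hasFDerivAt.comp_hasDerivAt x
      ((hasDerivAt_id x).prodMk (hasDerivAt_const x y))).hasDerivWithinAt)
    (fun x hx => (hf x hx).2) hs ht

theorem _root_.Vale.Agent.P218R.bern : BERN := by
  obtain ⟨σ, h0, -, C, c0, h⟩ := unit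
  refine ⟨σ, h0, fun k => if k = 0 then 2 * C 0 + 4 * C 2 else 2 ^ k * C k, fun k => by
    have := c0 0; have := c0 2; have := c0 k
    beta_reduce; split_ifs <;> positivity, fun v t₁ t₂ r hr hv => ?_⟩
  have hU : IsOpen (Ioo t₁ t₂ ×ˢ ball (0 : E 2) r) := isOpen_Ioo.prod isOpen_ball
  have sv : Sm _ v := fun z hz => hv.sm.contDiffAt (hU.mem_nhds hz)
  have r2 : 0 < r ^ 2 := by positivity
  have hm : ∀ t ∈ Ico (t₁ + r ^ 2) t₂, ∀ y : E 2, ‖y‖ < r / 2 →
      (t, y) ∈ Ioo t₁ t₂ ×ˢ ball (0 : E 2) r := fun t ht y hy =>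
    ⟨⟨by linarith [ht.1], ht.2⟩, mem_ball_zero_iff.2 (by linarith)⟩
  have k : ∀ t ∈ Ico (t₁ + r ^ 2) t₂, ∀ y : E 2, ‖y‖ < r / 2 →
      (∀ w : List (Fin 2), 1 ≤ w.length → |wd w v (t, y)| ≤ C w.length * r / r ^ w.length) ∧
      |dT v (t, y)| ≤ C 0 / r ∧ ∀ l, |dT (dx l v) (t, y)| ≤ C 0 / r ^ 2 := fun t ht y hy => by
    obtain ⟨a1, a2, a3⟩ := h _ _ (div_pos (sub_pos.2 ht.2) r2) (sol_ph hr hv ht.1) (r⁻¹ • y) (by
      rw [norm_smul, Real.norm_of_nonneg (inv_pos.2 hr).le, inv_mul_le_iff₀ hr]; linarith)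
    have e : ph t r (0, r⁻¹ • y) = (t, y) := by simp [ph, smul_smul, hr.ne']
    have hz : ((0, r⁻¹ • y) : Z2) ∈ ph t r ⁻¹' (Ioo t₁ t₂ ×ˢ ball (0 : E 2) r) := by
      rw [mem_preimage, e]; exact hm t ht y hy
    refine ⟨fun w hw => ?_, ?_, fun l => ?_⟩
    · have := a1 w hw
      rw [wd_ph hU sv w hz] at this
      simp only [e] at this
      rw [abs_mul, abs_of_pos (by positivity), mul_assoc, inv_mul_le_iff₀ hr] at this
      rw [le_div_iff₀ (by positivity)]; linarith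
    · rw [dT_ph (sv.da hz), e, abs_mul, abs_of_pos (by positivity), sq, inv_mul_cancel_left₀ hr.ne']
        at a2
      rw [le_div_iff₀ hr]; linarith
    · have := a3 l
      have e2 : dT (dx l fun z => r⁻¹ * v (ph t r z)) (0, r⁻¹ • y) = dT (fun z =>
          r⁻¹ * r ^ 1 * dx l v (ph t r z)) (0, r⁻¹ • y) :=
        dd_congr (hU.preimage (ph_sm t r).continuous) (wd_ph hU sv [l]) _ hz
      rw [e2, dT_ph ((sv.dx l).da hz), e, abs_mul, abs_of_pos (by positivity), pow_one,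
        inv_mul_cancel₀ hr.ne', one_mul] at this
      rw [le_div_iff₀ r2]; linarith
  refine ⟨fun t ht y hy n hn => ?_, fun t ht s hs y y' hy hy' => ⟨?_, ?_⟩⟩
  · beta_reduce
    rw [if_neg (by omega), mul_assoc, mul_div_assoc]
    exact iter_le hU (hm t ht y hy) n v sv fun w hw => hw ▸ (k t ht y hy).1 w (hw ▸ hn)
  · refine (time_lip (fun x hx => ⟨sv.da (hm x hx y hy), (k x hx y hy).2.1⟩) ht hs).trans ?_
    simp only [if_true]
    rw [div_mul_eq_mul_div]
    gcongr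
    linarith [c0 0, c0 2]
  · have b : ∀ l, |dx l v (t, y) - dx l v (s, y')| ≤
        C 0 / r ^ 2 * |t - s| + 2 * (C 2 / r) * ‖y - y'‖ := fun l => by
      refine (abs_sub_le _ (dx l v (s, y)) _).trans (add_le_add (time_lip (fun x hx =>
        ⟨(sv.dx l).da (hm x hx y hy), (k x hx y hy).2.2 l⟩) ht hs) ?_)
      refine (convex_ball (0 : E 2) (r / 2)).norm_image_sub_le_of_norm_fderiv_le
        (f := fun y => dx l v (s, y)) (fun x hx => (sm_sl (sv.dx l)
          (hm s hs x (mem_ball_zero_iff.1 hx))).differentiableAt (by simp)) (fun x hx => ?_)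
        (mem_ball_zero_iff.2 hy') (mem_ball_zero_iff.2 hy)
      have hx' := mem_ball_zero_iff.1 hx
      rw [← norm_iteratedFDeriv_one]
      refine (iter_le (M := C 2 / r) hU (hm s hs x hx') 1 _ (sv.dx l) fun w hw => ?_).trans_eq
        (by rw [pow_one])
      have := (k s hs x hx').1 (w ++ [l]) (by simp)
      rw [wd_append, List.length_append, hw] at this
      refine this.trans_eq ?_
      simp only [List.length_singleton]
      field_simp
    have b2 : ‖gx v (t, y) - gx v (s, y')‖ ≤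
        |dx 0 v (t, y) - dx 0 v (s, y')| + |dx 1 v (t, y) - dx 1 v (s, y')| := by
      refine abs_le_of_sq_le_sq' ?_ (by positivity) |>.2
      rw [EuclideanSpace.real_norm_sq_eq, Fin.sum_univ_two]
      simp only [gx, PiLp.sub_apply]
      nlinarith [sq_abs (dx 0 v (t, y) - dx 0 v (s, y')), sq_abs (dx 1 v (t, y) - dx 1 v (s, y')),
        mul_nonneg (abs_nonneg (dx 0 v (t, y) - dx 0 v (s, y')))
          (abs_nonneg (dx 1 v (t, y) - dx 1 v (s, y')))]
    refine b2.trans ((add_le_add (b 0) (b 1)).trans ?_)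
    simp only [if_true]
    have p1 : 0 ≤ C 0 * (‖y - y'‖ / r) := mul_nonneg (c0 0) (by positivity)
    have p2 : 0 ≤ C 2 * (|t - s| / r ^ 2) := mul_nonneg (c0 2) (by positivity)
    have p3 : C 0 / r ^ 2 * |t - s| = C 0 * (|t - s| / r ^ 2) := by ring
    have p4 : 2 * (C 2 / r) * ‖y - y'‖ = 2 * (C 2 * (‖y - y'‖ / r)) := by ring
    rw [p3, p4]
    nlinarith

end Vale.Agent.P218R.Bern
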