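import Vale.Agent.P218R.WLoc

/-!
# P218R: improvement of the tilt scale
-/

open MeasureTheory Metric Filter Topology Set
open scoped ContDiff ENNReal RealInnerProductSpace
open Vale.Agent.P366.Stmt (E)
open Vale.Agent.P366W (trc dvg Fr adj)

noncomputable section

namespace Vale.Agent.P218R

namespace Wh

variable {F : Flw} {a b s t t₀ ρ σ K R η : ℝ} {y e : E3} {L : E 2 →ₗᵢ[ℝ] E3}

/-- the conclusion of `WLOC` -/
def LB (σ Λ c : ℝ) (C : ℕ → ℝ) : Prop := ∀ (F : Flw) (a b s ρ : ℝ) (y : E3), F.OkA a b Λ → 0 < ρ →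
  a ≤ s - ρ ^ 2 → s < b → F.u (s, y) = 0 → F.TL s y ρ σ → ∃ L, Fr (F.n (s, y)) L ∧ ∃ v : Z2 → ℝ,
    ∀ t ∈ Ioc (s - (c * ρ) ^ 2) s, ContDiffOn ℝ ∞ (fun x => v (t, x)) (ball 0 (c * ρ)) ∧
      (F.sl t).Gr y (F.n (s, y)) L (c * ρ) (c * ρ) (fun x => v (t, x)) ∧
      (∀ x, ‖x‖ < c * ρ → |v (t, x)| ≤ C 0 * (‖x‖ ^ 2 + (s - t)) / ρ ∧
        ‖fderiv ℝ (fun x => v (t, x)) x‖ ≤ C 0 * (‖x‖ / ρ + (s - t) / ρ ^ 2) ∧
        ∀ k, 1 ≤ k → ‖iteratedFDeriv ℝ k (fun x => v (t, x)) x‖ ≤ C k * ρ / ρ ^ k) ∧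
      ∀ z ∈ ball y (c * ρ), F.u (t, z) = 0 →
        ‖F.n (t, z) - F.n (s, y)‖ ≤ C 0 * (‖z - y‖ / ρ + (s - t) / ρ ^ 2)

/-- chords are almost tangent -/
def Pair (F : Flw) (s : ℝ) (y : E3) (ρ K η : ℝ) : Prop :=
  ∀ t ∈ Ioc (s - 4 * ρ ^ 2) s, ∀ τ ∈ Icc t s, ∀ z ∈ ball y (K * ρ), ∀ y₁ ∈ ball y (K * ρ),
    ∀ y₂ ∈ ball y (K * ρ), F.u (t, z) = 0 → F.u (τ, y₁) = 0 → F.u (τ, y₂) = 0 →
      |⟪y₁ - y₂, F.n (t, z)⟫| ≤ η * ρ

theorem dist_two {y y₁ y₂ : E3} {r : ℝ} (h1 : y₁ ∈ ball y r) (h2 : y₂ ∈ ball y r) :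
    ‖y₁ - y₂‖ ≤ 2 * r := by
  linarith [norm_sub_le_norm_sub_add_norm_sub y₁ y y₂, mem_ball_iff_norm.1 h1,
    mem_ball_iff_norm'.1 h2]

theorem pair {Λ c : ℝ} {C : ℕ → ℝ} (hl : LB σ Λ c C) (c0 : 0 < c) (C0 : 0 ≤ C 0) (R1 : 1 ≤ R)
    (hK : 1 ≤ K) (hη : 0 < η)
    (pt : ∀ K δ η : ℝ, 0 < δ → 0 < η → ∃ ε > (0 : ℝ), ∀ (F : Flw) (a b s s' t₀ ρ : ℝ)
      (y₁ y₂ y : E3), F.OkA a b Λ → 0 < ρ → a < t₀ → t₀ ≤ s' - 2 * (δ * ρ) ^ 2 → s' ≤ s →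
      s ≤ s' + (K * ρ) ^ 2 → s < b → F.u (s, y₁) = 0 → F.u (s, y₂) = 0 → F.u (s', y) = 0 →
      ‖y₁ - y‖ ≤ K * ρ → ‖y₂ - y‖ ≤ K * ρ → gs (F.μ t₀) y₁ √(s - t₀) ≤ 1 + ε →
      gs (F.μ t₀) y₂ √(s - t₀) ≤ 1 + ε →
      ∃ t ∈ Ioo (s' - 2 * (δ * ρ) ^ 2) (s' - (δ * ρ) ^ 2), ∃ z, F.u (t, z) = 0 ∧
        ‖z - y‖ ≤ 2 * R * δ * ρ ∧ |⟪y₁ - y₂, F.n (t, z)⟫| ≤ η * ρ) :
    ∃ ε > (0 : ℝ), ∀ (F : Flw) (a b s t₀ ρ : ℝ) (y : E3), F.OkA a b Λ → 0 < ρ → a < t₀ →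
      t₀ ≤ s - 5 * ρ ^ 2 → s < b → (∀ t ∈ Ioc (s - 4 * ρ ^ 2) s, ∀ z ∈ ball y (K * ρ),
        F.u (t, z) = 0 → gs (F.μ t₀) z √(t - t₀) ≤ 1 + ε ∧ F.TL t z (ρ / 2) σ) →
      Pair F s y ρ K η := by
  obtain ⟨δ, d0, d1, d2, d3⟩ : ∃ δ > (0 : ℝ), δ ≤ 1 / 2 ∧ δ * (8 * R) ≤ c ∧
      δ * (32 * K * R * C 0 + 1) ≤ η := ⟨min (1 / 2) (min (c / (8 * R))
        (η / (32 * K * R * C 0 + 1))), by positivity, min_le_left _ _,
      (le_div_iff₀ (by positivity)).1 ((min_le_right _ _).trans (min_le_left _ _)),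
      (le_div_iff₀ (by positivity)).1 ((min_le_right _ _).trans (min_le_right _ _))⟩
  obtain ⟨ε, e0, e1⟩ := pt (2 * K) δ (η / 2) d0 (by positivity)
  refine ⟨ε, e0, fun F a b s t₀ ρ y hF hρ h1 h2 h3 h t ht τ hτ z hz y₁ a1 y₂ a2 z0 b1 b2 => ?_⟩
  have r2 : 0 < ρ ^ 2 := by positivity
  have hτ' : τ ∈ Ioc (s - 4 * ρ ^ 2) s := ⟨ht.1.trans_le hτ.1, hτ.2⟩
  have d4 : (δ * ρ) ^ 2 ≤ ρ ^ 2 / 4 := by rw [mul_pow]; nlinarith [mul_le_mul d1 d1 d0.le (by norm_num)]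
  obtain ⟨t', t1, z', z1, z2, z3⟩ := e1 F a b τ t t₀ ρ y₁ y₂ z hF hρ h1 (by linarith [ht.1]) hτ.1
    (by nlinarith [ht.1, hτ.2, mul_le_mul hK hK zero_le_one (by linarith : 0 ≤ K)])
    (hτ.2.trans_lt h3) b1 b2 z0 ((dist_two a1 hz).trans_eq (mul_assoc _ _ _).symm)
    ((dist_two a2 hz).trans_eq (mul_assoc _ _ _).symm) (h τ hτ' y₁ a1 b1).1 (h τ hτ' y₂ a2 b2).1
  obtain ⟨L, -, v, hv⟩ := hl F a b t (ρ / 2) z hF (by positivity) (by linarith [ht.1])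
    (ht.2.trans_lt h3) z0 (h t ht z hz z0).2
  have dρ : 0 < δ * ρ := by positivity
  have d5 : δ * ρ * 8 ≤ c * ρ := by nlinarith [mul_le_mul_of_nonneg_left R1 dρ.le]
  have d6 : 2 * R * δ * ρ < c * (ρ / 2) := by nlinarith [mul_pos c0 hρ]
  have n1 := (hv t' ⟨by nlinarith [t1.1], by nlinarith [t1.2]⟩).2.2.2 z'
    (mem_ball_iff_norm.2 (z2.trans_lt d6)) z1
  have n2 : ‖z' - z‖ / (ρ / 2) ≤ 4 * R * δ := by rw [div_le_iff₀ (by positivity)]; linarith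
  have n3 : (t - t') / (ρ / 2) ^ 2 ≤ 4 * R * δ := by
    rw [div_le_iff₀ (by positivity)]
    have : δ * ρ ^ 2 * (2 * δ) ≤ δ * ρ ^ 2 * R := by gcongr; linarith
    nlinarith [t1.1]
  have n4 : ‖F.n (t', z') - F.n (t, z)‖ ≤ C 0 * (8 * R * δ) :=
    n1.trans (mul_le_mul_of_nonneg_left (by linarith) C0)
  have n5 := (abs_real_inner_le_norm (y₁ - y₂) (F.n (t', z') - F.n (t, z))).trans
    (mul_le_mul (dist_two a1 a2) n4 (norm_nonneg _) (by positivity))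
  rw [inner_sub_right] at n5
  have n6 := mul_le_mul_of_nonneg_right d3 hρ.le
  rw [abs_le] at n5 z3 ⊢
  constructor <;> nlinarith

theorem align (hL : Fr e L) {N : E3} (hN : ‖N‖ = 1) {θ : ℝ}
    (h : ∀ i, |⟪L (EuclideanSpace.single i 1), N⟫| ≤ θ) : ∃ ε : ℝ, (ε = 1 ∨ ε = -1) ∧
      ‖N - ε • e‖ ≤ 4 * θ := by
  have h1 := hL.norm_sq (adj L N) ⟪e, N⟫
  rw [hL.dec, hN] at h1
  have h2 : ‖adj L N‖ ≤ 2 * θ := by
    conv_lhs => rw [← P366W.sum_single (adj L N)]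
    refine (norm_sum_le _ _).trans ((Finset.sum_le_card_nsmul _ _ θ fun i _ => ?_).trans_eq
      (by simp))
    have := h i
    rw [← P366W.inner_adj, EuclideanSpace.inner_single_left] at this
    simpa [norm_smul] using this
  have h3 : ∀ ε : ℝ, ‖N - ε • e‖ ≤ ‖adj L N‖ + |⟪e, N⟫ - ε| := fun ε => by
    have := hL.norm_le (adj L N) (⟪e, N⟫ - ε)
    rwa [sub_smul, ← add_sub_assoc, hL.dec] at this
  have h4 := norm_nonneg (adj L N)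
  have h5 : ‖adj L N‖ ≤ 1 := by nlinarith [sq_nonneg ⟪e, N⟫]
  have h6 : |⟪e, N⟫| ≤ 1 := by simpa [hL.one, hN] using abs_real_inner_le_norm e N
  rw [abs_le] at h6
  rcases le_total 0 ⟪e, N⟫ with h7 | h7
  · exact ⟨1, .inl rfl, (h3 1).trans (by rw [abs_of_nonpos (by linarith)]; nlinarith)⟩
  · exact ⟨-1, .inr rfl, (h3 (-1)).trans (by rw [abs_of_nonneg (by linarith)]; nlinarith)⟩

theorem same_sign {f : ℝ → ℝ} {p q : ℝ} (h : p ≤ q) (hc : ContinuousOn f (Icc p q))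
    (h0 : ∀ x ∈ Icc p q, f x ≠ 0) : 0 < f p ↔ 0 < f q := by
  constructor <;> intro h1 <;> by_contra! h2
  · obtain ⟨x, x1, x2⟩ := intermediate_value_Icc' h hc ⟨h2, h1.le⟩
    exact h0 x x1 x2
  · obtain ⟨x, x1, x2⟩ := intermediate_value_Icc h hc ⟨h2, h1.le⟩
    exact h0 x x1 x2

theorem sign_far (hF : F.Ok a b) (ht : t ∈ Ioo a b) (he : ‖e‖ = 1) {z q : E3} {ε : ℝ}
    (hε : ε = 1 ∨ ε = -1) (hρ : 0 < ρ) (hσ : σ ≤ 1 / 16) (z0 : F.u (t, z) = 0)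
    (hT : F.TL t z (ρ / 2) σ) (hN : ‖F.n (t, z) - ε • e‖ ≤ σ) {D : Set E3} (hD : Convex ℝ D)
    (h1 : z + (ρ / 4) • e ∈ D) (h2 : q ∈ D) (h3 : ρ / 4 ≤ ⟪q - z, e⟫)
    (sl : ∀ w ∈ D, F.u (t, w) = 0 → |⟪w - z, e⟫| ≤ ρ / 8) : 0 < ε * F.u (t, q) := by
  have ee : ⟪e, e⟫ = 1 := by rw [real_inner_self_eq_norm_sq, he, one_pow]
  have ε2 : ε * ε = 1 := by rcases hε with rfl | rfl <;> norm_num
  have ε1 : |ε| = 1 := by rcases hε with rfl | rfl <;> norm_num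
  have ε0 : ε ≠ 0 := by rcases hε with rfl | rfl <;> norm_num
  have k1 := P366W.pos_of_cross (fun x => (line hF ht z ((ρ / 4) • e) x).const_mul ε)
    (by simp [z0]) fun x hx h0 => by
      have w0 : (F.sl t).w (z + x • (ρ / 4) • e) = 0 := (mul_eq_zero.1 h0).resolve_left ε0
      have w1 := hT t ⟨by nlinarith, le_rfl⟩ _ (by
        rw [mem_ball_iff_norm, add_sub_cancel_left, norm_smul, norm_smul, he,
          Real.norm_of_nonneg hx.1, Real.norm_of_nonneg (by positivity)]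
        nlinarith [hx.2]) w0
      have w2 := (abs_real_inner_le_norm (F.n (t, z + x • (ρ / 4) • e) - ε • e) (ε • e)).trans
        (mul_le_mul_of_nonneg_right ((norm_sub_le_norm_sub_add_norm_sub _ _ _).trans
          (add_le_add w1 hN)) (norm_nonneg _))
      rw [inner_sub_left, norm_smul, he, Real.norm_eq_abs, ε1, real_inner_smul_right,
        real_inner_smul_right, real_inner_smul_left, ee] at w2
      have w3 : 0 < ε * ⟪(F.sl t).n (z + x • (ρ / 4) • e), e⟫ := by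
        change 0 < ε * ⟪F.n (t, z + x • (ρ / 4) • e), e⟫
        linarith [(abs_le.1 w2).1]
      rw [(hF.sl ht).fderiv_w w0, real_inner_smul_right]
      nlinarith [mul_pos (mul_pos ((hF.sl ht).gpos w0) hρ) w3]
  rw [one_smul] at k1
  have k2 := (same_sign (f := fun x => ε * F.u (t, z + (ρ / 4) • e + x • (q - (z + (ρ / 4) • e))))
    zero_le_one (fun x _ => ((line hF ht _ _ x).const_mul ε).continuousAt.continuousWithinAt)
    fun x hx h0 => ?_).1 (by simpa using k1)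
  · simpa using k2
  have k3 := (abs_le.1 (sl _ (hD.add_smul_sub_mem h1 h2 hx)
    ((mul_eq_zero.1 h0).resolve_left ε0))).2
  have k4 : z + (ρ / 4) • e + x • (q - (z + (ρ / 4) • e)) - z =
      ((1 - x) * (ρ / 4)) • e + x • (q - z) := by module
  rw [k4, inner_add_left, real_inner_smul_left, real_inner_smul_left, ee] at k3
  nlinarith [hx.1, mul_le_mul_of_nonneg_left h3 hx.1]

theorem improve (hF : F.Ok a b) (hL : Fr (F.n (s, y)) L) (hρ : 0 < ρ) (ha : a ≤ s - 4 * ρ ^ 2)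
    (hb : s < b) (h0 : F.u (s, y) = 0) (R1 : 1 ≤ R) (hσ : σ ≤ 1 / 16) {c : ℝ} (c0 : 0 < c)
    (η0 : 0 < η) (η1 : 32 * η / c ≤ σ) (η2 : η + 2 * (2 * R + 3) * (32 * η / c) ≤ 1 / 8)
    (hP : Pair F s y ρ (2 * R + 3) η)
    (hT : ∀ t ∈ Ioc (s - 4 * ρ ^ 2) s, ∀ z ∈ ball y ((2 * R + 3) * ρ), F.u (t, z) = 0 →
      F.TL t z (ρ / 2) σ)
    (anc : ∀ t ∈ Ioc (s - 4 * ρ ^ 2) s, ∃ z, F.u (t, z) = 0 ∧ ‖z - y‖ ≤ 2 * R * ρ)
    (pts : ∀ i, ∃ v : ℝ, y + L ((c * ρ / 4) • EuclideanSpace.single i 1) + v • F.n (s, y) ∈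
      ball y ((2 * R + 3) * ρ) ∧
      F.u (s, y + L ((c * ρ / 4) • EuclideanSpace.single i 1) + v • F.n (s, y)) = 0) :
    F.TL s y (2 * ρ) σ := by
  have r2 : 0 < ρ ^ 2 := by positivity
  have Rρ : ρ ≤ R * ρ := le_mul_of_one_le_left hρ.le R1
  have hs : s ∈ Ioc (s - 4 * ρ ^ 2) s := ⟨by linarith, le_rfl⟩
  have hy : y ∈ ball y ((2 * R + 3) * ρ) := mem_ball_self (by positivity)
  have dom : ∀ t ∈ Ioc (s - 4 * ρ ^ 2) s, t ∈ Ioo a b := fun t h =>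
    ⟨ha.trans_lt h.1, h.2.trans_lt hb⟩
  have al : ∀ t ∈ Ioc (s - 4 * ρ ^ 2) s, ∀ z ∈ ball y ((2 * R + 3) * ρ), F.u (t, z) = 0 →
      ∃ ε : ℝ, (ε = 1 ∨ ε = -1) ∧ ‖F.n (t, z) - ε • F.n (s, y)‖ ≤ 32 * η / c := fun t ht z hz z0 => by
    have hN : ‖F.n (t, z)‖ = 1 := (hF.sl (dom t ht)).norm_n (x := z) z0
    obtain ⟨ε, e1, e2⟩ := align hL hN (θ := 8 * η / c) fun i => by
      obtain ⟨v, v1, v2⟩ := pts i
      have p1 := hP t ht s ⟨ht.2, le_rfl⟩ z hz _ v1 y hy z0 v2 h0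
      have p2 := hP s hs s ⟨le_rfl, le_rfl⟩ y hy _ v1 y hy h0 v2 h0
      rw [add_assoc, add_sub_cancel_left] at p1 p2
      rw [real_inner_comm, hL.e_pt] at p2
      rw [inner_add_left, map_smul, real_inner_smul_left, real_inner_smul_left] at p1
      have p3 : |v * ⟪F.n (s, y), F.n (t, z)⟫| ≤ η * ρ := by
        rw [abs_mul]
        exact (mul_le_of_le_one_right (abs_nonneg _) (by
          simpa [hL.one, hN] using abs_real_inner_le_norm (F.n (s, y)) (F.n (t, z)))).trans p2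
      have p4 : |c * ρ / 4 * ⟪L (EuclideanSpace.single i 1), F.n (t, z)⟫| ≤ 2 * (η * ρ) := by
        rw [abs_le] at p1 p3 ⊢; constructor <;> linarith
      rw [abs_mul, abs_of_pos (by positivity)] at p4
      rw [le_div_iff₀ c0]
      refine le_of_mul_le_mul_right ?_ hρ
      linarith
    exact ⟨ε, e1, e2.trans_eq (by ring)⟩
  have sl : ∀ t ∈ Ioc (s - 4 * ρ ^ 2) s, ∀ z ∈ ball y ((2 * R + 3) * ρ), F.u (t, z) = 0 →
      ∀ w ∈ ball y ((2 * R + 3) * ρ), F.u (t, w) = 0 → |⟪w - z, F.n (s, y)⟫| ≤ ρ / 8 :=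
    fun t ht z hz z0 w hw w0 => by
      obtain ⟨ε, e1, e2⟩ := al t ht z hz z0
      have p1 := hP t ht t ⟨le_rfl, ht.2⟩ z hz w hw z hz z0 w0 z0
      have p2 := (abs_real_inner_le_norm (w - z) _).trans
        (mul_le_mul (dist_two hw hz) e2 (norm_nonneg _) (by positivity))
      rw [inner_sub_right, real_inner_smul_right] at p2
      have p3 := mul_le_mul_of_nonneg_right η2 hρ.le
      rw [abs_le] at p1 p2 ⊢
      rcases e1 with rfl | rfl <;> constructor <;> linarith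
  obtain ⟨q, hq⟩ : ∃ q, q = y + ((2 * R + 1) * ρ) • F.n (s, y) := ⟨_, rfl⟩
  have q1 : q ∈ ball y ((2 * R + 3) * ρ) := by
    rw [hq, mem_ball_iff_norm, add_sub_cancel_left, norm_smul, hL.one,
      Real.norm_of_nonneg (by positivity)]
    linarith
  have q2 : ∀ t ∈ Ioc (s - 4 * ρ ^ 2) s, ∀ z ∈ ball y ((2 * R + 3) * ρ), F.u (t, z) = 0 →
      ρ / 4 ≤ ⟪q - z, F.n (s, y)⟫ := fun t ht z hz z0 => by
    obtain ⟨w, w0, w1⟩ := anc t ht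
    have p1 := (abs_le.1 (sl t ht z hz z0 w (mem_ball_iff_norm.2 (by linarith)) w0)).1
    have p2 := (abs_le.1 ((abs_real_inner_le_norm (w - y) (F.n (s, y))).trans
      (mul_le_mul_of_nonneg_right w1 (norm_nonneg _)))).2
    have p3 : q - z = ((2 * R + 1) * ρ) • F.n (s, y) - (w - y) + (w - z) := by rw [hq]; abel
    rw [p3, inner_add_left, inner_sub_left, real_inner_smul_left, hL.ee]
    rw [hL.one] at p2
    linarith
  have sg : ∀ t ∈ Ioc (s - 4 * ρ ^ 2) s, ∀ z ∈ ball y (2 * ρ), F.u (t, z) = 0 → ∀ ε : ℝ,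
      (ε = 1 ∨ ε = -1) → ‖F.n (t, z) - ε • F.n (s, y)‖ ≤ σ → 0 < ε * F.u (t, q) :=
    fun t ht z hz z0 ε e1 e2 => by
      have hz' : z ∈ ball y ((2 * R + 3) * ρ) := ball_subset_ball (by linarith) hz
      refine sign_far hF (dom t ht) hL.one e1 hρ hσ z0 (hT t ht z hz' z0) e2 (convex_ball _ _) ?_ q1
        (q2 t ht z hz' z0) (sl t ht z hz' z0)
      rw [mem_ball_iff_norm, add_sub_right_comm]
      refine (norm_add_le _ _).trans_lt ?_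
      rw [norm_smul, hL.one, Real.norm_of_nonneg (by positivity)]
      linarith [mem_ball_iff_norm.1 hz]
  intro t ht z hz z0
  have ht' : t ∈ Ioc (s - 4 * ρ ^ 2) s := ⟨by linarith [ht.1], ht.2⟩
  obtain ⟨ε, e1, e2⟩ := al t ht' z (ball_subset_ball (by linarith) hz) z0
  rcases e1 with rfl | rfl
  · simpa using e2.trans η1
  have k1 := sg t ht' z hz z0 (-1) (.inr rfl) (e2.trans η1)
  have k2 := sg s hs y (mem_ball_self (by positivity)) h0 1 (.inl rfl)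
    (by simpa using le_trans (by positivity) η1)
  have k3 := (same_sign (f := fun x => F.u (x, q)) ht.2 (fun x hx =>
    (ContinuousAt.comp (f := fun x => (x, q)) (cu hF (dom x ⟨ht'.1.trans_le hx.1, hx.2⟩) q)
      (by fun_prop)).continuousWithinAt) fun x hx x0 => ?_).2 (by simpa using k2)
  · linarith
  have := q2 x ⟨ht'.1.trans_le hx.1, hx.2⟩ q q1 x0
  rw [sub_self, inner_zero_left] at this
  linarith

end Wh

open Wh in
theorem key (pt : PT) {σ : ℝ} (s0 : 0 < σ) (s1 : σ ≤ 1 / 16) (hl : ∀ Λ : ℝ, ∃ c > (0 : ℝ),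
    c ≤ 1 / 4 ∧ ∃ C : ℕ → ℝ, (∀ k, 0 ≤ C k) ∧ LB σ Λ c C) : KEY σ := fun Λ => by
  obtain ⟨R, R1, anc, hp⟩ := pt Λ
  obtain ⟨c, c0, c1, C, C0, hl⟩ := hl Λ
  obtain ⟨θ, θ0, θ1, θ2⟩ : ∃ θ > (0 : ℝ), θ ≤ σ ∧ θ * (2 * (2 * R + 3) + 1) ≤ 1 / 8 :=
    ⟨min σ (1 / 8 / (2 * (2 * R + 3) + 1)), by positivity, min_le_left _ _,
      (le_div_iff₀ (by positivity)).1 (min_le_right _ _)⟩
  have e1 : 32 * (θ * c / 32) / c = θ := by field_simp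
  obtain ⟨ε, ε0, h⟩ := pair (K := 2 * R + 3) (η := θ * c / 32) hl c0 (C0 0) R1 (by linarith)
    (by positivity) hp
  refine ⟨2 * R + 3, by linarith, ε, ε0, fun F a b s t₀ ρ y hF hρ h1 h2 h3 h0 h4 => ?_⟩
  have r2 : 0 < ρ ^ 2 := by positivity
  have hs : s ∈ Ioc (s - 4 * ρ ^ 2) s := ⟨by linarith, le_rfl⟩
  obtain ⟨L, hL, v, hv⟩ := hl F a b s (ρ / 2) y hF (by positivity) (by linarith) h3 h0
    (h4 s hs y (mem_ball_self (by positivity)) h0).2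
  refine improve hF.toOk hL hρ (by linarith) h3 h0 R1 s1 c0 (by positivity) (e1.trans_le θ1)
    (by rw [e1]; nlinarith) (h F a b s t₀ ρ y hF hρ h1 h2 h3 h4)
    (fun t ht z hz z0 => (h4 t ht z hz z0).2) (fun t ht => ?_) fun i => ?_
  · rcases ht.2.eq_or_lt with rfl | h5
    · exact ⟨y, h0, by rw [sub_self, norm_zero]; positivity⟩
    obtain ⟨z, z0, z1⟩ := anc F a b s t y hF (by linarith [ht.1]) h5 h3 h0
    have : √(s - t) ≤ 2 * ρ := Real.sqrt_le_iff.2 ⟨by positivity, by linarith [ht.1]⟩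
    exact ⟨z, z0, z1.trans (by nlinarith)⟩
  · have cρ : 0 < c * ρ := by positivity
    have n1 : ‖(c * ρ / 4) • (EuclideanSpace.single i 1 : E 2)‖ = c * ρ / 4 := by
      rw [norm_smul, Real.norm_of_nonneg (by positivity)]; simp
    obtain ⟨g1, g2⟩ := (hv s ⟨sub_lt_self _ (by positivity), le_rfl⟩).2.1 _
      (n1.trans_lt (by linarith))
    refine ⟨_, ?_, (g2 _ g1).2.2 rfl⟩
    rw [mem_ball_iff_norm, add_assoc, add_sub_cancel_left]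
    refine (hL.norm_le _ _).trans_lt ?_
    rw [n1]
    nlinarith

end Vale.Agent.P218R
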