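import Vale.Agent.P218R.WSpec
import Vale.Agent.P218R.WBern5
import Vale.Agent.P218R.Base
import Vale.Agent.P366W.Graph1

/-!
# P218R: small tilt gives a graph with all bounds
-/

open MeasureTheory Metric Filter Topology Set
open scoped ContDiff ENNReal RealInnerProductSpace
open Vale.Agent.P366.Stmt (E)
open Vale.Agent.P366W (trc dvg Fr adj)

noncomputable section

namespace Vale.Agent.P218R

namespace Wh

variable {F : Flw} {a b s t ρ σ : ℝ} {y e : E3} {L : E 2 →ₗᵢ[ℝ] E3}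

theorem cu (h : F.Ok a b) (ht : t ∈ Ioo a b) (z : E3) : ContinuousAt F.u (t, z) :=
  (h.su.contDiffAt (Flw.mem_dom ht z)).continuousAt

theorem cn (h : F.Ok a b) (ht : t ∈ Ioo a b) (z : E3) : ContinuousAt F.n (t, z) :=
  (h.sn.contDiffAt (Flw.mem_dom ht z)).continuousAt

theorem line (h : F.Ok a b) (ht : t ∈ Ioo a b) (p z : E3) (c : ℝ) :
    HasDerivAt (fun c : ℝ => F.u (t, p + c • z)) (fderiv ℝ (F.sl t).w (p + c • z) z) c :=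
  ((h.sl ht).dw _).hasFDerivAt.comp_hasDerivAt c
    (by simpa using ((hasDerivAt_id c).smul_const z).const_add p)

theorem ev_tilt (h : F.Ok a b) (hs : s ∈ Ioo a b) {K : Set E3} (hK : IsCompact K) {σ' : ℝ}
    (hσ : σ < σ') (ht : ∀ z ∈ K, F.u (s, z) = 0 → ‖F.n (s, z) - e‖ ≤ σ) :
    ∀ᶠ t in 𝓝 s, ∀ z ∈ K, F.u (t, z) = 0 → ‖F.n (t, z) - e‖ ≤ σ' := by
  refine hK.eventually_forall_of_forall_eventually fun z hz => ?_
  by_cases h0 : F.u (s, z) = 0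
  · exact (((cn h hs z).sub continuousAt_const).norm.eventually
      (gt_mem_nhds ((ht z hz h0).trans_lt hσ))).mono fun _ h1 _ => h1.le
  · exact ((cu h hs z).eventually_ne h0).mono fun _ h1 h2 => absurd h2 h1

theorem ev_zero (h : F.Ok a b) (hs : s ∈ Ioo a b) (h0 : F.u (s, y) = 0) (hρ : 0 < ρ) :
    ∀ᶠ t in 𝓝 s, ∃ q ∈ ball y ρ, F.u (t, q) = 0 := by
  have hd := line h hs y (F.n (s, y)) 0
  have hS := h.sl hs
  have e1 : (F.sl s).w y = 0 := h0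
  have e2 : ‖F.n (s, y)‖ = 1 := hS.norm_n e1
  rw [zero_smul, add_zero, hS.fderiv_w e1] at hd
  have hp : 0 < ‖gradient (F.sl s).w y‖ * ⟪(F.sl s).n y, F.n (s, y)⟫ :=
    mul_pos (hS.gpos e1) (by rw [show F.n (s, y) = (F.sl s).n y from rfl, hS.nn e1]; exact one_pos)
  obtain ⟨c, c1, c2⟩ := ((hd.tendsto_slope_zero_right.eventually (lt_mem_nhds hp)).and
    (Ioo_mem_nhdsGT hρ)).exists
  obtain ⟨d, d1, d2⟩ := ((hd.tendsto_slope_zero_left.eventually (lt_mem_nhds hp)).and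
    (Ioo_mem_nhdsLT (neg_lt_zero.2 hρ))).exists
  simp only [zero_add, zero_smul, add_zero, h0, sub_zero, smul_eq_mul] at c1 d1
  have c3 : 0 < F.u (s, y + c • F.n (s, y)) := (mul_pos_iff_of_pos_left (inv_pos.2 c2.1)).1 c1
  have d3 : F.u (s, y + d • F.n (s, y)) < 0 := by
    by_contra! d4
    exact absurd d1 (not_lt.2 (mul_nonpos_of_nonpos_of_nonneg (inv_nonpos.2 d2.2.le) d4))
  have k : ∀ z, ContinuousAt (fun t => F.u (t, z)) s := fun z =>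
    ContinuousAt.comp (f := fun t => (t, z)) (cu h hs z) (by fun_prop)
  filter_upwards [(k _).eventually (lt_mem_nhds c3), (k _).eventually (gt_mem_nhds d3),
    Ioo_mem_nhds hs.1 hs.2] with t t1 t2 t3
  obtain ⟨x, x1, x2⟩ := intermediate_value_Icc (d2.2.trans c2.1).le
    (fun x _ => (line h t3 y (F.n (s, y)) x).continuousAt.continuousWithinAt) ⟨t2.le, t1.le⟩
  refine ⟨_, ?_, x2⟩
  rw [mem_ball_iff_norm, add_sub_cancel_left, norm_smul, e2, mul_one]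
  exact abs_lt.2 ⟨d2.1.trans_le x1.1, x1.2.trans_lt c2.2⟩

theorem fderiv_gx {f : Z2 → ℝ} {x : E 2} (hf : DifferentiableAt ℝ f (t, x)) :
    ‖fderiv ℝ (fun x => f (t, x)) x‖ = ‖gx f (t, x)‖ := by
  rw [← innerSL_apply_norm ℝ (gx f (t, x)), Bern.fderiv_sl hf]
  congr 1
  ext1 ξ
  simp [gx, PiLp.inner_apply, mul_comm]

theorem nrm_near (h : Fr e L) (g : E 2) : ‖(√(1 + ‖g‖ ^ 2))⁻¹ • (e - L g) - e‖ ≤ 2 * ‖g‖ := by
  have h0 := norm_nonneg g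
  have h1 : 1 ≤ √(1 + ‖g‖ ^ 2) := Real.one_le_sqrt.2 (by nlinarith)
  have h2 : √(1 + ‖g‖ ^ 2) ≤ 1 + ‖g‖ := Real.sqrt_le_iff.2 ⟨by positivity, by nlinarith⟩
  generalize √(1 + ‖g‖ ^ 2) = W at h1 h2
  have h3 : W⁻¹ ≤ 1 := inv_le_one_of_one_le₀ h1
  have h4 : 0 < W⁻¹ := by positivity
  have h5 : W * W⁻¹ = 1 := mul_inv_cancel₀ (by positivity)
  have h6 : W⁻¹ • (e - L g) - e = L ((-W⁻¹) • g) + (W⁻¹ - 1) • e := by
    rw [map_smul]; module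
  rw [h6]
  refine (h.norm_le _ _).trans ?_
  rw [norm_smul, norm_neg, Real.norm_of_nonneg h4.le, abs_of_nonpos (by linarith)]
  nlinarith

theorem Gr_mono {S : Srf} {r r' : ℝ} {v : E 2 → ℝ} (h : S.Gr y e L r r v) (hr : r' ≤ r)
    (hv : ∀ x, ‖x‖ < r' → |v x| < r') : S.Gr y e L r' r' v := fun x hx =>
  ⟨hv x hx, fun c hc => (h x (hx.trans_le hr)).2 c (hc.trans_le hr)⟩

theorem sol_mono {v : Z2 → ℝ} {t₁ t₂ r r' σ' : ℝ} (h : Sol v t₁ t₂ r σ) (hr : r' ≤ r)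
    (h0 : 0 ≤ σ) (hσ : σ ≤ σ') : Sol v t₁ t₂ r' σ' :=
  have k : Ioo t₁ t₂ ×ˢ ball (0 : E 2) r' ⊆ Ioo t₁ t₂ ×ˢ ball 0 r :=
    prod_mono_right (ball_subset_ball hr)
  ⟨h.sm.mono k, fun z hz => (h.gr z (k hz)).trans (pow_le_pow_left₀ h0 hσ 2),
    fun z hz => h.eq z (k hz)⟩

theorem ex_graph (fgr : FGR) {R κ Λ : ℝ} (R1 : 1 ≤ R) (k0 : 0 < κ) (k1 : κ * (128 * R) = 1)
    (anc : ∀ (F : Flw) (a b s t : ℝ) (y : E3), F.OkA a b Λ → a < t → t < s → s < b →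
      F.u (s, y) = 0 → ∃ z, F.u (t, z) = 0 ∧ ‖z - y‖ ≤ R * √(s - t)) (s1 : 0 < σ)
    (s3 : σ ≤ 1 / 16) (hF : F.OkA a b Λ) (hρ : 0 < ρ) (ha : a ≤ s - ρ ^ 2) (hb : s < b)
    (h0 : F.u (s, y) = 0) (ht : F.TL s y ρ σ) : ∃ L, Fr (F.n (s, y)) L ∧ ∃ t₂ > s, ∃ v : Z2 → ℝ,
      Sol v (s - 4 * (κ * ρ) ^ 2) t₂ (ρ / 4) (2 * (2 * σ)) ∧ ∀ t ∈ Ioo (s - 4 * (κ * ρ) ^ 2) t₂,
        (F.sl t).Gr y (F.n (s, y)) L (ρ / 4) (ρ / 4) (fun x => v (t, x)) ∧ ∀ x, ‖x‖ < ρ / 4 →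
          F.n (t, y + L x + v (t, x) • F.n (s, y)) =
            (√(1 + ‖gx v (t, x)‖ ^ 2))⁻¹ • (F.n (s, y) - L (gx v (t, x))) := by
  have k2 : κ ≤ 1 / 128 := by nlinarith
  have r2 : 0 < ρ ^ 2 := by positivity
  have hs : s ∈ Ioo a b := ⟨by linarith, hb⟩
  obtain ⟨L, hL⟩ := ex_fr ((hF.toOk.sl hs).norm_n (x := y) h0)
  obtain ⟨t₂, t1, t2⟩ := (nhdsGE_basis_Ico s).eventually_iff.1 (nhdsWithin_le_nhds
    (((ev_tilt hF.toOk hs (isCompact_closedBall y (3 * (ρ / 4))) (show σ < 2 * σ by linarith)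
      fun z hz => ht s ⟨by linarith, le_rfl⟩ z (closedBall_subset_ball (by linarith) hz)).and
        (ev_zero hF.toOk hs h0 (show 0 < ρ / 4 / 8 by positivity))).and (gt_mem_nhds hb)))
  have kρ : 0 < κ * ρ := by positivity
  have kρ2 : 4 * (κ * ρ) ^ 2 < ρ ^ 2 := by
    rw [mul_pow, ← mul_assoc]; exact mul_lt_of_lt_one_left r2 (by nlinarith)
  refine ⟨L, hL, min t₂ b, lt_min t1 hb, fgr F a b (s - 4 * (κ * ρ) ^ 2) (min t₂ b) (ρ / 4) (2 * σ) y _ L hF.toOk hL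
    (by linarith) (min_le_right _ _) (by positivity) (by linarith) fun t htt => ?_⟩
  rcases lt_or_ge t s with h1 | h1
  · refine ⟨?_, fun q hq h2 => (ht t ⟨by linarith [htt.1], h1.le⟩ q
      (ball_subset_ball (by linarith) hq) h2).trans (by linarith)⟩
    obtain ⟨z, z1, z2⟩ := anc F a b s t y hF (by linarith [htt.1]) h1 hb h0
    refine ⟨z, mem_ball_iff_norm.2 (z2.trans_lt ?_), z1⟩
    have : √(s - t) ≤ 2 * (κ * ρ) := Real.sqrt_le_iff.2 ⟨by positivity, by nlinarith [htt.1]⟩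
    nlinarith [mul_le_mul_of_nonneg_left this (by linarith : 0 ≤ R)]
  · have h2 := t2 ⟨h1, htt.2.trans_le (min_le_left _ _)⟩
    exact ⟨h2.1.2, fun q hq => h2.1.1 q (ball_subset_closedBall hq)⟩

theorem est {v : Z2 → ℝ} {κ c A B t₂ σ' : ℝ} (k0 : 0 < κ) (k2 : κ ≤ 1 / 128) (A0 : 0 ≤ A)
    (A1 : B = A * κ ^ 2 / 2) (c0 : 0 < c) (c1 : c ≤ κ / 2) (hρ : 0 < ρ) (t3 : s < t₂)
    (hv : Sol v (s - 4 * (κ * ρ) ^ 2) t₂ (ρ / 4) σ') (v0 : v (s, 0) = 0) (g0 : gx v (s, 0) = 0)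
    (b2 : ∀ t ∈ Ico (s - 4 * (κ * ρ) ^ 2 + (κ * ρ) ^ 2) t₂,
      ∀ t' ∈ Ico (s - 4 * (κ * ρ) ^ 2 + (κ * ρ) ^ 2) t₂, ∀ y y' : E 2, ‖y‖ < κ * ρ / 2 →
        ‖y'‖ < κ * ρ / 2 → |v (t, y) - v (t', y)| ≤ B * |t - t'| / (κ * ρ) ∧
          ‖gx v (t, y) - gx v (t', y')‖ ≤ B * (‖y - y'‖ / (κ * ρ) + |t - t'| / (κ * ρ) ^ 2)) :
    ∀ t ∈ Ioc (s - (c * ρ) ^ 2) s, ∀ x : E 2, ‖x‖ < c * ρ →
      ‖gx v (t, x)‖ ≤ A / 2 * (‖x‖ / ρ + (s - t) / ρ ^ 2) ∧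
        |v (t, x)| ≤ A * (‖x‖ ^ 2 + (s - t)) / ρ := by
  have kρ : 0 < κ * ρ := by positivity
  have kρ3 : κ * ρ ≤ ρ / 4 := by nlinarith
  have cρ : c * ρ ≤ κ * ρ / 2 := by nlinarith
  have cρ0 : 0 < c * ρ := by positivity
  have hU : IsOpen (Ioo (s - 4 * (κ * ρ) ^ 2) t₂ ×ˢ ball (0 : E 2) (ρ / 4)) :=
    isOpen_Ioo.prod isOpen_ball
  have sv : Bern.Sm _ v := fun z hz => hv.sm.contDiffAt (hU.mem_nhds hz)
  have m1 : ∀ t ∈ Ioc (s - (c * ρ) ^ 2) s, t ∈ Ico (s - 4 * (κ * ρ) ^ 2 + (κ * ρ) ^ 2) t₂ ∧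
      t ∈ Ioo (s - 4 * (κ * ρ) ^ 2) t₂ := fun t h =>
    ⟨⟨by nlinarith [h.1], h.2.trans_lt t3⟩, by nlinarith [h.1], h.2.trans_lt t3⟩
  have ms := m1 s ⟨by nlinarith, le_rfl⟩
  have gb : ∀ t ∈ Ioc (s - (c * ρ) ^ 2) s, ∀ x : E 2, ‖x‖ < c * ρ →
      ‖gx v (t, x)‖ ≤ A / 2 * (‖x‖ / ρ + (s - t) / ρ ^ 2) := fun t h x hx => by
    have h1 := (b2 t (m1 t h).1 s ms.1 x 0 (hx.trans_le cρ) (by simpa using kρ)).2
    rw [g0, sub_zero, sub_zero, abs_sub_comm, abs_of_nonneg (sub_nonneg.2 h.2), A1] at h1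
    refine h1.trans ?_
    have e : A * κ ^ 2 / 2 * (‖x‖ / (κ * ρ) + (s - t) / (κ * ρ) ^ 2) =
        A / 2 * (κ * (‖x‖ / ρ) + (s - t) / ρ ^ 2) := by field_simp
    rw [e]
    gcongr
    exact mul_le_of_le_one_left (by positivity) (by linarith)
  have da : ∀ t ∈ Ioc (s - (c * ρ) ^ 2) s, ∀ x : E 2, ‖x‖ < c * ρ →
      (t, x) ∈ Ioo (s - 4 * (κ * ρ) ^ 2) t₂ ×ˢ ball (0 : E 2) (ρ / 4) := fun t h x hx =>
    ⟨(m1 t h).2, mem_ball_zero_iff.2 (by linarith)⟩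
  have vb : ∀ t ∈ Ioc (s - (c * ρ) ^ 2) s, ∀ x : E 2, ‖x‖ < c * ρ →
      |v (t, x)| ≤ A * (‖x‖ ^ 2 + (s - t)) / ρ := fun t h x hx => by
    have h1 := (b2 t (m1 t h).1 s ms.1 x x (hx.trans_le cρ) (hx.trans_le cρ)).1
    rw [abs_sub_comm t s, abs_of_nonneg (sub_nonneg.2 h.2), A1] at h1
    have hs' : s ∈ Ioc (s - (c * ρ) ^ 2) s := ⟨by nlinarith, le_rfl⟩
    have h2 := (convex_closedBall (0 : E 2) ‖x‖).norm_image_sub_le_of_norm_fderiv_le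
      (f := fun x => v (s, x)) (C := A / 2 * (‖x‖ / ρ)) (fun w hw => (Bern.sm_sl sv (da s hs' w
        ((mem_closedBall_zero_iff.1 hw).trans_lt hx))).differentiableAt (by simp))
      (fun w hw => by
        have hw' := mem_closedBall_zero_iff.1 hw
        rw [fderiv_gx (sv.da (da s hs' w (hw'.trans_lt hx)))]
        refine (gb s hs' w (hw'.trans_lt hx)).trans ?_
        rw [sub_self, zero_div, add_zero]; gcongr)
      (mem_closedBall_self (norm_nonneg x)) (mem_closedBall_zero_iff.2 le_rfl)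
    rw [v0, sub_zero, sub_zero, Real.norm_eq_abs] at h2
    have e : A * κ ^ 2 / 2 * (s - t) / (κ * ρ) = κ / 2 * (A * (s - t) / ρ) := by field_simp
    have p1 : 0 ≤ A * (s - t) / ρ := div_nonneg (mul_nonneg A0 (sub_nonneg.2 h.2)) hρ.le
    have p2 : 0 ≤ A * ‖x‖ ^ 2 / ρ := by positivity
    have e2 : A / 2 * (‖x‖ / ρ) * ‖x‖ = A * ‖x‖ ^ 2 / ρ / 2 := by ring
    have e3 : A * (‖x‖ ^ 2 + (s - t)) / ρ = A * ‖x‖ ^ 2 / ρ + A * (s - t) / ρ := by ring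
    have := abs_sub_le (v (t, x)) (v (s, x)) 0
    rw [sub_zero, sub_zero] at this
    rw [e] at h1
    nlinarith
  exact fun t h x hx => ⟨gb t h x hx, vb t h x hx⟩

end Wh

open Wh in
theorem wloc (fgr : FGR) (pt : PT) : WLOC := by
  obtain ⟨σ₀, s0, B, B0, hB⟩ := bern
  obtain ⟨σ, s1, s2, s3⟩ : ∃ σ > (0 : ℝ), σ ≤ σ₀ / 4 ∧ σ ≤ 1 / 16 :=
    ⟨min (σ₀ / 4) (1 / 16), by positivity, min_le_left _ _, min_le_right _ _⟩
  refine ⟨σ, s1, s3, fun Λ => ?_⟩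
  obtain ⟨R, R1, anc, -⟩ := pt Λ
  obtain ⟨κ, k0, k1⟩ : ∃ κ > (0 : ℝ), κ * (128 * R) = 1 :=
    ⟨(128 * R)⁻¹, by positivity, inv_mul_cancel₀ (by positivity)⟩
  have k2 : κ ≤ 1 / 128 := by nlinarith
  obtain ⟨A, A0, A1⟩ : ∃ A ≥ (0 : ℝ), B 0 = A * κ ^ 2 / 2 :=
    ⟨2 * B 0 / κ ^ 2, by have := B0 0; positivity, by field_simp⟩
  obtain ⟨c, c0, c1, c2⟩ : ∃ c > (0 : ℝ), c ≤ κ / 2 ∧ c * (2 * A + 1) ≤ 1 :=
    ⟨min (κ / 2) (2 * A + 1)⁻¹, by positivity, min_le_left _ _,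
      (le_inv_mul_iff₀' (by positivity)).1 (by rw [mul_one]; exact min_le_right _ _)⟩
  refine ⟨c, c0, by linarith, fun k => if k = 0 then A else B k * κ / κ ^ k, fun k => by
    have := B0 k
    beta_reduce; split_ifs <;> positivity, fun F a b s ρ y hF hρ ha hb h0 ht => ?_⟩
  obtain ⟨L, hL, t₂, t3, v, hv, hG⟩ := ex_graph fgr R1 k0 k1 anc s1 s3 hF hρ ha hb h0 ht
  have kρ : 0 < κ * ρ := by positivity
  have kρ3 : κ * ρ ≤ ρ / 4 := by nlinarith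
  have cρ : c * ρ ≤ κ * ρ / 2 := by nlinarith
  have cρ0 : 0 < c * ρ := by positivity
  have hU : IsOpen (Ioo (s - 4 * (κ * ρ) ^ 2) t₂ ×ˢ ball (0 : E 2) (ρ / 4)) :=
    isOpen_Ioo.prod isOpen_ball
  have sv : Bern.Sm _ v := fun z hz => hv.sm.contDiffAt (hU.mem_nhds hz)
  have m1 : ∀ t ∈ Ioc (s - (c * ρ) ^ 2) s, t ∈ Ico (s - 4 * (κ * ρ) ^ 2 + (κ * ρ) ^ 2) t₂ ∧
      t ∈ Ioo (s - 4 * (κ * ρ) ^ 2) t₂ := fun t h =>
    ⟨⟨by nlinarith [h.1], h.2.trans_lt t3⟩, by nlinarith [h.1], h.2.trans_lt t3⟩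
  have ms := m1 s ⟨by nlinarith, le_rfl⟩
  obtain ⟨b1, b2⟩ := hB v _ _ _ kρ (sol_mono hv kρ3 (by positivity) (by linarith))
  have z0 : ‖(0 : E 2)‖ < ρ / 4 := by simpa using hρ
  have v0 : v (s, 0) = 0 :=
    ((((hG s ms.2).1 0 z0).2 0 (by simpa using hρ)).2.1 (by simpa [Flw.sl] using h0)).symm
  have g0 : gx v (s, 0) = 0 := by
    have h1 := congrArg (adj L) ((hG s ms.2).2 0 z0)
    simp only [v0, map_zero, add_zero, zero_smul, map_smul, map_sub, hL.adj_e, P366W.adj_L,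
      zero_sub] at h1
    exact neg_eq_zero.1 ((smul_eq_zero.1 h1.symm).resolve_left (by positivity))
  have k := est k0 k2 A0 A1 c0 c1 hρ t3 hv v0 g0 b2
  have gb := fun t h x hx => (k t h x hx).1
  have vb := fun t h x hx => (k t h x hx).2
  have da : ∀ t ∈ Ioc (s - (c * ρ) ^ 2) s, ∀ x : E 2, ‖x‖ < c * ρ →
      (t, x) ∈ Ioo (s - 4 * (κ * ρ) ^ 2) t₂ ×ˢ ball (0 : E 2) (ρ / 4) := fun t h x hx =>
    ⟨(m1 t h).2, mem_ball_zero_iff.2 (by linarith)⟩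
  refine ⟨L, hL, v, fun t h => ⟨fun x hx => (Bern.sm_sl sv
    (da t h x (mem_ball_zero_iff.1 hx))).contDiffWithinAt, Gr_mono (hG t (m1 t h).2).1
      (by linarith) fun x hx => (vb t h x hx).trans_lt ?_, fun x hx => ⟨vb t h x hx, ?_,
        fun k hk => ?_⟩, fun z hz z0 => ?_⟩⟩
  · rw [div_lt_iff₀ hρ]
    have h1 : ‖x‖ ^ 2 ≤ (c * ρ) ^ 2 := pow_le_pow_left₀ (norm_nonneg _) hx.le 2
    have h2 : A * (‖x‖ ^ 2 + (s - t)) ≤ A * (2 * (c * ρ) ^ 2) :=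
      mul_le_mul_of_nonneg_left (by linarith [h.1]) A0
    have h3 : 0 < c * ρ ^ 2 := by positivity
    nlinarith [mul_le_mul_of_nonneg_right c2 h3.le, mul_pos c0 h3]
  · rw [fderiv_gx (sv.da (da t h x hx))]
    refine (gb t h x hx).trans ?_
    have := sub_nonneg.2 h.2
    simp only [if_true]
    gcongr
    linarith
  · beta_reduce
    rw [if_neg (by omega)]
    refine (b1 t (m1 t h).1 x (hx.trans_le cρ) k hk).trans_eq ?_
    rw [mul_pow]; field_simp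
  · have h1 := mem_ball_iff_norm.1 hz
    have h2 := hL.norm_adj (z - y)
    have h3 : |⟪F.n (s, y), z - y⟫| ≤ ‖z - y‖ := by
      simpa [hL.one] using abs_real_inner_le_norm (F.n (s, y)) (z - y)
    have h4 : y + L (adj L (z - y)) + ⟪F.n (s, y), z - y⟫ • F.n (s, y) = z := by
      rw [add_assoc, hL.dec, add_sub_cancel]
    have h5 := (((hG t (m1 t h).2).1 (adj L (z - y)) (by linarith)).2 ⟪F.n (s, y), z - y⟫
      (by linarith)).2.1 (by rw [h4]; exact z0)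
    have h6 := (hG t (m1 t h).2).2 (adj L (z - y)) (by linarith)
    beta_reduce at h5
    rw [← h5, h4] at h6
    rw [h6]
    refine (nrm_near hL _).trans ?_
    have h7 := gb t h _ (h2.trans_lt h1)
    have h8 : A * (‖adj L (z - y)‖ / ρ) ≤ A * (‖z - y‖ / ρ) := by gcongr
    simp only [if_true]
    linarith

end Vale.Agent.P218R
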